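import Vale.Agent.Lib.P078G.Cut
import Vale.Agent.Lib.P078.Spectral

/-!
# P078G Limit: the pinching-limit expectation

`exists_limExp`: `Part A` is directed (`Part.directed h.comm`), `U = Ultrafilter.of atTop`.  For
every `y` let `E y` be the weak limit of `Q.pinch y` along `U` (`P078.exists_weak_limit`,
`Part.pinch_norm`), chosen by `choose`; linear by uniqueness of limits.
* `comm_map`: for every `y ∈ B(H)` the limit `E y` commutes with `A`; `mem`: for `y ∈ M` all
  pinchings are in `M`, so `E y ∈ M` (`weak_mem_M`), so `E y ∈ A` (`MM.cent`).  For `comm_map`: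
  `P078.ev_commute` in `Lib/P078/Spectral.lean` with `Max A` replaced by `MM M A` (there `Max` is
  used only through `rp_mem` and `cfc_mem`: for `a ∈ A` self-adjoint, `cfc f a` and the range
  projection `rp (cfc f a)` commute with everything which commutes with `a`; in particular with
  `M.commutant` and with `A`, so they are in `A` by `mem_of_comm` and `MM.cent`).
* `id`, `left`, `right`: `Q.pinch (a * y) = a * Q.pinch y` for `a ∈ A` exactly (`h.comm`), `∑ e_i = 1`.
* `map_star`, `nonneg`: limits of `Q.pinch (star y) = star (Q.pinch y)` and of positive operators.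
-/

namespace Vale.Agent.P078

open Filter
open scoped InnerProductSpace Topology

universe u

variable {H : Type u} [NormedAddCommGroup H] [InnerProductSpace ℂ H] [CompleteSpace H]
  {M : VonNeumannAlgebra H} {A : StarSubalgebra ℂ (H →L[ℂ] H)}

private theorem lim_cfc_mem (h : MM M A) {a : H →L[ℂ] H} (ha : a ∈ A) (f : ℝ → ℝ) :
    cfc f a ∈ A := by
  refine h.cent _ (mem_of_comm fun t ht => ?_) fun b hb => ?_
  · have h1 : Commute a t := comm_of_mem (h.le a ha) ht
    exact (h1.cfc_real f).eq.symm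
  · have h1 : Commute a b := h.comm a ha b hb
    exact (h1.cfc_real f).eq.symm

private theorem lim_rp_comm {y b : H →L[ℂ] H} (h1 : b * y = y * b)
    (h2 : star b * y = y * star b) : b * _root_.P078.rp y = _root_.P078.rp y * b := by
  have key : ∀ b : H →L[ℂ] H, b * y = y * b →
      ∀ v ∈ (LinearMap.range (y : H →ₗ[ℂ] H)).topologicalClosure,
      b v ∈ (LinearMap.range (y : H →ₗ[ℂ] H)).topologicalClosure := by
    intro b hb
    have h1 : (LinearMap.range (y : H →ₗ[ℂ] H)).topologicalClosure ≤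
        ((LinearMap.range (y : H →ₗ[ℂ] H)).topologicalClosure).comap (b : H →ₗ[ℂ] H) := by
      refine Submodule.topologicalClosure_minimal _ ?_ ?_
      · rintro _ ⟨w, rfl⟩
        rw [Submodule.mem_comap]
        have := congrArg (fun T : H →L[ℂ] H => T w) hb
        simp only [mul_apply_eq_comp] at this
        change b (y w) ∈ _
        rw [this]
        exact Submodule.le_topologicalClosure _ (LinearMap.mem_range_self _ _)
      · exact (Submodule.isClosed_topologicalClosure _).preimage b.continuous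
    exact fun v hv => h1 hv
  exact _root_.P078.commute_of_invt (key b h1) (key (star b) h2)

private theorem lim_rp_mem (h : MM M A) {y : H →L[ℂ] H} (hy : y ∈ A) :
    _root_.P078.rp y ∈ A := by
  refine h.cent _ (mem_of_comm fun t ht => ?_) fun b hb => ?_
  · exact lim_rp_comm (comm_of_mem (h.le y hy) ht).symm
      (comm_of_mem (h.le y hy) (star_mem ht)).symm
  · exact lim_rp_comm (h.comm b hb y hy) (h.comm _ (star_mem hb) y hy)

private theorem lim_ev_level (h : MM M A) {a : H →L[ℂ] H} (ha : a ∈ A) (l : ℝ) :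
    ∀ᶠ Q : _root_.P078.Part A in atTop, ∀ j,
      _root_.P078.zz a l * Q.e j = 0 ∨ _root_.P078.yy a l * Q.e j = 0 := by
  have hy : _root_.P078.yy a l ∈ A := lim_cfc_mem h ha _
  filter_upwards [eventually_ge_atTop (_root_.P078.Part.two (_root_.P078.rp (_root_.P078.yy a l))
    (lim_rp_mem h hy) (_root_.P078.rp_proj _))] with Q hQ j
  obtain ⟨i, hi⟩ := hQ j
  change Fin 2 at i
  fin_cases i
  · left
    have h1 : _root_.P078.rp (_root_.P078.yy a l) * Q.e j = Q.e j := hi
    have h2 : _root_.P078.zz a l * _root_.P078.rp (_root_.P078.yy a l) =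
        0 * _root_.P078.rp (_root_.P078.yy a l) :=
      _root_.P078.mul_rp_eq (by rw [_root_.P078.zz_mul_yy, zero_mul])
    rw [← h1, ← mul_assoc, h2, zero_mul, zero_mul]
  · right
    have h1 : (1 - _root_.P078.rp (_root_.P078.yy a l)) * Q.e j = Q.e j := hi
    have h2 : _root_.P078.yy a l * (1 - _root_.P078.rp (_root_.P078.yy a l)) = 0 := by
      rw [mul_sub, mul_one, h.comm _ hy _ (lim_rp_mem h hy), _root_.P078.rp_mul_self, sub_self]
    rw [← h1, ← mul_assoc, h2, zero_mul]

private theorem lim_ev_scalar (hA : MM M A) {a : H →L[ℂ] H} (ha : a ∈ A)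
    (hs : IsSelfAdjoint a) {h : ℝ} (hh : 0 < h) :
    ∀ᶠ Q : _root_.P078.Part A in atTop, ∀ j, ∃ c : ℂ, ∀ v,
      ‖a (Q.e j v) - c • Q.e j v‖ ≤ h * ‖Q.e j v‖ := by
  obtain ⟨R, hR0, hR⟩ := _root_.P078.exists_bound a
  obtain ⟨N, hN⟩ := exists_nat_ge (2 * R / h)
  have hN' : R ≤ -R + N * h := by
    rw [div_le_iff₀ hh] at hN
    linarith
  have hev : ∀ᶠ Q : _root_.P078.Part A in atTop, ∀ k ∈ Finset.range (N + 1), ∀ j,
      _root_.P078.zz a (-R + k * h) * Q.e j = 0 ∨ _root_.P078.yy a (-R + k * h) * Q.e j = 0 :=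
    (Filter.eventually_all_finset _).mpr fun k _ => lim_ev_level hA ha _
  filter_upwards [hev] with Q hQ j
  have hex : ∃ k : ℕ, _root_.P078.yy a (-R + k * h) * Q.e j = 0 :=
    ⟨N, by rw [_root_.P078.yy_zero hR hN', zero_mul]⟩
  classical
  have hap : ∀ {S : H →L[ℂ] H}, S * Q.e j = 0 → ∀ v, S (Q.e j v) = 0 := fun {S} hS v => by
    have := congrArg (fun T : H →L[ℂ] H => T v) hS
    simpa using this
  have hm := Nat.find_spec hex
  have hmin : Nat.find hex ≤ N :=
    Nat.find_min' hex (by rw [_root_.P078.yy_zero hR hN', zero_mul])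
  rcases Nat.eq_zero_or_pos (Nat.find hex) with h0 | h0
  · refine ⟨((-R : ℝ) : ℂ), fun v => ?_⟩
    refine _root_.P078.slab hs (le_refl (-R)) (by linarith) ?_ (hap ?_ v)
    · rw [_root_.P078.zz_zero hR le_rfl]; rfl
    · rw [h0] at hm
      simpa using hm
  · obtain ⟨m, hm2⟩ := Nat.exists_eq_succ_of_ne_zero h0.ne'
    have h3 : ¬ _root_.P078.yy a (-R + m * h) * Q.e j = 0 := Nat.find_min hex (by omega)
    have h4 := (hQ m (by simp; omega) j).resolve_right h3
    refine ⟨((-R + m * h : ℝ) : ℂ), fun v => ?_⟩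
    refine _root_.P078.slab (m := -R + ((m + 1 : ℕ) : ℝ) * h) hs ?_ ?_ (hap h4 v) (hap ?_ v)
    · push_cast; nlinarith
    · push_cast; nlinarith
    · rw [hm2] at hm
      exact hm

private theorem lim_ev_commute (hA : MM M A) {a : H →L[ℂ] H} (ha : a ∈ A)
    (hs : IsSelfAdjoint a) (x : H →L[ℂ] H) {h : ℝ} (hh : 0 < h) :
    ∀ᶠ Q : _root_.P078.Part A in atTop,
      ‖a * Q.pinch x - Q.pinch x * a‖ ≤ 2 * h * ‖x‖ := by
  filter_upwards [lim_ev_scalar hA ha hs hh] with Q hQ
  choose c hc using hQ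
  have h1 : a * Q.pinch x - Q.pinch x * a =
      ∑ i, Q.e i * ((a - c i • (1 : H →L[ℂ] H)) * Q.e i * x
        - x * (Q.e i * (a - c i • (1 : H →L[ℂ] H)))) * Q.e i := by
    unfold _root_.P078.Part.pinch
    rw [Finset.mul_sum, Finset.sum_mul, ← Finset.sum_sub_distrib]
    refine Finset.sum_congr rfl fun i _ => ?_
    have hi := hA.comm a ha _ (Q.mem i)
    have hi2 := (Q.proj i).isIdempotentElem.eq
    have g1 : Q.e i * ((a - c i • (1 : H →L[ℂ] H)) * Q.e i * x) * Q.e i =
        a * (Q.e i * x * Q.e i) - c i • (Q.e i * x * Q.e i) := by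
      rw [sub_mul, smul_mul_assoc, one_mul, sub_mul, smul_mul_assoc, mul_sub, mul_smul_comm,
        sub_mul, smul_mul_assoc]
      congr 1
      · rw [← mul_assoc, ← mul_assoc, ← hi, mul_assoc a, hi2]
        simp only [mul_assoc]
      · rw [← mul_assoc, hi2]
    have g2 : Q.e i * (x * (Q.e i * (a - c i • (1 : H →L[ℂ] H)))) * Q.e i =
        (Q.e i * x * Q.e i) * a - c i • (Q.e i * x * Q.e i) := by
      rw [mul_sub, mul_smul_comm, mul_one, mul_sub, mul_smul_comm, mul_sub, mul_smul_comm,
        sub_mul, smul_mul_assoc]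
      congr 1
      · simp only [mul_assoc]
        rw [hi, ← mul_assoc (Q.e i) (Q.e i), hi2]
      · rw [mul_assoc, mul_assoc, hi2]
        simp only [mul_assoc]
    rw [mul_sub, sub_mul, g1, g2]
    abel
  rw [h1]
  refine _root_.P078.Part.block_norm Q _ (by positivity) fun i v => ?_
  have h2 : ((a - c i • (1 : H →L[ℂ] H)) * Q.e i * x
        - x * (Q.e i * (a - c i • (1 : H →L[ℂ] H)))) (Q.e i v) =
      (a (Q.e i (x (Q.e i v))) - c i • Q.e i (x (Q.e i v))) -
        x (a (Q.e i v) - c i • Q.e i v) := by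
    have hi : Q.e i (a (Q.e i v)) = a (Q.e i v) := by
      have h5 := congrArg (fun T : H →L[ℂ] H => T (Q.e i v)) (hA.comm a ha _ (Q.mem i))
      simp only [mul_apply_eq_comp] at h5
      rw [← h5, _root_.P078.Part.e_apply_e]
    simp only [sub_apply, mul_apply_eq_comp, smul_apply, one_apply_eq_self,
      map_sub, map_smul, hi, _root_.P078.Part.e_apply_e]
  refine (_root_.P078.Part.e_norm_le Q i _).trans ?_
  rw [h2]
  calc ‖(a (Q.e i (x (Q.e i v))) - c i • Q.e i (x (Q.e i v))) -
        x (a (Q.e i v) - c i • Q.e i v)‖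
      ≤ ‖a (Q.e i (x (Q.e i v))) - c i • Q.e i (x (Q.e i v))‖ +
        ‖x (a (Q.e i v) - c i • Q.e i v)‖ := norm_sub_le _ _
    _ ≤ h * ‖Q.e i (x (Q.e i v))‖ + ‖x‖ * (h * ‖Q.e i v‖) := by
        gcongr
        · exact hc i _
        · exact (x.le_opNorm _).trans (by gcongr; exact hc i v)
    _ ≤ h * (‖x‖ * ‖Q.e i v‖) + ‖x‖ * (h * ‖Q.e i v‖) := by
        gcongr
        exact (_root_.P078.Part.e_norm_le Q i _).trans (x.le_opNorm _)
    _ = 2 * h * ‖x‖ * ‖Q.e i v‖ := by ring

private theorem lim_commute (hA : MM M A) {U : Ultrafilter (_root_.P078.Part A)}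
    (hU : (U : Filter (_root_.P078.Part A)) ≤ atTop) {x T : H →L[ℂ] H}
    (hT : ∀ v w, Tendsto (fun Q : _root_.P078.Part A => ⟪Q.pinch x v, w⟫_ℂ) U
      (𝓝 ⟪T v, w⟫_ℂ)) : ∀ a ∈ A, a * T = T * a := by
  have key : ∀ a ∈ A, IsSelfAdjoint a → a * T = T * a := by
    intro a ha hs
    ext v
    refine ext_inner_right ℂ fun w => ?_
    simp only [mul_apply_eq_comp]
    rw [← sub_eq_zero, ← norm_le_zero_iff]
    have e1 := hT v (star a w)
    have e2 := hT (a v) w
    rw [ContinuousLinearMap.star_eq_adjoint] at e1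
    simp only [ContinuousLinearMap.adjoint_inner_right] at e1
    have e3 := (e1.sub e2).norm
    have e4 : ∀ h : ℝ, 0 < h → ‖⟪a (T v), w⟫_ℂ - ⟪T (a v), w⟫_ℂ‖ ≤
        h * (2 * ‖x‖ * ‖v‖ * ‖w‖) := by
      intro h hh
      refine le_of_tendsto e3 ?_
      filter_upwards [hU (lim_ev_commute hA ha hs x hh)] with Q hQ
      rw [← inner_sub_left]
      have e5 : a (Q.pinch x v) - Q.pinch x (a v) = (a * Q.pinch x - Q.pinch x * a) v := rfl
      rw [e5]
      calc ‖⟪(a * Q.pinch x - Q.pinch x * a) v, w⟫_ℂ‖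
          ≤ ‖(a * Q.pinch x - Q.pinch x * a) v‖ * ‖w‖ := norm_inner_le_norm _ _
        _ ≤ (‖a * Q.pinch x - Q.pinch x * a‖ * ‖v‖) * ‖w‖ := by
            gcongr; exact ContinuousLinearMap.le_opNorm _ _
        _ ≤ ((2 * h * ‖x‖) * ‖v‖) * ‖w‖ := by gcongr
        _ = h * (2 * ‖x‖ * ‖v‖ * ‖w‖) := by ring
    by_contra hcon
    push Not at hcon
    set D := ‖⟪a (T v), w⟫_ℂ - ⟪T (a v), w⟫_ℂ‖ with hD
    set B := 2 * ‖x‖ * ‖v‖ * ‖w‖ with hB
    have hB0 : 0 ≤ B := by positivity
    have := e4 (D / (2 * (B + 1))) (by positivity)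
    rw [div_mul_eq_mul_div, le_div_iff₀ (by positivity)] at this
    nlinarith
  intro a ha
  have h1 : a = (1 / 2 : ℂ) • (a + star a) + (-Complex.I / 2) • (Complex.I • (a - star a)) := by
    rw [smul_smul]
    have : -Complex.I / 2 * Complex.I = 1 / 2 := by
      rw [div_mul_eq_mul_div, neg_mul, Complex.I_mul_I, neg_neg]
    rw [this, ← smul_add]
    rw [show a + star a + (a - star a) = (2 : ℂ) • a by rw [two_smul]; abel, smul_smul]
    norm_num
  have h2 := key (a + star a) (add_mem ha (star_mem ha)) (by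
    rw [IsSelfAdjoint, star_add, star_star, add_comm])
  have h3 := key (Complex.I • (a - star a)) (A.smul_mem (sub_mem ha (star_mem ha)) _) (by
    rw [IsSelfAdjoint, star_smul, star_sub, star_star, Complex.star_def, Complex.conj_I,
      neg_smul, ← smul_neg, neg_sub])
  rw [h1, add_mul, mul_add, smul_mul_assoc, h2, smul_mul_assoc, h3, mul_smul_comm,
    mul_smul_comm, mul_smul_comm, mul_smul_comm]

private theorem lim_pinch_add (Q : _root_.P078.Part A) (x y : H →L[ℂ] H) :
    Q.pinch (x + y) = Q.pinch x + Q.pinch y := by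
  unfold _root_.P078.Part.pinch
  rw [← Finset.sum_add_distrib]
  exact Finset.sum_congr rfl fun i _ => by rw [mul_add, add_mul]

private theorem lim_pinch_smul (Q : _root_.P078.Part A) (c : ℂ) (x : H →L[ℂ] H) :
    Q.pinch (c • x) = c • Q.pinch x := by
  unfold _root_.P078.Part.pinch
  rw [Finset.smul_sum]
  exact Finset.sum_congr rfl fun i _ => by rw [mul_smul_comm, smul_mul_assoc]

private theorem lim_pinch_left (h : MM M A) (Q : _root_.P078.Part A) {a : H →L[ℂ] H}
    (ha : a ∈ A) (x : H →L[ℂ] H) : Q.pinch (a * x) = a * Q.pinch x := by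
  unfold _root_.P078.Part.pinch
  rw [Finset.mul_sum]
  refine Finset.sum_congr rfl fun i _ => ?_
  rw [← mul_assoc, ← h.comm a ha _ (Q.mem i)]
  simp only [mul_assoc]

private theorem lim_pinch_right (h : MM M A) (Q : _root_.P078.Part A) {a : H →L[ℂ] H}
    (ha : a ∈ A) (x : H →L[ℂ] H) : Q.pinch (x * a) = Q.pinch x * a := by
  unfold _root_.P078.Part.pinch
  rw [Finset.sum_mul]
  refine Finset.sum_congr rfl fun i _ => ?_
  have := h.comm a ha _ (Q.mem i)
  simp only [mul_assoc]
  rw [this]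

private theorem lim_pinch_one (Q : _root_.P078.Part A) : Q.pinch (1 : H →L[ℂ] H) = 1 := by
  unfold _root_.P078.Part.pinch
  rw [← Q.sum]
  refine Finset.sum_congr rfl fun i _ => ?_
  rw [mul_assoc, Q.sum, one_mul, (Q.proj i).isIdempotentElem.eq]

private theorem lim_pinch_star (Q : _root_.P078.Part A) (x : H →L[ℂ] H) :
    Q.pinch (star x) = star (Q.pinch x) := by
  unfold _root_.P078.Part.pinch
  rw [star_sum]
  refine Finset.sum_congr rfl fun i _ => ?_
  rw [star_mul, star_mul, (Q.proj i).isSelfAdjoint.star_eq, mul_assoc]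

private theorem lim_pinch_nonneg (Q : _root_.P078.Part A) {x : H →L[ℂ] H} (hx : 0 ≤ x) :
    0 ≤ Q.pinch x := by
  unfold _root_.P078.Part.pinch
  refine Finset.sum_nonneg fun i _ => ?_
  have h1 := star_left_conjugate_nonneg hx (Q.e i)
  rwa [(Q.proj i).isSelfAdjoint.star_eq] at h1

private theorem lim_pinch_mem (h : MM M A) (Q : _root_.P078.Part A) {x : H →L[ℂ] H}
    (hx : x ∈ M) : Q.pinch x ∈ M := by
  unfold _root_.P078.Part.pinch
  exact sum_mem fun i _ => mul_mem (mul_mem (h.le _ (Q.mem i)) hx) (h.le _ (Q.mem i))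

theorem exists_limExp (h : MM M A) : ∃ (U : Ultrafilter (_root_.P078.Part A))
    (E : (H →L[ℂ] H) →ₗ[ℂ] (H →L[ℂ] H)), LimExp M A U E := by
  have hdir : IsDirected (_root_.P078.Part A) (· ≤ ·) := _root_.P078.Part.directed h.comm
  have hne : (atTop : Filter (_root_.P078.Part A)).NeBot := atTop_neBot
  let U : Ultrafilter (_root_.P078.Part A) := Ultrafilter.of atTop
  have hU : (U : Filter (_root_.P078.Part A)) ≤ atTop := Ultrafilter.of_le _
  have hex : ∀ x : H →L[ℂ] H, ∃ T : H →L[ℂ] H, ‖T‖ ≤ ‖x‖ ∧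
      ∀ v w, Tendsto (fun Q : _root_.P078.Part A => ⟪Q.pinch x v, w⟫_ℂ) U
        (𝓝 ⟪T v, w⟫_ℂ) := fun x =>
    _root_.P078.exists_weak_limit U (fun Q : _root_.P078.Part A => Q.pinch x)
      (fun Q => _root_.P078.Part.pinch_norm Q x)
  choose L hL1 hL2 using hex
  have huniq : ∀ {x T : H →L[ℂ] H},
      (∀ v w, Tendsto (fun Q : _root_.P078.Part A => ⟪Q.pinch x v, w⟫_ℂ) U
        (𝓝 ⟪T v, w⟫_ℂ)) → L x = T := by
    intro x T hT
    ext v
    refine ext_inner_right ℂ fun w => ?_
    exact tendsto_nhds_unique (hL2 x v w) (hT v w)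
  let E : (H →L[ℂ] H) →ₗ[ℂ] (H →L[ℂ] H) :=
    { toFun := L
      map_add' := fun x y => huniq fun v w => by
        have h1 := (hL2 x v w).add (hL2 y v w)
        simp only [lim_pinch_add, add_apply, inner_add_left]
        exact h1
      map_smul' := fun c x => huniq fun v w => by
        have h1 := (hL2 x v w).const_mul (starRingEnd ℂ c)
        simp only [lim_pinch_smul, smul_apply, inner_smul_left, RingHom.id_apply]
        exact h1 }
  have hE : ∀ x, E x = L x := fun x => rfl
  have hcm : ∀ a ∈ A, ∀ y, a * L y = L y * a := fun a ha y =>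
    lim_commute h hU (hL2 y) a ha
  have hleft : ∀ a ∈ A, ∀ y, L (a * y) = a * L y := by
    intro a ha y
    refine huniq fun v w => ?_
    have h1 := hL2 y v (star a w)
    rw [ContinuousLinearMap.star_eq_adjoint] at h1
    simp only [ContinuousLinearMap.adjoint_inner_right] at h1
    simp only [lim_pinch_left h _ ha, mul_apply_eq_comp]
    exact h1
  have hright : ∀ a ∈ A, ∀ y, L (y * a) = L y * a := by
    intro a ha y
    refine huniq fun v w => ?_
    have h1 := hL2 y (a v) w
    simp only [lim_pinch_right h _ ha, mul_apply_eq_comp]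
    exact h1
  have hone : L 1 = 1 := by
    refine huniq fun v w => ?_
    simp only [lim_pinch_one]
    exact tendsto_const_nhds
  refine ⟨U, E, hU, fun y => hL1 y, fun y v w => hL2 y v w, hcm, fun y hy => ?_, fun a ha => ?_,
    hleft, hright, fun y => ?_, fun y hy => ?_⟩
  · refine h.cent _ (weak_mem_M (l := (U : Filter (_root_.P078.Part A)))
      (T := fun Q : _root_.P078.Part A => Q.pinch y) ?_ (hL2 y)) fun a ha => hcm a ha y
    exact Filter.Eventually.of_forall fun Q => lim_pinch_mem h Q hy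
  · have h1 := hleft a ha 1
    rw [mul_one, hone, mul_one] at h1
    exact h1
  · refine huniq fun v w => ?_
    have h1 := (Complex.continuous_conj.tendsto _).comp (hL2 y w v)
    rw [inner_conj_symm] at h1
    rw [hE]
    simp only [lim_pinch_star]
    simp only [ContinuousLinearMap.star_eq_adjoint, ContinuousLinearMap.adjoint_inner_left]
    refine h1.congr fun Q => ?_
    simp only [Function.comp_apply]
    rw [inner_conj_symm]
  · rw [hE, ContinuousLinearMap.nonneg_iff_isPositive, ContinuousLinearMap.isPositive_iff_complex]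
    intro v
    have h1 : ∀ Q : _root_.P078.Part A, ((⟪Q.pinch y v, v⟫_ℂ).re : ℂ) = ⟪Q.pinch y v, v⟫_ℂ ∧
        0 ≤ (⟪Q.pinch y v, v⟫_ℂ).re := by
      intro Q
      have h2 := lim_pinch_nonneg Q hy
      rw [ContinuousLinearMap.nonneg_iff_isPositive,
        ContinuousLinearMap.isPositive_iff_complex] at h2
      exact h2 v
    have h3 := hL2 y v v
    have h4 := (Complex.continuous_re.tendsto _).comp h3
    have h5 := (Complex.continuous_ofReal.tendsto _).comp h4
    constructor
    · refine tendsto_nhds_unique h5 (h3.congr fun Q => ?_)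
      exact (h1 Q).1.symm
    · exact ge_of_tendsto h4 (Filter.Eventually.of_forall fun Q => (h1 Q).2)

end Vale.Agent.P078
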