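import Vale.Agent.Lib.P078G.Family

/-!
# P078G Normal: the limit functional is positive and normal

`lim_nonneg`: `θ(e_G y⋆ y e_G) ≥ 0` (real, by `PosF.herm`), pass to the limit.

`lim_normal`: it is enough to treat `y ↦ θ(e y e')`, `e, e' ∈ S` (finite sums, then the uniform
limit in `IsLim`: `|θ(e_G T e_G) - ψ T| ≤ τ` for `‖T‖ ≤ 1`; also `‖T₀‖ ≤ 1`, `T₀ ∈ M` by `weak_mem_M`
when `l ≠ ⊥`).  For `y ∈ M`, `|θ(e y e')|² ≤ θ(e) θ(e' y⋆ y e') ≤ θ(e) ‖y e' ζ‖²` (`pos_cs`, `Dom`).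
Riesz: the functional `y e' ζ ↦ θ(e y e')` on the subspace `{y e' ζ : y ∈ M}` is well defined and
bounded; extend it (`exists_extension_norm_eq`, Hahn-Banach, or the closure and
`InnerProductSpace.toDual`): there is `η` with `θ(e y e') = ⟪η, y (e' ζ)⟫` for all `y ∈ M`; that is
weakly continuous.
-/

namespace Vale.Agent.P078

open Filter
open scoped InnerProductSpace Topology

universe u

variable {H : Type u} [NormedAddCommGroup H] [InnerProductSpace ℂ H] [CompleteSpace H]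
  {M : VonNeumannAlgebra H} {A : StarSubalgebra ℂ (H →L[ℂ] H)}

/-- `M` as a subspace of `B(H)` -/
private def Normal_sub (M : VonNeumannAlgebra H) : Submodule ℂ (H →L[ℂ] H) where
  carrier := {y | y ∈ M}
  add_mem' := fun {a b} (ha : a ∈ M) (hb : b ∈ M) => show a + b ∈ M from add_mem ha hb
  zero_mem' := show (0 : H →L[ℂ] H) ∈ M from zero_mem M
  smul_mem' := fun c x (hx : x ∈ M) =>
    show c • x ∈ M from M.toStarSubalgebra.smul_mem hx c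

private theorem Normal_mem (M : VonNeumannAlgebra H) {y : H →L[ℂ] H} :
    y ∈ Normal_sub M ↔ y ∈ M := Iff.rfl

/-- evaluation at `ζ` -/
private def Normal_ev (M : VonNeumannAlgebra H) (ζ : H) : Normal_sub M →ₗ[ℂ] H where
  toFun y := y.1 ζ
  map_add' _ _ := rfl
  map_smul' _ _ := rfl

private theorem Normal_sum_star {S : Set (H →L[ℂ] H)} (hproj : ∀ e ∈ S, IsStarProjection e)
    {G : Finset (H →L[ℂ] H)} (hG : (G : Set (H →L[ℂ] H)) ⊆ S) :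
    star (∑ e ∈ G, e) = ∑ e ∈ G, e := by
  rw [star_sum]
  refine Finset.sum_congr rfl fun e he => ?_
  exact (hproj e (hG he)).isSelfAdjoint.star_eq

/-- a functional on `M` bounded by a vector seminorm is a vector functional -/
theorem riesz_M {ℓ : (H →L[ℂ] H) →ₗ[ℂ] ℂ} {ζ : H} {C : ℝ}
    (h : ∀ y ∈ M, ‖ℓ y‖ ≤ C * ‖y ζ‖) : ∃ η : H, ∀ y ∈ M, ℓ y = ⟪η, y ζ⟫_ℂ := by
  have hker : LinearMap.ker (Normal_ev M ζ) ≤ LinearMap.ker (ℓ.comp (Normal_sub M).subtype) := by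
    intro y hy
    rw [LinearMap.mem_ker] at hy ⊢
    have h1 : y.1 ζ = 0 := hy
    have h2 := h y.1 ((Normal_mem M).1 y.2)
    rw [h1, norm_zero, mul_zero] at h2
    exact norm_le_zero_iff.1 h2
  let f₀ : LinearMap.range (Normal_ev M ζ) →ₗ[ℂ] ℂ :=
    ((LinearMap.ker (Normal_ev M ζ)).liftQ (ℓ.comp (Normal_sub M).subtype) hker).comp
      (Normal_ev M ζ).quotKerEquivRange.symm.toLinearMap
  have hf₀ : ∀ (y : Normal_sub M) (hy : Normal_ev M ζ y ∈ LinearMap.range (Normal_ev M ζ)),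
      f₀ ⟨Normal_ev M ζ y, hy⟩ = ℓ y.1 := by
    intro y hy
    change (LinearMap.ker (Normal_ev M ζ)).liftQ (ℓ.comp (Normal_sub M).subtype) hker
      ((Normal_ev M ζ).quotKerEquivRange.symm ⟨Normal_ev M ζ y, hy⟩) = ℓ y.1
    rw [LinearMap.quotKerEquivRange_symm_apply_image]
    rfl
  have hb : ∀ x : LinearMap.range (Normal_ev M ζ), ‖f₀ x‖ ≤ C * ‖x‖ := by
    rintro ⟨x, hx⟩
    obtain ⟨y, rfl⟩ := LinearMap.mem_range.1 hx
    rw [hf₀ y hx]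
    exact h y.1 ((Normal_mem M).1 y.2)
  obtain ⟨g, hg, -⟩ := exists_extension_norm_eq (LinearMap.range (Normal_ev M ζ))
    (f₀.mkContinuous C hb)
  refine ⟨(InnerProductSpace.toDual ℂ H).symm g, fun y hy => ?_⟩
  rw [InnerProductSpace.toDual_symm_apply]
  have hm : Normal_ev M ζ ⟨y, (Normal_mem M).2 hy⟩ ∈ LinearMap.range (Normal_ev M ζ) :=
    LinearMap.mem_range_self _ _
  have h1 := hg ⟨Normal_ev M ζ ⟨y, (Normal_mem M).2 hy⟩, hm⟩
  have h2 := hf₀ ⟨y, (Normal_mem M).2 hy⟩ hm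
  change g (y ζ) = f₀ ⟨Normal_ev M ζ ⟨y, (Normal_mem M).2 hy⟩, hm⟩ at h1
  rw [h1]
  exact h2.symm

theorem lim_nonneg {θ ψ : (H →L[ℂ] H) →ₗ[ℂ] ℂ} (hθ : PosF θ) {S : Set (H →L[ℂ] H)}
    (hproj : ∀ e ∈ S, IsStarProjection e) (hψ : IsLim θ S ψ) (y : H →L[ℂ] H) :
    0 ≤ (ψ (star y * y)).re ∧ (ψ (star y * y)).im = 0 := by
  have key : ∀ τ : ℝ, 0 < τ → ∃ a : ℂ, 0 ≤ a.re ∧ a.im = 0 ∧
      ‖a - ψ (star y * y)‖ ≤ τ * ‖star y * y‖ := by
    intro τ hτ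
    obtain ⟨G₀, hG₀, h⟩ := hψ τ hτ
    obtain ⟨-, h2⟩ := h G₀ hG₀ (subset_refl _)
    have hst := Normal_sum_star hproj hG₀
    have e1 : (∑ e ∈ G₀, e) * (star y * y) * ∑ e ∈ G₀, e =
        star (y * ∑ e ∈ G₀, e) * (y * ∑ e ∈ G₀, e) := by
      rw [star_mul, hst, mul_assoc, mul_assoc, mul_assoc]
    refine ⟨_, ?_, ?_, h2 (star y * y)⟩
    · rw [e1]
      exact hθ.nonneg _
    · rw [e1]
      have h3 := hθ.herm (star (y * ∑ e ∈ G₀, e) * (y * ∑ e ∈ G₀, e))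
      rw [star_mul, star_star] at h3
      exact Complex.conj_eq_iff_im.1 h3.symm
  have hlim : ∀ x : ℝ, (∀ τ : ℝ, 0 < τ → x ≤ τ * ‖star y * y‖) → x ≤ 0 := by
    intro x hx
    by_contra hcon
    rw [not_le] at hcon
    have h1 := hx (x / (2 * (‖star y * y‖ + 1))) (by positivity)
    rw [div_mul_eq_mul_div, le_div_iff₀ (by positivity)] at h1
    nlinarith [norm_nonneg (star y * y)]
  constructor
  · have h1 : -(ψ (star y * y)).re ≤ 0 := by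
      refine hlim _ fun τ hτ => ?_
      obtain ⟨a, ha, -, h⟩ := key τ hτ
      have h2 := (Complex.abs_re_le_norm (a - ψ (star y * y))).trans h
      rw [Complex.sub_re] at h2
      linarith [le_abs_self (a.re - (ψ (star y * y)).re)]
    linarith
  · have h1 : |(ψ (star y * y)).im| ≤ 0 := by
      refine hlim _ fun τ hτ => ?_
      obtain ⟨a, -, ha, h⟩ := key τ hτ
      have h2 := (Complex.abs_im_le_norm (a - ψ (star y * y))).trans h
      rw [Complex.sub_im, ha, zero_sub, abs_neg] at h2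
      exact h2
    exact abs_eq_zero.1 (le_antisymm h1 (abs_nonneg _))

theorem lim_normal {θ ψ : (H →L[ℂ] H) →ₗ[ℂ] ℂ} (hθ : PosF θ) {p : H →L[ℂ] H}
    {S : Set (H →L[ℂ] H)} (hS : DomFamily M θ p S) (hψ : IsLim θ S ψ)
    (l : Filter (H →L[ℂ] H)) (T₀ : H →L[ℂ] H) (hl : ∀ᶠ T in l, T ∈ M ∧ ‖T‖ ≤ 1)
    (hT : ∀ v w : H, Tendsto (fun T : H →L[ℂ] H => ⟪v, T w⟫_ℂ) l (𝓝 ⟪v, T₀ w⟫_ℂ)) :
    Tendsto ψ l (𝓝 (ψ T₀)) := by
  rcases l.eq_or_neBot with rfl | hne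
  · exact tendsto_bot
  have hconv : ∀ v w : H, Tendsto (fun T : H →L[ℂ] H => ⟪T v, w⟫_ℂ) l (𝓝 ⟪T₀ v, w⟫_ℂ) := by
    intro v w
    have h1 := (Complex.continuous_conj.tendsto _).comp (hT w v)
    rw [inner_conj_symm] at h1
    refine h1.congr fun T => ?_
    change (starRingEnd ℂ) ⟪w, T v⟫_ℂ = ⟪T v, w⟫_ℂ
    rw [inner_conj_symm]
  have hT₀M : T₀ ∈ M := weak_mem_M (T := fun T : H →L[ℂ] H => T) (hl.mono fun T h => h.1) hconv
  have hT₀n : ‖T₀‖ ≤ 1 := by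
    refine ContinuousLinearMap.opNorm_le_bound _ zero_le_one fun w => ?_
    have h1 : ‖⟪T₀ w, T₀ w⟫_ℂ‖ ≤ ‖T₀ w‖ * ‖w‖ := by
      refine le_of_tendsto ((hT (T₀ w) w).norm) (hl.mono fun T h => ?_)
      refine (norm_inner_le_norm _ _).trans (mul_le_mul_of_nonneg_left ?_ (norm_nonneg _))
      refine (T.le_of_opNorm_le h.2 w).trans (le_of_eq (one_mul _))
    rw [inner_self_eq_norm_sq_to_K] at h1
    have h2 : ‖((‖T₀ w‖ : ℂ)) ^ 2‖ = ‖T₀ w‖ ^ 2 := by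
      rw [norm_pow, Complex.norm_real, norm_norm]
    have h3 : ‖T₀ w‖ ^ 2 ≤ ‖T₀ w‖ * ‖w‖ := by
      rw [← h2]
      exact h1
    rw [one_mul]
    by_cases h4 : ‖T₀ w‖ = 0
    · rw [h4]
      exact norm_nonneg _
    · have h5 : 0 < ‖T₀ w‖ := lt_of_le_of_ne (norm_nonneg _) (Ne.symm h4)
      rw [sq] at h3
      exact le_of_mul_le_mul_left h3 h5
  have hpair : ∀ e ∈ S, ∀ e' ∈ S,
      Tendsto (fun T : H →L[ℂ] H => θ (e * T * e')) l (𝓝 (θ (e * T₀ * e'))) := by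
    intro e he e' he'
    obtain ⟨ζ, hζ⟩ := hS.dom e' he'
    let ℓ : (H →L[ℂ] H) →ₗ[ℂ] ℂ := θ.comp ((LinearMap.mulLeft ℂ e).comp (LinearMap.mulRight ℂ e'))
    have hℓ : ∀ y, ℓ y = θ (e * y * e') := fun y => by
      change θ (e * (y * e')) = θ (e * y * e')
      rw [mul_assoc]
    have hb : ∀ y ∈ M, ‖ℓ y‖ ≤ √(θ (star e * e)).re * ‖y (e' ζ)‖ := by
      intro y hy
      have h1 := pos_cs hθ e (y * e')
      rw [(hS.proj e he).isSelfAdjoint.star_eq] at h1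
      have h2 := hζ y hy
      rw [hℓ, mul_assoc, (hS.proj e he).isSelfAdjoint.star_eq]
      have h3 : 0 ≤ (θ (e * e)).re := by
        have := hθ.nonneg e
        rwa [(hS.proj e he).isSelfAdjoint.star_eq] at this
      have h4 : ‖θ (e * (y * e'))‖ ^ 2 ≤ (√(θ (e * e)).re * ‖y (e' ζ)‖) ^ 2 := by
        rw [mul_pow, Real.sq_sqrt h3]
        exact h1.trans (mul_le_mul_of_nonneg_left h2 h3)
      exact (pow_le_pow_iff_left₀ (norm_nonneg _) (by positivity) two_ne_zero).1 h4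
    obtain ⟨η, hη⟩ := riesz_M hb
    have h1 := hT η (e' ζ)
    rw [← hη T₀ hT₀M, hℓ] at h1
    refine h1.congr' ?_
    filter_upwards [hl] with T hTM
    rw [← hη T hTM.1, hℓ]
  have hsum : ∀ (G : Finset (H →L[ℂ] H)) (T : H →L[ℂ] H),
      θ ((∑ e ∈ G, e) * T * ∑ e ∈ G, e) = ∑ e ∈ G, ∑ e' ∈ G, θ (e * T * e') := by
    intro G T
    rw [Finset.sum_mul, Finset.sum_mul, map_sum]
    refine Finset.sum_congr rfl fun e _ => ?_
    rw [Finset.mul_sum, map_sum]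
  rw [Metric.tendsto_nhds]
  intro ε hε
  obtain ⟨G, hG, h⟩ := hψ (ε / 4) (by positivity)
  obtain ⟨-, h2⟩ := h G hG (subset_refl _)
  have h3 : Tendsto (fun T : H →L[ℂ] H => θ ((∑ e ∈ G, e) * T * ∑ e ∈ G, e)) l
      (𝓝 (θ ((∑ e ∈ G, e) * T₀ * ∑ e ∈ G, e))) := by
    simp only [hsum]
    exact tendsto_finsetSum _ fun e he => tendsto_finsetSum _ fun e' he' =>
      hpair e (hG he) e' (hG he')
  filter_upwards [hl, Metric.tendsto_nhds.1 h3 (ε / 4) (by positivity)] with T hT1 hT2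
  have h4 := h2 T
  have h5 := h2 T₀
  rw [dist_eq_norm] at hT2 ⊢
  have h6 : ε / 4 * ‖T‖ ≤ ε / 4 := mul_le_of_le_one_right (by positivity) hT1.2
  have h7 : ε / 4 * ‖T₀‖ ≤ ε / 4 := mul_le_of_le_one_right (by positivity) hT₀n
  have h8 : ψ T - ψ T₀ = -(θ ((∑ e ∈ G, e) * T * ∑ e ∈ G, e) - ψ T) +
      (θ ((∑ e ∈ G, e) * T * ∑ e ∈ G, e) - θ ((∑ e ∈ G, e) * T₀ * ∑ e ∈ G, e)) +
      (θ ((∑ e ∈ G, e) * T₀ * ∑ e ∈ G, e) - ψ T₀) := by ring
  rw [h8]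
  refine lt_of_le_of_lt (norm_add_le _ _) ?_
  refine lt_of_le_of_lt (add_le_add (norm_add_le _ _) le_rfl) ?_
  rw [norm_neg]
  linarith

end Vale.Agent.P078
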