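import Vale.Agent.Lib.P078G.Unique
import Vale.Agent.Lib.P078G.Normal
import Vale.Agent.Lib.P078G.Limit

/-!
# P078G Central: a faithful corner gives a nonzero central normal functional

`Central_unitary`: let `u ∈ A` be a unitary.  If `S` is a `DomFamily` for `p ∈ A` then so is
`S' = {u⋆ e u : e ∈ S}` (`θ (u⋆ y u) = θ y` because `θ` is `A`-central; `p u = u p`; `Dom` for
`u⋆ e u`: take the vector `u⋆ ζ`), and the functional `y ↦ ψ (u y u⋆)` is its limit functional.  So
`ψ (u y u⋆) = ψ y` for all `y` by `lim_unique`, hence `ψ (u y) = ψ (y u)`.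

`Central_lim`: every self-adjoint contraction `a ∈ A` is `(u + u⋆) / 2` with the unitary
`u = a + i √(1 - a²) ∈ A`, and `A` is spanned by its self-adjoint elements.

`exists_central_normal`: assemble (`exists_family`, `limit_functional`, `lim_nonneg`, `lim_normal`,
`Central_lim`).  Nonzero: `p ≠ 0`, so some `e ∈ S` is nonzero (`total`), `θ e ≠ 0` by `hf`, `θ e ≥ 0`
and `ψ 1 = lim θ(e_G) ≥ (θ e).re > 0`.
-/

namespace Vale.Agent.P078

open Filter
open scoped InnerProductSpace Topology

universe u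

variable {H : Type u} [NormedAddCommGroup H] [InnerProductSpace ℂ H] [CompleteSpace H]
  {M : VonNeumannAlgebra H} {A : StarSubalgebra ℂ (H →L[ℂ] H)}

private theorem Central_cfc_mem (h : MM M A) {a : H →L[ℂ] H} (ha : a ∈ A) (f : ℝ → ℝ) :
    cfc f a ∈ A := by
  refine h.cent _ (mem_of_comm fun t ht => ?_) fun b hb => ?_
  · have h1 : Commute a t := comm_of_mem (h.le a ha) ht
    exact (h1.cfc_real f).symm
  · have h1 : Commute a b := h.comm a ha b hb
    exact (h1.cfc_real f).symm

private theorem Central_theta {θ : (H →L[ℂ] H) →ₗ[ℂ] ℂ}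
    (hc : ∀ a ∈ A, ∀ y, θ (a * y) = θ (y * a)) {w : H →L[ℂ] H} (hw : w ∈ A)
    (h1 : w * star w = 1) (y : H →L[ℂ] H) : θ (star w * y * w) = θ y := by
  rw [mul_assoc, hc (star w) (star_mem hw), mul_assoc, h1, mul_one]

private theorem Central_family {θ : (H →L[ℂ] H) →ₗ[ℂ] ℂ} (h : MM M A)
    (hc : ∀ a ∈ A, ∀ y, θ (a * y) = θ (y * a)) {p : H →L[ℂ] H} (hp : p ∈ A)
    {S : Set (H →L[ℂ] H)} (hS : DomFamily M θ p S) {w : H →L[ℂ] H} (hw : w ∈ A)
    (h1 : w * star w = 1) (h2 : star w * w = 1) :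
    DomFamily M θ p ((fun e => star w * e * w) '' S) := by
  have hwM := h.le w hw
  have hwM' : star w ∈ M := star_mem hwM
  refine ⟨?_, ?_, ?_, ?_, ?_, ?_⟩
  · rintro _ ⟨e, he, rfl⟩
    exact mul_mem (mul_mem hwM' (hS.mem e he)) hwM
  · rintro _ ⟨e, he, rfl⟩
    refine ⟨?_, ?_⟩
    · change star w * e * w * (star w * e * w) = star w * e * w
      calc star w * e * w * (star w * e * w) = star w * e * (w * star w) * e * w := by
            simp only [mul_assoc]
        _ = star w * (e * e) * w := by rw [h1, mul_one]; simp only [mul_assoc]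
        _ = star w * e * w := by
            have := (hS.proj e he).isIdempotentElem
            rw [show e * e = e from this]
    · change star (star w * e * w) = star w * e * w
      rw [star_mul, star_mul, star_star, (hS.proj e he).isSelfAdjoint.star_eq, mul_assoc]
  · rintro _ ⟨e, he, rfl⟩ _ ⟨e', he', rfl⟩ hne
    have hne' : e ≠ e' := fun h => hne (by rw [h])
    change star w * e * w * (star w * e' * w) = 0
    calc star w * e * w * (star w * e' * w) = star w * e * (w * star w) * e' * w := by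
          simp only [mul_assoc]
      _ = star w * (e * e') * w := by rw [h1, mul_one]; simp only [mul_assoc]
      _ = 0 := by rw [hS.orth e he e' he' hne', mul_zero, zero_mul]
  · rintro _ ⟨e, he, rfl⟩
    change star w * e * w * p = star w * e * w
    rw [mul_assoc, h.comm w hw p hp, ← mul_assoc, mul_assoc (star w), hS.le e he]
  · rintro _ ⟨e, he, rfl⟩
    obtain ⟨ζ, hζ⟩ := hS.dom e he
    refine ⟨star w ζ, fun y hy => ?_⟩
    have h3 := hζ (y * star w) (mul_mem hy hwM')
    have h4 : star (y * (star w * e * w)) * (y * (star w * e * w)) =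
        star w * (star (y * star w * e) * (y * star w * e)) * w := by
      simp only [star_mul, star_star, mul_assoc]
    rw [h4, Central_theta hc hw h1]
    refine h3.trans (le_of_eq ?_)
    have h5 : (star w * e * w) (star w ζ) = star w (e ζ) := by
      have h6 : star w * e * w * star w = star w * e := by rw [mul_assoc, h1, mul_one]
      exact congrArg (fun T : H →L[ℂ] H => T ζ) h6
    rw [h5]
    rfl
  · intro v hv
    have h3 : p (w v) = 0 := by
      refine hS.total (w v) fun e he => ?_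
      have h4 := hv _ ⟨e, he, rfl⟩
      have h5 : w * (star w * e * w) = e * w := by
        rw [← mul_assoc, ← mul_assoc, h1, one_mul]
      have h6 := congrArg (fun T : H →L[ℂ] H => T v) h5
      have h7 : w ((star w * e * w) v) = e (w v) := h6
      rw [← h7]
      have h8 : (star w * e * w) v = 0 := h4
      rw [h8, map_zero]
    have h4 : star w * p * w = p := by
      rw [mul_assoc, h.comm p hp w hw, ← mul_assoc, h2, one_mul]
    have h5 := congrArg (fun T : H →L[ℂ] H => T v) h4
    have h6 : star w (p (w v)) = p v := h5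
    rw [← h6, h3, map_zero]

private theorem Central_norm {w : H →L[ℂ] H} (h1 : w * star w = 1) : ‖w‖ ≤ 1 := by
  have h3 : ‖w‖ * ‖w‖ = ‖w * star w‖ := (CStarRing.norm_self_mul_star).symm
  rw [h1] at h3
  have h4 : ‖(1 : H →L[ℂ] H)‖ ≤ 1 := ContinuousLinearMap.norm_id_le
  nlinarith [norm_nonneg w]

private theorem Central_isLim {θ ψ : (H →L[ℂ] H) →ₗ[ℂ] ℂ}
    (hc : ∀ a ∈ A, ∀ y, θ (a * y) = θ (y * a))
    {S : Set (H →L[ℂ] H)} (hψ : IsLim θ S ψ) {w : H →L[ℂ] H} (hw : w ∈ A)
    (h1 : w * star w = 1) (h2 : star w * w = 1) {ψ' : (H →L[ℂ] H) →ₗ[ℂ] ℂ}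
    (hψ' : ∀ y, ψ' y = ψ (w * y * star w)) :
    IsLim θ ((fun e => star w * e * w) '' S) ψ' := by
  classical
  intro τ hτ
  obtain ⟨G₀, hG₀, hG⟩ := hψ τ hτ
  have hinv : ∀ x : H →L[ℂ] H, w * (star w * x * w) * star w = x := by
    intro x
    calc w * (star w * x * w) * star w = w * star w * x * (w * star w) := by
          simp only [mul_assoc]
      _ = x := by rw [h1, one_mul, mul_one]
  have hinv' : ∀ x : H →L[ℂ] H, star w * (w * x * star w) * w = x := by
    intro x
    calc star w * (w * x * star w) * w = star w * w * x * (star w * w) := by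
          simp only [mul_assoc]
      _ = x := by rw [h2, one_mul, mul_one]
  have hnw := Central_norm h1
  have hnw' : ‖star w‖ ≤ 1 := by rw [norm_star]; exact hnw
  have key : ∀ G' : Finset (H →L[ℂ] H), ∑ e ∈ G', e =
      star w * (∑ e ∈ G'.image (fun x => w * x * star w), e) * w := by
    intro G'
    rw [Finset.sum_image (fun x _ y _ hxy => by
      have h3 := congrArg (fun z => star w * z * w) hxy
      simpa only [hinv'] using h3)]
    rw [Finset.mul_sum, Finset.sum_mul]
    exact Finset.sum_congr rfl fun x _ => (hinv' x).symm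
  refine ⟨G₀.image (fun e => star w * e * w), ?_, ?_⟩
  · intro x hx
    rw [Finset.coe_image] at hx
    obtain ⟨e, he, rfl⟩ := hx
    exact ⟨e, hG₀ he, rfl⟩
  · intro G' hG' hsub
    set G := G'.image (fun x => w * x * star w) with hGdef
    have hGS : (G : Set (H →L[ℂ] H)) ⊆ S := by
      intro x hx
      rw [hGdef, Finset.coe_image] at hx
      obtain ⟨x', hx', rfl⟩ := hx
      obtain ⟨e, he, rfl⟩ := hG' hx'
      change w * (star w * e * w) * star w ∈ S
      rw [hinv]
      exact he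
    have hG0G : G₀ ⊆ G := by
      intro e he
      rw [hGdef, Finset.mem_image]
      exact ⟨star w * e * w, hsub (Finset.mem_image_of_mem _ he), hinv e⟩
    obtain ⟨h3, h4⟩ := hG G hGS hG0G
    have hk0 : (G₀.image (fun e => star w * e * w)).image (fun x => w * x * star w) = G₀ := by
      rw [Finset.image_image]
      have : ((fun x => w * x * star w) ∘ fun e => star w * e * w) = id := by
        funext x
        exact hinv x
      rw [this, Finset.image_id]
    refine ⟨?_, ?_⟩
    · rw [key G', key (G₀.image _), hk0, ← hGdef, Central_theta hc hw h1,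
        Central_theta hc hw h1]
      exact h3
    · intro y
      have h5 := h4 (w * y * star w)
      rw [key G', ← hGdef, hψ']
      have h6 : star w * (∑ e ∈ G, e) * w * y * (star w * (∑ e ∈ G, e) * w) =
          star w * ((∑ e ∈ G, e) * (w * y * star w) * ∑ e ∈ G, e) * w := by
        simp only [mul_assoc]
      rw [h6, Central_theta hc hw h1]
      refine h5.trans (mul_le_mul_of_nonneg_left ?_ hτ.le)
      calc ‖w * y * star w‖ ≤ ‖w * y‖ * ‖star w‖ := norm_mul_le _ _
        _ ≤ (‖w‖ * ‖y‖) * ‖star w‖ :=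
            mul_le_mul_of_nonneg_right (norm_mul_le _ _) (norm_nonneg _)
        _ ≤ (1 * ‖y‖) * 1 := by
            refine mul_le_mul (mul_le_mul_of_nonneg_right hnw (norm_nonneg _)) hnw'
              (norm_nonneg _) (by positivity)
        _ = ‖y‖ := by rw [one_mul, mul_one]

private theorem Central_unitary {θ ψ : (H →L[ℂ] H) →ₗ[ℂ] ℂ} (h : MM M A) (hθ : PosF θ)
    (hc : ∀ a ∈ A, ∀ y, θ (a * y) = θ (y * a)) {p : H →L[ℂ] H} (hp : p ∈ A)
    (hpp : IsStarProjection p) {S : Set (H →L[ℂ] H)} (hS : DomFamily M θ p S)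
    (hψ : IsLim θ S ψ) {w : H →L[ℂ] H} (hw : w ∈ A)
    (h1 : w * star w = 1) (h2 : star w * w = 1) (y : H →L[ℂ] H) : ψ (w * y) = ψ (y * w) := by
  let ψ' : (H →L[ℂ] H) →ₗ[ℂ] ℂ :=
    { toFun := fun y => ψ (w * y * star w)
      map_add' := fun x y => by rw [mul_add, add_mul, map_add]
      map_smul' := fun c x => by
        rw [mul_smul_comm, smul_mul_assoc, map_smul, RingHom.id_apply] }
  have h3 := lim_unique hθ (h.le p hp) hpp hS (Central_family h hc hp hS hw h1 h2) hψ
    (Central_isLim hc hψ hw h1 h2 (ψ' := ψ') fun _ => rfl) (y * w)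
  have h4 : ψ' (y * w) = ψ (w * (y * w) * star w) := rfl
  have h5 : w * (y * w) * star w = w * y := by
    calc w * (y * w) * star w = w * y * (w * star w) := by simp only [mul_assoc]
      _ = w * y := by rw [h1, mul_one]
  rw [h3, h4, h5]

private theorem Central_contr (h : MM M A) {a : H →L[ℂ] H} (ha : a ∈ A) (hsa : IsSelfAdjoint a)
    (hn : ‖a‖ ≤ 1) : ∃ w ∈ A, w * star w = 1 ∧ star w * w = 1 ∧
      a = (1 / 2 : ℂ) • (w + star w) := by
  set s := cfc (fun t : ℝ => Real.sqrt (1 - t ^ 2)) a with hs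
  have hsA : s ∈ A := Central_cfc_mem h ha _
  have hss : star s = s := (cfc_predicate (fun t : ℝ => Real.sqrt (1 - t ^ 2)) a).star_eq
  have hcm : a * s = s * a := h.comm a ha s hsA
  have hsp : ∀ t ∈ spectrum ℝ a, 0 ≤ 1 - t ^ 2 := by
    intro t ht
    have h1 := spectrum.norm_le_norm_mul_of_mem ht
    have h2 : ‖(1 : H →L[ℂ] H)‖ ≤ 1 := ContinuousLinearMap.norm_id_le
    have h3 : ‖t‖ ≤ 1 := by
      calc ‖t‖ ≤ ‖a‖ * ‖(1 : H →L[ℂ] H)‖ := h1
        _ ≤ 1 * 1 := mul_le_mul hn h2 (norm_nonneg _) zero_le_one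
        _ = 1 := mul_one _
    rw [Real.norm_eq_abs] at h3
    have := (sq_le_one_iff_abs_le_one t).2 h3
    linarith
  have hsq : s * s = 1 - a * a := by
    rw [hs, ← cfc_mul (fun t : ℝ => Real.sqrt (1 - t ^ 2)) (fun t : ℝ => Real.sqrt (1 - t ^ 2)) a
      (by fun_prop) (by fun_prop)]
    have h1 : cfc (fun t : ℝ => Real.sqrt (1 - t ^ 2) * Real.sqrt (1 - t ^ 2)) a =
        cfc (fun t : ℝ => 1 - t * t) a := by
      refine cfc_congr fun t ht => ?_
      have h2 := hsp t ht
      change Real.sqrt (1 - t ^ 2) * Real.sqrt (1 - t ^ 2) = 1 - t * t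
      rw [Real.mul_self_sqrt h2]
      ring
    rw [h1, cfc_sub (fun _ : ℝ => (1 : ℝ)) (fun t : ℝ => t * t) a (by fun_prop) (by fun_prop),
      cfc_mul (fun t : ℝ => t) (fun t : ℝ => t) a (by fun_prop) (by fun_prop),
      cfc_id' ℝ a hsa, cfc_const_one ℝ a hsa]
  have hst : star (a + Complex.I • s) = a - Complex.I • s := by
    rw [star_add, star_smul, hss, hsa.star_eq, Complex.star_def, Complex.conj_I, neg_smul,
      sub_eq_add_neg]
  have hI : (Complex.I • s) * (Complex.I • s) = -(s * s) := by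
    rw [smul_mul_smul_comm, Complex.I_mul_I, neg_smul, one_smul]
  refine ⟨a + Complex.I • s, add_mem ha (A.smul_mem hsA _), ?_, ?_, ?_⟩
  · rw [hst, add_mul, mul_sub, mul_sub, hI, mul_smul_comm, smul_mul_assoc, hcm, hsq]
    abel
  · rw [hst, sub_mul, mul_add, mul_add, hI, mul_smul_comm, smul_mul_assoc, hcm, hsq]
    abel
  · rw [hst]
    have h1 : a + Complex.I • s + (a - Complex.I • s) = (2 : ℂ) • a := by
      rw [two_smul]
      abel
    rw [h1, smul_smul]
    norm_num

private theorem Central_lim {θ ψ : (H →L[ℂ] H) →ₗ[ℂ] ℂ} (h : MM M A) (hθ : PosF θ)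
    (hc : ∀ a ∈ A, ∀ y, θ (a * y) = θ (y * a)) {p : H →L[ℂ] H} (hp : p ∈ A)
    (hpp : IsStarProjection p) {S : Set (H →L[ℂ] H)} (hS : DomFamily M θ p S)
    (hψ : IsLim θ S ψ) {a : H →L[ℂ] H} (ha : a ∈ A) (y : H →L[ℂ] H) : ψ (a * y) = ψ (y * a) := by
  -- self-adjoint contractions
  have hA1 : ∀ b ∈ A, IsSelfAdjoint b → ‖b‖ ≤ 1 → ψ (b * y) = ψ (y * b) := by
    intro b hb hbs hb1
    obtain ⟨w, hw, h1, h2, h3⟩ := Central_contr h hb hbs hb1
    have e1 := Central_unitary h hθ hc hp hpp hS hψ hw h1 h2 y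
    have e2 := Central_unitary h hθ hc hp hpp hS hψ (star_mem hw) (by rw [star_star]; exact h2)
      (by rw [star_star]; exact h1) y
    rw [h3, smul_mul_assoc, mul_smul_comm, add_mul, mul_add, map_smul, map_smul, map_add, map_add,
      e1, e2]
  -- self-adjoint elements
  have hA2 : ∀ b ∈ A, IsSelfAdjoint b → ψ (b * y) = ψ (y * b) := by
    intro b hb hbs
    have hpos : 0 < ‖b‖ + 1 := by positivity
    have h1 : ψ ((((‖b‖ + 1)⁻¹ : ℝ) : ℂ) • b * y) = ψ (y * (((‖b‖ + 1)⁻¹ : ℝ) : ℂ) • b) := by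
      refine hA1 _ (A.smul_mem hb _) ?_ ?_
      · change star ((((‖b‖ + 1)⁻¹ : ℝ) : ℂ) • b) = (((‖b‖ + 1)⁻¹ : ℝ) : ℂ) • b
        rw [star_smul, hbs.star_eq, Complex.star_def, Complex.conj_ofReal]
      · rw [norm_smul, Complex.norm_real, Real.norm_of_nonneg (by positivity),
          inv_mul_le_iff₀ hpos]
        linarith
    rw [smul_mul_assoc, mul_smul_comm, map_smul, map_smul, smul_eq_mul, smul_eq_mul] at h1
    refine mul_left_cancel₀ ?_ h1
    exact Complex.ofReal_ne_zero.2 (inv_ne_zero hpos.ne')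
  -- all elements
  have h1 : IsSelfAdjoint (a + star a) := by
    change star (a + star a) = a + star a
    rw [star_add, star_star, add_comm]
  have h2 : IsSelfAdjoint (Complex.I • (a - star a)) := by
    change star (Complex.I • (a - star a)) = Complex.I • (a - star a)
    rw [star_smul, star_sub, star_star, Complex.star_def, Complex.conj_I, neg_smul, ← smul_neg,
      neg_sub]
  have e1 := hA2 _ (add_mem ha (star_mem ha)) h1
  have e2 := hA2 _ (A.smul_mem (sub_mem ha (star_mem ha)) _) h2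
  have h3 : a = (1 / 2 : ℂ) • (a + star a) + (-Complex.I / 2) • (Complex.I • (a - star a)) := by
    rw [smul_smul]
    have : -Complex.I / 2 * Complex.I = 1 / 2 := by
      rw [div_mul_eq_mul_div, neg_mul, Complex.I_mul_I, neg_neg]
    rw [this, ← smul_add]
    rw [show a + star a + (a - star a) = (2 : ℂ) • a by rw [two_smul]; abel, smul_smul]
    norm_num
  rw [h3, add_mul, mul_add, map_add, map_add, smul_mul_assoc, mul_smul_comm, map_smul, map_smul,
    smul_mul_assoc (-Complex.I / 2), mul_smul_comm (-Complex.I / 2), map_smul, map_smul, e1, e2]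

theorem exists_central_normal (h : MM M A) {θ : (H →L[ℂ] H) →ₗ[ℂ] ℂ} (hθ : PosF θ)
    (hc : ∀ a ∈ A, ∀ y, θ (a * y) = θ (y * a)) {p : H →L[ℂ] H} (hp : p ∈ A)
    (hpp : IsStarProjection p) (h0 : p ≠ 0)
    (hf : ∀ e ∈ M, IsStarProjection e → e * p = e → θ e = 0 → e = 0) :
    ∃ ψ : (H →L[ℂ] H) →ₗ[ℂ] ℂ, IsCentralNormal M A ψ ∧ ∃ y ∈ M, ψ y ≠ 0 := by
  classical
  obtain ⟨S, hS⟩ := exists_family hθ (h.le p hp) hpp
  obtain ⟨ψ, hψ⟩ := limit_functional hθ hS
  refine ⟨ψ, ⟨fun y _ => lim_nonneg hθ hS.proj hψ y,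
    fun a ha y _ => Central_lim h hθ hc hp hpp hS hψ ha y,
    fun l T₀ hl hT => lim_normal hθ hS hψ l T₀ hl hT⟩, 1, one_mem _, ?_⟩
  -- some member of the family is nonzero
  obtain ⟨v, hv⟩ : ∃ v, p v ≠ 0 := by
    by_contra hno
    push Not at hno
    exact h0 (ContinuousLinearMap.ext hno)
  obtain ⟨e, heS, hev⟩ : ∃ e ∈ S, e v ≠ 0 := by
    by_contra hno
    push Not at hno
    exact hv (hS.total v hno)
  have he0 : e ≠ 0 := by
    rintro rfl
    exact hev rfl
  have hθe : θ e ≠ 0 := fun h1 => he0 (hf e (hS.mem e heS) (hS.proj e heS) (hS.le e heS) h1)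
  have hre : ∀ e' ∈ S, 0 ≤ (θ e').re := by
    intro e' he'
    have h1 := hθ.nonneg e'
    rw [(hS.proj e' he').isSelfAdjoint.star_eq] at h1
    have h2 : e' * e' = e' := (hS.proj e' he').isIdempotentElem
    rwa [h2] at h1
  have him : (θ e).im = 0 := by
    have h1 := hθ.herm e
    rw [(hS.proj e heS).isSelfAdjoint.star_eq] at h1
    exact Complex.conj_eq_iff_im.1 h1.symm
  have hpos : 0 < (θ e).re := by
    refine lt_of_le_of_ne (hre e heS) fun h1 => hθe ?_
    exact Complex.ext h1.symm him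
  obtain ⟨G₀, hG₀, hG⟩ := hψ ((θ e).re / 2) (by positivity)
  have hGS : ((insert e G₀ : Finset (H →L[ℂ] H)) : Set (H →L[ℂ] H)) ⊆ S := by
    intro x hx
    rw [Finset.coe_insert] at hx
    rcases hx with rfl | hx
    · exact heS
    · exact hG₀ hx
  obtain ⟨-, h4⟩ := hG (insert e G₀) hGS (Finset.subset_insert _ _)
  have h5 := h4 1
  have hid : (∑ x ∈ insert e G₀, x) * 1 * (∑ x ∈ insert e G₀, x) = ∑ x ∈ insert e G₀, x := by
    rw [mul_one, Finset.sum_mul]
    refine Finset.sum_congr rfl fun x hx => ?_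
    rw [Finset.mul_sum, Finset.sum_eq_single x]
    · exact (hS.proj x (hGS hx)).isIdempotentElem
    · intro y hy hyx
      exact hS.orth x (hGS hx) y (hGS hy) (Ne.symm hyx)
    · intro hx'
      exact absurd hx hx'
  rw [hid] at h5
  have h6 : (θ e).re ≤ (θ (∑ x ∈ insert e G₀, x)).re := by
    rw [map_sum, Complex.re_sum]
    exact Finset.single_le_sum (f := fun x => (θ x).re) (fun x hx => hre x (hGS hx))
      (Finset.mem_insert_self _ _)
  have h7 : ‖(1 : H →L[ℂ] H)‖ ≤ 1 := ContinuousLinearMap.norm_id_le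
  intro hψ0
  rw [hψ0, sub_zero] at h5
  have h8 := (Complex.abs_re_le_norm (θ (∑ x ∈ insert e G₀, x))).trans h5
  have h9 := (le_abs_self _).trans h8
  have h10 : (θ e).re / 2 * ‖(1 : H →L[ℂ] H)‖ ≤ (θ e).re / 2 * 1 :=
    mul_le_mul_of_nonneg_left h7 (by positivity)
  linarith

end Vale.Agent.P078
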