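import Vale.Agent.Lib.P078G.Cut

/-!
# P078G Faithful: if the kernel projections are not total there is a faithful corner

`exists_faithful`.  Let `v ≠ 0` with `e v = 0` for all projections `e ∈ M` with `E e = 0`.  Let `K`
be the closed span of the ranges of these projections, `s = K.starProjection`.  `s ∈ M`
(`proj_mem_M`: each range is invariant under the commutant).  `s` commutes with `A`: for `a ∈ A` and
a kernel projection `e`, `y = a e a⋆ ∈ M` is positive, `E y = a E(e) a⋆ = 0` and for each `c > 0` the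
complement `1 - g` of the cut of `y` at `c` (`spectral_cut`) satisfies `c (1 - g) ≤ y`, so it is a
kernel projection; as `c → 0`, `(1 - g) → ` range projection of `y` (`‖y g w‖ ≤ c ‖w‖`, so `y w` is
the limit of `y (1 - g) w = (1 - g) y w ∈ K`), so range `y ⊆ K`, and the closure of the range of
`y = (a e)(a e)⋆` is the closure of the range of `a e`; so `a e w ∈ K` (elementary: `a e w ⟂ Kᗮ`: for
`z ∈ Kᗮ`, `y z = 0` because `y z ∈ K` and `⟪y z, z'⟫ = ⟪z, y z'⟫ = 0`; so `‖e a⋆ z‖² = ⟪z, y z⟫ = 0` and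
`⟪a e w, z⟫ = ⟪w, e a⋆ z⟫ = 0`).  So `s ∈ A` (`MM.cent`), `p₀ = 1 - s ∈ A`, `p₀ v = v`.
If `e ∈ M` is a projection with `e * p₀ = e` and `E e = 0` then `e = e s = 0`.
Let `K₁` be the closure of `{t v : t commutes with A}` (a submodule: the commutant of `A` is an
algebra), `p = K₁.starProjection`.  `p ∈ M` (`M.commutant` commutes with `A`), `p` commutes with `A`
(`A` is commutative), so `p ∈ A`; `p v = v`, `p p₀ = p`.
Faithful: let `e ∈ M` be a projection, `e * p = e`, `⟪v, E e v⟫ = 0`.  `0 ≤ E e ∈ A`, so `E e v = 0`,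
`E e t v = t E e v = 0`, so `E e * p = 0`; `E e = E (e * p) = E e * p = 0`; and `e * p₀ = e`, so
`e = 0`.
-/

namespace Vale.Agent.P078

open Filter
open scoped InnerProductSpace Topology

universe u

variable {H : Type u} [NormedAddCommGroup H] [InnerProductSpace ℂ H] [CompleteSpace H]
  {M : VonNeumannAlgebra H} {A : StarSubalgebra ℂ (H →L[ℂ] H)}
  {U : Ultrafilter (_root_.P078.Part A)} {E : (H →L[ℂ] H) →ₗ[ℂ] (H →L[ℂ] H)}

/-- a positive operator whose form vanishes at `v` kills `v` -/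
private theorem Faithful_pos {T : H →L[ℂ] H} (hT : 0 ≤ T) {v : H} (h : ⟪v, T v⟫_ℂ = 0) :
    T v = 0 := by
  obtain ⟨b, hb⟩ := CStarAlgebra.nonneg_iff_eq_star_mul_self.1 hT
  have h1 : b v = 0 := by
    rw [hb] at h
    have h2 : ⟪v, (star b * b) v⟫_ℂ = ⟪b v, b v⟫_ℂ := by
      rw [mul_apply_eq_comp, ContinuousLinearMap.star_eq_adjoint,
        ContinuousLinearMap.adjoint_inner_right]
    rw [h2] at h
    exact inner_self_eq_zero.1 h
  rw [hb, mul_apply_eq_comp, h1, map_zero]

omit [CompleteSpace H] in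
/-- an operator mapping a set into the closed span of another one -/
private theorem Faithful_span {S : Set H} {K : Submodule ℂ H} (hK : IsClosed (K : Set H))
    (t : H →L[ℂ] H) (h : ∀ x ∈ S, t x ∈ K) :
    ∀ x ∈ (Submodule.span ℂ S).topologicalClosure, t x ∈ K := by
  have h1 : (Submodule.span ℂ S).topologicalClosure ≤ K.comap (t : H →ₗ[ℂ] H) := by
    refine Submodule.topologicalClosure_minimal _ ?_ (hK.preimage t.continuous)
    rw [Submodule.span_le]
    intro x hx
    exact h x hx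
  exact fun x hx => h1 hx

private theorem Faithful_cut (hE : LimExp M A U E) {y : H →L[ℂ] H} (hy : y ∈ M)
    (h0 : 0 ≤ y) (hEy : E y = 0) {K : Submodule ℂ H} (hK : IsClosed (K : Set H))
    (hKS : ∀ e ∈ M, IsStarProjection e → E e = 0 → ∀ x, e x ∈ K) (w : H) : y w ∈ K := by
  rw [← SetLike.mem_coe, ← hK.closure_eq, Metric.mem_closure_iff]
  intro ε hε
  set c : ℝ := ε / (‖w‖ + 1) with hc
  have hw1 : 0 < ‖w‖ + 1 := by positivity
  have hc0 : 0 < c := div_pos hε hw1
  obtain ⟨g, hgM, hg, hgc, hgn, hgf⟩ := spectral_cut hy h0 hc0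
  have hf : IsStarProjection (1 - g) := hg.one_sub
  have hfM : 1 - g ∈ M := sub_mem (one_mem M.toStarSubalgebra) hgM
  have hysa : IsSelfAdjoint y := ((ContinuousLinearMap.nonneg_iff_isPositive y).1 h0).isSelfAdjoint
  have hpos : 0 ≤ ((c⁻¹ : ℝ) : ℂ) • y - (1 - g) := by
    rw [ContinuousLinearMap.nonneg_iff_isPositive, ContinuousLinearMap.isPositive_def']
    constructor
    · refine IsSelfAdjoint.sub ?_ hf.isSelfAdjoint
      refine IsSelfAdjoint.smul ?_ hysa
      exact Complex.conj_ofReal _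
    · intro ξ
      have h1 := hgf ξ
      have h2 : ⟪ξ, (1 - g) ξ⟫_ℂ = ((‖(1 - g) ξ‖ ^ 2 : ℝ) : ℂ) := by
        have h3 : (1 - g) ξ = (1 - g) ((1 - g) ξ) := by
          rw [← mul_apply_eq_comp, hf.isIdempotentElem.eq]
        have h4 : ⟪ξ, (1 - g) ((1 - g) ξ)⟫_ℂ = ⟪(1 - g) ξ, (1 - g) ξ⟫_ℂ := by
          have h5 : ContinuousLinearMap.adjoint (1 - g) = 1 - g := by
            rw [← ContinuousLinearMap.star_eq_adjoint]
            exact hf.isSelfAdjoint.star_eq
          rw [← ContinuousLinearMap.adjoint_inner_left, h5]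
        rw [h3, h4, inner_self_eq_norm_sq_to_K, ← h3]
        norm_cast
      have h6 : ContinuousLinearMap.reApplyInnerSelf (((c⁻¹ : ℝ) : ℂ) • y - (1 - g)) ξ =
          c⁻¹ * (⟪ξ, y ξ⟫_ℂ).re - ‖(1 - g) ξ‖ ^ 2 := by
        rw [ContinuousLinearMap.reApplyInnerSelf_apply, ← inner_conj_symm]
        have h7 : ⟪ξ, (((c⁻¹ : ℝ) : ℂ) • y - (1 - g)) ξ⟫_ℂ =
            ((c⁻¹ : ℝ) : ℂ) * ⟪ξ, y ξ⟫_ℂ - ((‖(1 - g) ξ‖ ^ 2 : ℝ) : ℂ) := by
          rw [← h2]
          change ⟪ξ, ((c⁻¹ : ℝ) : ℂ) • y ξ - (1 - g) ξ⟫_ℂ = _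
          rw [inner_sub_right, inner_smul_right]
        rw [h7]
        simp only [RCLike.re_to_complex, Complex.conj_re, Complex.sub_re, Complex.ofReal_re,
          Complex.re_ofReal_mul]
      rw [h6, sub_nonneg]
      rw [← div_eq_inv_mul, le_div_iff₀ hc0]
      linarith
  have hEf : E (1 - g) = 0 := by
    have h1 := hE.nonneg _ hpos
    rw [map_sub, map_smul, hEy, smul_zero, zero_sub, neg_nonneg] at h1
    have h2 := hE.nonneg (1 - g) hf.nonneg
    exact le_antisymm h1 h2
  refine ⟨(1 - g) (y w), hKS _ hfM hf hEf _, ?_⟩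
  have hcomm : y * g = g * y := hgc y rfl
  have h1 : y w - (1 - g) (y w) = y (g w) := by
    have h2 := congrArg (fun S : H →L[ℂ] H => S w) hcomm
    simp only [mul_apply_eq_comp] at h2
    rw [h2]
    change y w - (y w - g (y w)) = _
    rw [sub_sub_cancel]
  rw [dist_eq_norm, h1]
  have h3 : ‖g w‖ ≤ ‖w‖ := by
    have h4 : ‖g‖ ≤ 1 := hg.norm_le
    calc ‖g w‖ ≤ ‖g‖ * ‖w‖ := g.le_opNorm w
      _ ≤ 1 * ‖w‖ := mul_le_mul_of_nonneg_right h4 (norm_nonneg w)
      _ = ‖w‖ := one_mul _
  calc ‖y (g w)‖ ≤ c * ‖g w‖ := hgn w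
    _ ≤ c * ‖w‖ := mul_le_mul_of_nonneg_left h3 hc0.le
    _ < c * (‖w‖ + 1) := mul_lt_mul_of_pos_left (lt_add_one _) hc0
    _ = ε := by rw [hc, div_mul_cancel₀ _ hw1.ne']

theorem exists_faithful (h : MM M A) (hE : LimExp M A U E) (hT : ¬ KerTotal M E) :
    ∃ (v : H) (p : H →L[ℂ] H), p ∈ A ∧ IsStarProjection p ∧ p ≠ 0 ∧
      ∀ e ∈ M, IsStarProjection e → e * p = e → ⟪v, E e v⟫_ℂ = 0 → e = 0 := by
  simp only [KerTotal, not_forall] at hT
  obtain ⟨v, hv, hv0⟩ := hT
  set S : Set H := {x | ∃ e ∈ M, IsStarProjection e ∧ E e = 0 ∧ e x = x} with hS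
  set K : Submodule ℂ H := (Submodule.span ℂ S).topologicalClosure with hK
  have hKc : IsClosed (K : Set H) := Submodule.isClosed_topologicalClosure _
  have hSK : ∀ x ∈ S, x ∈ K := fun x hx =>
    Submodule.le_topologicalClosure _ (Submodule.subset_span hx)
  have hKS : ∀ e ∈ M, IsStarProjection e → E e = 0 → ∀ x, e x ∈ K := by
    intro e he hep hEe x
    refine hSK _ ⟨e, he, hep, hEe, ?_⟩
    rw [← mul_apply_eq_comp, hep.isIdempotentElem.eq]
  have hadj : ∀ e : H →L[ℂ] H, IsStarProjection e → ContinuousLinearMap.adjoint e = e := by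
    intro e he
    rw [← ContinuousLinearMap.star_eq_adjoint]
    exact he.isSelfAdjoint.star_eq
  -- `K` is invariant under `A`
  have hAK : ∀ a ∈ A, ∀ x ∈ K, a x ∈ K := by
    intro a ha
    refine Faithful_span hKc a ?_
    rintro x ⟨e, heM, hep, hEe, hex⟩
    have haM : a ∈ M := h.le a ha
    have hyM : a * e * star a ∈ M := mul_mem (mul_mem haM heM) (star_mem haM)
    have hy0 : 0 ≤ a * e * star a := by
      have h1 : a * e * star a = star (e * star a) * (e * star a) := by
        rw [star_mul, star_star, hep.isSelfAdjoint.star_eq]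
        calc a * e * star a = a * (e * e) * star a := by rw [hep.isIdempotentElem.eq]
          _ = a * e * (e * star a) := by simp only [mul_assoc]
      rw [h1]
      exact star_mul_self_nonneg _
    have hEy : E (a * e * star a) = 0 := by
      rw [hE.right _ (star_mem ha), hE.left a ha, hEe, mul_zero, zero_mul]
    have hr := Faithful_cut hE hyM hy0 hEy hKc hKS
    have hKK : Kᗮᗮ = K := Submodule.orthogonal_orthogonal K
    rw [← hKK, Submodule.mem_orthogonal]
    intro z hz
    have hz1 : ⟪z, (a * e * star a) z⟫_ℂ = 0 := by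
      rw [Submodule.mem_orthogonal] at hz
      rw [← inner_conj_symm, hz _ (hr z), map_zero]
    have hz2 : e (star a z) = 0 := by
      have h2 : ⟪z, (a * e * star a) z⟫_ℂ = ⟪e (star a z), e (star a z)⟫_ℂ := by
        rw [mul_assoc, mul_apply_eq_comp, mul_apply_eq_comp]
        conv_rhs => rw [← ContinuousLinearMap.adjoint_inner_right, hadj e hep,
          ← mul_apply_eq_comp, hep.isIdempotentElem.eq,
          ContinuousLinearMap.star_eq_adjoint, ContinuousLinearMap.adjoint_inner_left]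
        rw [ContinuousLinearMap.star_eq_adjoint]
      rw [h2] at hz1
      exact inner_self_eq_zero.1 hz1
    rw [← hex, ← ContinuousLinearMap.adjoint_inner_left, ← ContinuousLinearMap.star_eq_adjoint,
      ← ContinuousLinearMap.adjoint_inner_left, hadj e hep, hz2, inner_zero_left]
  set s : H →L[ℂ] H := K.starProjection with hs
  have hsp : IsStarProjection s := isStarProjection_starProjection
  have hsM : s ∈ M := by
    refine proj_mem_M fun t ht => ?_
    refine Faithful_span hKc t ?_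
    rintro x ⟨e, heM, hep, hEe, hex⟩
    refine hSK _ ⟨e, heM, hep, hEe, ?_⟩
    have h1 := congrArg (fun S : H →L[ℂ] H => S x) (comm_of_mem heM ht)
    simp only [mul_apply_eq_comp] at h1
    rw [h1, hex]
  have hsA : s ∈ A := h.cent s hsM fun a ha =>
    _root_.P078.commute_of_invt (hAK a ha) (hAK (star a) (star_mem ha))
  have hp0A : 1 - s ∈ A := sub_mem (one_mem A) hsA
  have hsv : s v = 0 := by
    have h1 : v ∈ Kᗮ := by
      rw [Submodule.mem_orthogonal]
      have h2 : K ≤ LinearMap.ker ((innerSL ℂ v : H →L[ℂ] ℂ) : H →ₗ[ℂ] ℂ) := by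
        refine Submodule.topologicalClosure_minimal _ ?_ (innerSL ℂ v).isClosed_ker
        rw [Submodule.span_le]
        rintro x ⟨e, heM, hep, hEe, hex⟩
        rw [SetLike.mem_coe, LinearMap.mem_ker]
        change ⟪v, x⟫_ℂ = 0
        rw [← hex, ← ContinuousLinearMap.adjoint_inner_left, hadj e hep, hv e heM hep hEe,
          inner_zero_left]
      intro x hx
      have h3 := h2 hx
      rw [LinearMap.mem_ker] at h3
      rw [← inner_conj_symm]
      change (starRingEnd ℂ) (innerSL ℂ v x) = 0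
      rw [show innerSL ℂ v x = 0 from h3, map_zero]
    exact (Submodule.starProjection_apply_eq_zero_iff _).2 h1
  have hkill : ∀ e ∈ M, IsStarProjection e → e * (1 - s) = e → E e = 0 → e = 0 := by
    intro e heM hep he1 hEe
    have h1 : (1 - s) * e = e := by
      have h2 := congrArg star he1
      rw [star_mul, star_sub, star_one, hsp.isSelfAdjoint.star_eq, hep.isSelfAdjoint.star_eq] at h2
      exact h2
    ext x
    have h3 : s (e x) = e x := Submodule.starProjection_eq_self_iff.2 (hKS e heM hep hEe x)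
    have h4 := congrArg (fun S : H →L[ℂ] H => S x) h1
    simp only [mul_apply_eq_comp] at h4
    rw [← h4]
    change e x - s (e x) = 0
    rw [h3, sub_self]
  -- the cyclic projection
  set S₁ : Set H := {x | ∃ t : H →L[ℂ] H, (∀ a ∈ A, a * t = t * a) ∧ x = t v} with hS₁
  set K₁ : Submodule ℂ H := (Submodule.span ℂ S₁).topologicalClosure with hK₁
  have hK₁c : IsClosed (K₁ : Set H) := Submodule.isClosed_topologicalClosure _
  have hSK₁ : ∀ x ∈ S₁, x ∈ K₁ := fun x hx =>
    Submodule.le_topologicalClosure _ (Submodule.subset_span hx)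
  have hinv : ∀ b : H →L[ℂ] H, (∀ a ∈ A, a * b = b * a) → ∀ x ∈ K₁, b x ∈ K₁ := by
    intro b hb
    refine Faithful_span hK₁c b ?_
    rintro x ⟨t, ht, rfl⟩
    refine hSK₁ _ ⟨b * t, fun a ha => ?_, by rw [mul_apply_eq_comp]⟩
    rw [← mul_assoc, hb a ha, mul_assoc, ht a ha, mul_assoc]
  set p : H →L[ℂ] H := K₁.starProjection with hp
  have hpp : IsStarProjection p := isStarProjection_starProjection
  have hpM : p ∈ M := by
    refine proj_mem_M fun t ht => hinv t fun a ha => ?_
    exact comm_of_mem (h.le a ha) ht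
  have hpA : p ∈ A := h.cent p hpM fun a ha =>
    _root_.P078.commute_of_invt (hinv a fun b hb => h.comm b hb a ha)
      (hinv (star a) fun b hb => h.comm b hb _ (star_mem ha))
  have hpv : p v = v := by
    refine Submodule.starProjection_eq_self_iff.2 (hSK₁ v ⟨1, fun a _ => ?_, ?_⟩)
    · rw [mul_one, one_mul]
    · rfl
  have hsp0 : s * p = 0 := by
    ext x
    have h1 := Faithful_span (K := (⊥ : Submodule ℂ H)) (S := S₁) isClosed_singleton s ?_
      (p x) (K₁.starProjection_apply_mem x)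
    · exact (Submodule.mem_bot ℂ).1 h1
    · rintro x ⟨t, ht, rfl⟩
      have h2 := congrArg (fun S : H →L[ℂ] H => S v) (ht s hsA)
      simp only [mul_apply_eq_comp] at h2
      rw [Submodule.mem_bot, h2, hsv, map_zero]
  have hps0 : p * s = 0 := by
    have h2 := congrArg star hsp0
    rw [star_mul, hsp.isSelfAdjoint.star_eq, hpp.isSelfAdjoint.star_eq, star_zero] at h2
    exact h2
  refine ⟨v, p, hpA, hpp, ?_, ?_⟩
  · intro h0
    rw [h0] at hpv
    exact hv0 hpv.symm
  · intro e heM hep hepe hee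
    have hE0 : 0 ≤ E e := hE.nonneg e hep.nonneg
    have hEA : E e ∈ A := hE.mem e heM
    have hEv : E e v = 0 := Faithful_pos hE0 hee
    have hEp : E e * p = 0 := by
      ext x
      have h1 := Faithful_span (K := (⊥ : Submodule ℂ H)) (S := S₁) isClosed_singleton (E e) ?_
        (p x) (K₁.starProjection_apply_mem x)
      · exact (Submodule.mem_bot ℂ).1 h1
      · rintro x ⟨t, ht, rfl⟩
        have h2 := congrArg (fun S : H →L[ℂ] H => S v) (ht _ hEA)
        simp only [mul_apply_eq_comp] at h2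
        rw [Submodule.mem_bot, h2, hEv, map_zero]
    have hEe : E e = 0 := by
      rw [← hepe, hE.right p hpA, hEp]
    refine hkill e heM hep ?_ hEe
    rw [mul_sub, mul_one]
    have h3 : e * s = 0 := by
      rw [← hepe, mul_assoc, hps0, mul_zero]
    rw [h3, sub_zero]

/-- the functional `y ↦ ⟪v, E y v⟫` is positive and `A`-central -/
theorem vec_posF (hE : LimExp M A U E) (v : H) : ∃ θ : (H →L[ℂ] H) →ₗ[ℂ] ℂ,
    (∀ y, θ y = ⟪v, E y v⟫_ℂ) ∧ PosF θ := by
  refine ⟨{ toFun := fun y => ⟪v, E y v⟫_ℂ, map_add' := ?_, map_smul' := ?_ }, fun y => rfl, ?_⟩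
  · intro a b
    rw [map_add, add_apply, inner_add_right]
  · intro c a
    rw [map_smul, RingHom.id_apply, smul_eq_mul, ← inner_smul_right]
    rfl
  · constructor
    · intro y
      have h1 := hE.nonneg _ (star_mul_self_nonneg y)
      exact ((ContinuousLinearMap.nonneg_iff_isPositive _).1 h1).re_inner_nonneg_right v
    · intro y
      change ⟪v, E (star y) v⟫_ℂ = (starRingEnd ℂ) ⟪v, E y v⟫_ℂ
      rw [hE.map_star, ContinuousLinearMap.star_eq_adjoint,
        ContinuousLinearMap.adjoint_inner_right, inner_conj_symm]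
    · intro y
      change ‖⟪v, E y v⟫_ℂ‖ ≤ (⟪v, E 1 v⟫_ℂ).re * ‖y‖
      have h1 : E 1 = 1 := hE.id 1 (one_mem A)
      have h2 : (⟪v, (1 : H →L[ℂ] H) v⟫_ℂ).re = ‖v‖ ^ 2 := by
        change (⟪v, v⟫_ℂ).re = _
        rw [inner_self_eq_norm_sq_to_K]
        norm_cast
      rw [h1, h2]
      calc ‖⟪v, E y v⟫_ℂ‖ ≤ ‖v‖ * ‖E y v‖ := norm_inner_le_norm _ _
        _ ≤ ‖v‖ * (‖E y‖ * ‖v‖) := mul_le_mul_of_nonneg_left ((E y).le_opNorm v) (norm_nonneg v)
        _ ≤ ‖v‖ * (‖y‖ * ‖v‖) := mul_le_mul_of_nonneg_left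
          (mul_le_mul_of_nonneg_right (hE.norm_le y) (norm_nonneg v)) (norm_nonneg v)
        _ = ‖v‖ ^ 2 * ‖y‖ := by ring

theorem vec_central (hE : LimExp M A U E) (v : H) {a : H →L[ℂ] H} (ha : a ∈ A)
    (y : H →L[ℂ] H) : ⟪v, E (a * y) v⟫_ℂ = ⟪v, E (y * a) v⟫_ℂ := by
  rw [hE.left a ha, hE.right a ha, hE.comm_map a ha]

end Vale.Agent.P078
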