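import Vale.Agent.Lib.P078G.Base

/-!
# P078G LowerG: `1/ε ≤ r` under the spreading property

Given `η > 0` take `f, q` from `Spread` with `F = {ξ₀}`, `ξ₀` a unit vector, `δ = 1/2`: then
`q ξ₀ ≠ 0`; let `ψ₀` be a unit vector with `q ψ₀ = ψ₀`, `x = 1 - 2 q ∈ M` (self-adjoint, `x * x = 1`,
`‖x‖ = 1`).  Let `ψ_J = f_J ψ₀ / ‖f_J ψ₀‖` (for the `J` with `f_J ψ₀ ≠ 0`), `w_J = ‖f_J ψ₀‖²`,
`∑ w_J = 1`.  Apply `SoPavable` to `x`, `F = {ψ₀} ∪ {ψ_J}` and `δ`: partition `p_c`, `a ∈ A`, `q'`;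
`T = ∑_c p_c x p_c - a`, `‖T‖ ≤ r + 1`.  For a unit vector `ψ ∈ F`:
`|⟪ψ, T ψ⟫| ≤ ε + 2 (r + 1) δ` (`lower_corner` in `Lib/P078S/Lower.lean`: copy it).
`∑_c ⟪p_c ψ, q p_c ψ⟫ = ∑_c ‖q p_c ψ‖²`.  For `ψ₀`: `≥ (1/r) ‖∑_c q p_c ψ₀‖² = 1/r`, so with
`α = re ⟪ψ₀, a ψ₀⟫`: `re ⟪ψ₀, T ψ₀⟫ ≤ 1 - 2/r - α`.  For the `ψ_J`:
`w_J ∑_c ‖q p_c ψ_J‖² = ∑_c ‖q f_J p_c f_J ψ₀‖² ≤ η ∑_c ‖p_c f_J ψ₀‖² = η w_J` (`p_c f_J = f_J p_c`)
and `∑_J w_J ⟪ψ_J, a ψ_J⟫ = ⟪ψ₀, a ψ₀⟫` (`a` commutes with `f_J`), so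
`∑_J w_J re ⟪ψ_J, T ψ_J⟫ ≥ 1 - 2 η - α`.  Hence `1 - α ≥ 2/r - ε - 2(r+1)δ` and
`1 - α ≤ ε + 2(r+1)δ + 2η`, so `1/r ≤ ε + 2(r+1)δ + η` for all `δ, η > 0`, and `1/ε ≤ r`.
(Compare `Lib/P078S/Lower.lean`, which is the case of `B(H)`.)
-/

namespace Vale.Agent.P078

open Filter
open scoped InnerProductSpace Topology

universe u

variable {H : Type u} [NormedAddCommGroup H] [InnerProductSpace ℂ H] [CompleteSpace H]
  {M : VonNeumannAlgebra H} {A : StarSubalgebra ℂ (H →L[ℂ] H)}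

private theorem lg_proj_inner {p : H →L[ℂ] H} (hp : IsStarProjection p) (v w : H) :
    ⟪v, p w⟫_ℂ = ⟪p v, w⟫_ℂ :=
  ((ContinuousLinearMap.isSelfAdjoint_iff_isSymmetric.1 hp.isSelfAdjoint) v w).symm

private theorem lg_proj_sq {p : H →L[ℂ] H} (hp : IsStarProjection p) (v : H) :
    p (p v) = p v := by
  have := hp.isIdempotentElem
  rw [← mul_apply_eq_comp, this.eq]

private theorem lg_proj_norm_sq {p : H →L[ℂ] H} (hp : IsStarProjection p) (v : H) :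
    ⟪v, p v⟫_ℂ = ((‖p v‖ ^ 2 : ℝ) : ℂ) := by
  rw [← lg_proj_sq hp v, lg_proj_inner hp, lg_proj_sq hp v,
    inner_self_eq_norm_sq_to_K]
  norm_cast

private theorem lg_proj_norm_le {p : H →L[ℂ] H} (hp : IsStarProjection p) (v : H) :
    ‖p v‖ ≤ ‖v‖ := by
  have h1 := lg_proj_norm_sq hp v
  have h2 : ‖⟪v, p v⟫_ℂ‖ ≤ ‖v‖ * ‖p v‖ := norm_inner_le_norm _ _
  rw [h1, Complex.norm_real, Real.norm_of_nonneg (sq_nonneg _)] at h2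
  by_contra h3
  push Not at h3
  have h4 : 0 ≤ ‖v‖ := norm_nonneg _
  nlinarith

private theorem lg_part_norm {r : ℕ} {p : Fin r → H →L[ℂ] H} (hp : IsPartition A p) (v : H) :
    ∑ c, ‖p c v‖ ^ 2 = ‖v‖ ^ 2 := by
  have h1 : ⟪v, (∑ c, p c) v⟫_ℂ = ((∑ c, ‖p c v‖ ^ 2 : ℝ) : ℂ) := by
    rw [_root_.sum_apply, inner_sum]
    push_cast
    refine Finset.sum_congr rfl fun c _ => ?_
    rw [lg_proj_norm_sq (hp.proj c)]
    push_cast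
    rfl
  rw [hp.sum, one_apply_eq_self, inner_self_eq_norm_sq_to_K] at h1
  apply Complex.ofReal_injective
  rw [← h1]
  push_cast
  rfl

private theorem lg_corner {T q : H →L[ℂ] H} (hq : IsStarProjection q) {ψ : H} (hψ : ‖ψ‖ = 1)
    {K δ e : ℝ} (hT : ‖T‖ ≤ K) (h1 : ‖(1 - q) ψ‖ < δ) (h2 : ‖q * T * q‖ ≤ e) :
    |(⟪ψ, T ψ⟫_ℂ).re| ≤ e + 2 * K * δ := by
  have hK : 0 ≤ K := (norm_nonneg _).trans hT
  have e1 : ⟪ψ, T ψ⟫_ℂ = ⟪ψ, (q * T * q) ψ⟫_ℂ + (⟪(1 - q) ψ, T (q ψ)⟫_ℂ + ⟪ψ, T ((1 - q) ψ)⟫_ℂ) := by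
    simp only [mul_apply_eq_comp, sub_apply,
      one_apply_eq_self, map_sub, inner_sub_left, inner_sub_right]
    rw [lg_proj_inner hq]
    ring
  have b1 : ‖⟪ψ, (q * T * q) ψ⟫_ℂ‖ ≤ e := by
    refine (norm_inner_le_norm _ _).trans ?_
    rw [hψ, one_mul]
    refine ((q * T * q).le_opNorm ψ).trans ?_
    rw [hψ, mul_one]
    exact h2
  have b2 : ‖⟪(1 - q) ψ, T (q ψ)⟫_ℂ‖ ≤ K * δ := by
    refine (norm_inner_le_norm _ _).trans ?_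
    have c1 : ‖T (q ψ)‖ ≤ K := by
      refine (T.le_opNorm _).trans ?_
      have c2 : ‖q ψ‖ ≤ 1 := (lg_proj_norm_le hq ψ).trans hψ.le
      calc ‖T‖ * ‖q ψ‖ ≤ K * 1 := mul_le_mul hT c2 (norm_nonneg _) hK
        _ = K := mul_one _
    calc ‖(1 - q) ψ‖ * ‖T (q ψ)‖ ≤ δ * K :=
          mul_le_mul h1.le c1 (norm_nonneg _) ((norm_nonneg _).trans h1.le)
      _ = K * δ := mul_comm _ _
  have b3 : ‖⟪ψ, T ((1 - q) ψ)⟫_ℂ‖ ≤ K * δ := by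
    refine (norm_inner_le_norm _ _).trans ?_
    rw [hψ, one_mul]
    exact (T.le_opNorm _).trans (mul_le_mul hT h1.le (norm_nonneg _) hK)
  calc |(⟪ψ, T ψ⟫_ℂ).re| ≤ ‖⟪ψ, T ψ⟫_ℂ‖ := Complex.abs_re_le_norm _
    _ ≤ ‖⟪ψ, (q * T * q) ψ⟫_ℂ‖ + ‖⟪(1 - q) ψ, T (q ψ)⟫_ℂ + ⟪ψ, T ((1 - q) ψ)⟫_ℂ‖ := by
        rw [e1]
        exact norm_add_le _ _
    _ ≤ ‖⟪ψ, (q * T * q) ψ⟫_ℂ‖ + (‖⟪(1 - q) ψ, T (q ψ)⟫_ℂ‖ + ‖⟪ψ, T ((1 - q) ψ)⟫_ℂ‖) := by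
        gcongr
        exact norm_add_le _ _
    _ ≤ e + (K * δ + K * δ) := by gcongr
    _ = e + 2 * K * δ := by ring

private theorem lg_norm_T {r : ℕ} {p : Fin r → H →L[ℂ] H} (hp : ∀ c, IsStarProjection (p c))
    {x a : H →L[ℂ] H} (hx : ‖x‖ = 1) (ha : ‖a‖ ≤ 1) :
    ‖∑ c, p c * x * p c - a‖ ≤ (r : ℝ) + 1 := by
  have h1 : ∀ c, ‖p c‖ ≤ 1 := fun c =>
    ContinuousLinearMap.opNorm_le_bound _ zero_le_one fun v => by
      rw [one_mul]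
      exact lg_proj_norm_le (hp c) v
  have h2 : ∀ c, ‖p c * x * p c‖ ≤ 1 := fun c => by
    calc ‖p c * x * p c‖ ≤ ‖p c‖ * ‖x‖ * ‖p c‖ :=
          (norm_mul_le _ _).trans (mul_le_mul_of_nonneg_right (norm_mul_le _ _) (norm_nonneg _))
      _ ≤ 1 * 1 * 1 := by
          rw [hx]
          have := h1 c
          have h0 := norm_nonneg (p c)
          nlinarith
      _ = 1 := by norm_num
  calc ‖∑ c, p c * x * p c - a‖ ≤ ‖∑ c, p c * x * p c‖ + ‖a‖ := norm_sub_le _ _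
    _ ≤ (∑ c : Fin r, ‖p c * x * p c‖) + 1 := add_le_add (norm_sum_le _ _) ha
    _ ≤ (∑ _c : Fin r, (1 : ℝ)) + 1 := by
        gcongr with c _
        exact h2 c
    _ = (r : ℝ) + 1 := by simp

private theorem lg_unit {f : H →L[ℂ] H} (hpf : IsStarProjection f) (h0 : f ≠ 0) :
    ∃ v : H, ‖v‖ = 1 ∧ f v = v := by
  have h1 : ∃ w, f w ≠ 0 := by
    by_contra hc
    push Not at hc
    exact h0 (ContinuousLinearMap.ext hc)
  obtain ⟨w, hw⟩ := h1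
  have hn : ‖f w‖ ≠ 0 := norm_ne_zero_iff.2 hw
  refine ⟨((‖f w‖⁻¹ : ℝ) : ℂ) • f w, ?_, ?_⟩
  · rw [norm_smul, Complex.norm_real, Real.norm_of_nonneg (inv_nonneg.2 (norm_nonneg _)),
      inv_mul_cancel₀ hn]
  · rw [map_smul, lg_proj_sq hpf]

private theorem lg_X_norm [Nontrivial H] {g : H →L[ℂ] H} (hg : IsStarProjection g) :
    ‖1 - (2 : ℂ) • g‖ = 1 := by
  have hsa : star (1 - (2 : ℂ) • g) = 1 - (2 : ℂ) • g := by
    rw [star_sub, star_one, star_smul, hg.isSelfAdjoint.star_eq]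
    congr 2
    exact Complex.conj_ofNat 2
  have h1 : (1 - (2 : ℂ) • g) * (1 - (2 : ℂ) • g) = 1 := by
    have h2 : g * g = g := hg.isIdempotentElem
    have h3 : ((2 : ℂ) • g) * ((2 : ℂ) • g) = (2 : ℂ) • g + (2 : ℂ) • g := by
      rw [smul_mul_smul_comm, h2, ← add_smul]
      norm_num
    rw [sub_mul, mul_sub, mul_sub, one_mul, one_mul, mul_one, h3]
    abel
  have h2 : ‖star (1 - (2 : ℂ) • g) * (1 - (2 : ℂ) • g)‖ =
      ‖1 - (2 : ℂ) • g‖ * ‖1 - (2 : ℂ) • g‖ := CStarRing.norm_star_mul_self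
  rw [hsa, h1, norm_one] at h2
  have h3 : 0 ≤ ‖1 - (2 : ℂ) • g‖ := norm_nonneg _
  nlinarith

private theorem lg_pinch {r : ℕ} {p : Fin r → H →L[ℂ] H} (hp : IsPartition A p)
    {g : H →L[ℂ] H} (hg : IsStarProjection g) (ψ : H) :
    (⟪ψ, (∑ c, p c * (1 - (2 : ℂ) • g) * p c) ψ⟫_ℂ).re =
      ‖ψ‖ ^ 2 - 2 * ∑ c, ‖g (p c ψ)‖ ^ 2 := by
  rw [_root_.sum_apply, inner_sum, Complex.re_sum, ← lg_part_norm hp ψ,
    Finset.mul_sum, ← Finset.sum_sub_distrib]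
  refine Finset.sum_congr rfl fun c _ => ?_
  have h0 : (p c * (1 - (2 : ℂ) • g) * p c) ψ = p c (p c ψ - (2 : ℂ) • g (p c ψ)) := rfl
  rw [h0, lg_proj_inner (hp.proj c), inner_sub_right, inner_smul_right,
    inner_self_eq_norm_sq_to_K, lg_proj_norm_sq hg, Complex.sub_re]
  have h1 : ((2 : ℂ) * ((‖g (p c ψ)‖ ^ 2 : ℝ) : ℂ)).re = 2 * ‖g (p c ψ)‖ ^ 2 := by
    rw [show (2 : ℂ) = ((2 : ℝ) : ℂ) by norm_num, ← Complex.ofReal_mul, Complex.ofReal_re]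
  rw [h1]
  congr 1
  have h2 : ((‖p c ψ‖ : ℂ) ^ 2).re = ‖p c ψ‖ ^ 2 := by
    rw [← Complex.ofReal_pow, Complex.ofReal_re]
  exact h2

private theorem lg_core [Nontrivial H] (h : MM M A) {ε : ℝ} {r : ℕ} (hr : 1 ≤ r)
    (hp : ∀ x ∈ M, IsSelfAdjoint x → SoPavable M A x ε r) {δ η : ℝ} (hδ : 0 < δ)
    {f : _root_.P078.Part A} {g : H →L[ℂ] H} (hgM : g ∈ M)
    (hg : IsStarProjection g) (hfg : ∀ i v, ‖g (f.e i v)‖ ^ 2 ≤ η * ‖f.e i v‖ ^ 2)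
    {ψ : H} (hψ : ‖ψ‖ = 1) (hgψ : g ψ = ψ) :
    1 / (r : ℝ) ≤ ε + 2 * (r + 1) * δ + η := by
  classical
  have hr0 : (0 : ℝ) < r := by exact_mod_cast hr
  set x : H →L[ℂ] H := 1 - (2 : ℂ) • g with hx
  have hxn : ‖x‖ = 1 := lg_X_norm hg
  have hxM : x ∈ M := sub_mem (one_mem M) (M.toStarSubalgebra.smul_mem hgM _)
  have hxs : IsSelfAdjoint x := by
    rw [hx, isSelfAdjoint_iff, star_sub, star_one, star_smul, hg.isSelfAdjoint.star_eq]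
    congr 2
    exact Complex.conj_ofNat 2
  let u : Fin f.n → H := fun J => f.e J ψ
  let v : Fin f.n → H := fun J => ((‖u J‖⁻¹ : ℝ) : ℂ) • u J
  obtain ⟨p, a, q, hpp, haA, -, hax, -, hq, hF, hT⟩ :=
    hp x hxM hxs (insert ψ (Finset.univ.image v)) δ hδ
  rw [hxn] at hax hT
  rw [mul_one] at hT
  have hTn := lg_norm_T (r := r) hpp.proj hxn hax
  have hspl : ∀ φ : H, (⟪φ, (∑ i, p i * x * p i - a) φ⟫_ℂ).re
      = ‖φ‖ ^ 2 - 2 * ∑ c, ‖g (p c φ)‖ ^ 2 - (⟪φ, a φ⟫_ℂ).re := fun φ => by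
    rw [sub_apply, inner_sub_right, Complex.sub_re, hx, lg_pinch hpp hg]
  have hb0 := lg_corner hq hψ hTn (hF ψ (Finset.mem_insert_self _ _)) hT
  rw [hspl, hψ] at hb0
  set E := ε + 2 * ((r : ℝ) + 1) * δ with hE
  set α := (⟪ψ, a ψ⟫_ℂ).re with hα
  -- Cauchy-Schwarz
  have hCS : 1 / (r : ℝ) ≤ ∑ c, ‖g (p c ψ)‖ ^ 2 := by
    have h1 : (∑ c, ‖g (p c ψ)‖) ^ 2 ≤ (r : ℝ) * ∑ c, ‖g (p c ψ)‖ ^ 2 := by
      have := sq_sum_le_card_mul_sum_sq (s := (Finset.univ : Finset (Fin r)))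
        (f := fun c => ‖g (p c ψ)‖)
      simpa using this
    have h2 : (1 : ℝ) ≤ ∑ c, ‖g (p c ψ)‖ := by
      have h3 : ∑ c, g (p c ψ) = ψ := by
        rw [← map_sum, ← _root_.sum_apply, hpp.sum, one_apply_eq_self, hgψ]
      calc (1 : ℝ) = ‖∑ c, g (p c ψ)‖ := by rw [h3, hψ]
        _ ≤ _ := norm_sum_le _ _
    rw [div_le_iff₀ hr0]
    nlinarith
  have k1 : 2 * (1 / (r : ℝ)) - E ≤ 1 - α := by
    have := (abs_le.1 hb0).1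
    linarith
  -- the pieces
  have hcomm : ∀ c J, p c (u J) = f.e J (p c ψ) := fun c J => by
    have h1 := h.comm (p c) (hpp.mem c) (f.e J) (f.mem J)
    exact congrArg (fun S : H →L[ℂ] H => S ψ) h1
  have hu : ∀ J, ‖u J‖ ^ 2 - 2 * ∑ c, ‖g (p c (u J))‖ ^ 2 - (⟪u J, a (u J)⟫_ℂ).re ≤
      E * ‖u J‖ ^ 2 := by
    intro J
    by_cases h0 : u J = 0
    · rw [h0]
      simp
    · have hn : ‖u J‖ ≠ 0 := norm_ne_zero_iff.2 h0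
      have hnp : 0 < ‖u J‖ := norm_pos_iff.2 h0
      have hv1 : ‖v J‖ = 1 := by
        show ‖((‖u J‖⁻¹ : ℝ) : ℂ) • u J‖ = 1
        rw [norm_smul, Complex.norm_real, Real.norm_of_nonneg (inv_nonneg.2 (norm_nonneg _)),
          inv_mul_cancel₀ hn]
      have hbj := lg_corner hq hv1 hTn
        (hF (v J) (Finset.mem_insert_of_mem (Finset.mem_image_of_mem _ (Finset.mem_univ _)))) hT
      have hb1 := (le_abs_self _).trans hbj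
      have huv : u J = ((‖u J‖ : ℝ) : ℂ) • v J := by
        show u J = ((‖u J‖ : ℝ) : ℂ) • (((‖u J‖⁻¹ : ℝ) : ℂ) • u J)
        rw [smul_smul, ← Complex.ofReal_mul, mul_inv_cancel₀ hn, Complex.ofReal_one, one_smul]
      have hsc : (⟪u J, (∑ i, p i * x * p i - a) (u J)⟫_ℂ).re =
          ‖u J‖ ^ 2 * (⟪v J, (∑ i, p i * x * p i - a) (v J)⟫_ℂ).re := by
        generalize (∑ i, p i * x * p i - a) = T
        have h5 : ⟪u J, T (u J)⟫_ℂ = ((‖u J‖ ^ 2 : ℝ) : ℂ) * ⟪v J, T (v J)⟫_ℂ := by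
          conv_lhs => rw [huv]
          rw [map_smul, inner_smul_left, inner_smul_right, Complex.conj_ofReal]
          push_cast
          ring
        rw [h5, Complex.re_ofReal_mul]
      rw [← hspl, hsc, mul_comm E]
      exact mul_le_mul_of_nonneg_left hb1 (sq_nonneg _)
  have hg2 : ∀ J, ∑ c, ‖g (p c (u J))‖ ^ 2 ≤ η * ‖u J‖ ^ 2 := by
    intro J
    rw [← lg_part_norm hpp (u J), Finset.mul_sum]
    refine Finset.sum_le_sum fun c _ => ?_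
    rw [hcomm]
    exact hfg J _
  have hsum : ∑ J, (‖u J‖ ^ 2 - 2 * (η * ‖u J‖ ^ 2) - (⟪u J, a (u J)⟫_ℂ).re) ≤
      ∑ J, E * ‖u J‖ ^ 2 := Finset.sum_le_sum fun J _ => by
    have h1 := hu J
    have h2 := hg2 J
    linarith
  rw [Finset.sum_sub_distrib, Finset.sum_sub_distrib, ← Finset.mul_sum, ← Finset.mul_sum,
    ← Finset.mul_sum] at hsum
  have hw : ∑ J, ‖u J‖ ^ 2 = 1 := by
    have := f.sum_norm_sq ψ
    rw [hψ] at this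
    rw [show ∑ J, ‖u J‖ ^ 2 = ∑ i, ‖f.e i ψ‖ ^ 2 from rfl, this]
    norm_num
  have hal : ∑ J, (⟪u J, a (u J)⟫_ℂ).re = α := by
    have h1 : ∀ J, ⟪u J, a (u J)⟫_ℂ = ⟪f.e J ψ, a ψ⟫_ℂ := by
      intro J
      have h2 : a (u J) = f.e J (a ψ) := by
        have h3 := h.comm a haA (f.e J) (f.mem J)
        exact congrArg (fun S : H →L[ℂ] H => S ψ) h3
      rw [h2]
      show ⟪f.e J ψ, f.e J (a ψ)⟫_ℂ = _
      rw [← f.inner_e J (f.e J ψ) (a ψ), f.e_apply_e]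
    rw [hα, ← Complex.re_sum, Finset.sum_congr rfl fun J _ => h1 J, ← sum_inner,
      ← _root_.sum_apply, f.sum, one_apply_eq_self]
  rw [hw, hal] at hsum
  linarith

theorem lower_gen [Nontrivial H] (h : MM M A) (hS : Spread M A) {ε : ℝ} (hε : 0 < ε) {r : ℕ}
    (hr : 1 ≤ r) (hp : ∀ x ∈ M, IsSelfAdjoint x → SoPavable M A x ε r) : 1 / ε ≤ r := by
  have hr0 : (0 : ℝ) < r := by exact_mod_cast hr
  have key : 1 / (r : ℝ) ≤ ε := by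
    refine le_of_forall_pos_le_add fun t ht => ?_
    obtain ⟨ξ, hξ⟩ := exists_ne (0 : H)
    obtain ⟨f, g, hgM, hg, hξg, hfg⟩ := hS {ξ} ‖ξ‖ (t / 2) (norm_pos_iff.2 hξ) (by positivity)
    have hg0 : g ≠ 0 := by
      intro h0
      have h1 := hξg ξ (Finset.mem_singleton_self ξ)
      rw [h0, sub_zero, one_apply_eq_self] at h1
      exact lt_irrefl _ h1
    obtain ⟨ψ, hψ, hgψ⟩ := lg_unit hg hg0
    have h1 := lg_core h hr hp (δ := t / (4 * (r + 1))) (by positivity) hgM hg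
      hfg hψ hgψ
    have h2 : 2 * ((r : ℝ) + 1) * (t / (4 * (r + 1))) = t / 2 := by
      field_simp
      ring
    rw [h2] at h1
    linarith
  rw [div_le_iff₀ hε]
  rw [div_le_iff₀ hr0] at key
  linarith

end Vale.Agent.P078
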