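import Vale.Agent.Lib.P078G.Kernel

/-!
# P078G Spreading: kernel projections give the spreading property

`spread_of_ker`: given `F, δ, η`, let `e ∈ M` be a projection with `E e = 0` and
`‖(1 - e) ξ‖ < δ₁` (`ξ ∈ F`, `δ₁` small).  `Q.pinch e → E e = 0` weakly along `U`, so there is a
partition `f : Part A` with `re ⟪ξ, (f.pinch e) ξ⟫ < δ₂` for all `ξ ∈ F`.  `Y = f.pinch e ∈ M`,
`0 ≤ Y`, commutes with all `f.e i`.  Let `g` be the cut of `Y` at `η / 2`: `g` commutes with the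
`f.e i`, `(η/2) ‖(1 - g) ξ‖² ≤ re ⟪ξ, Y ξ⟫ < δ₂`.  `e' = g * e * g ∈ M`, `0 ≤ e' ≤ 1`, and
`f.e i * e' * f.e i = g * (f.e i * e * f.e i) * g`, so `⟪f_i v, e' f_i v⟫ = ⟪g f_i v, Y g f_i v⟫ ≤
(η/2) ‖f_i v‖²`.  Let `k` be the cut of `1 - e'` at `1/2`, `q = k`: on the range of `k`,
`‖(1 - e') w‖ ≤ ‖w‖/2`, so `⟪k v, e' k v⟫ ≥ ‖k v‖²/2`; `k` commutes with `e'`, so
`‖k v‖² ≤ 2 ⟪v, e' v⟫` and `‖q f_i v‖² ≤ 2 ⟪f_i v, e' f_i v⟫ ≤ η ‖f_i v‖²`.  And
`‖(1 - q) ξ‖² ≤ 2 re ⟪ξ, (1 - e') ξ⟫ = 2 (‖ξ‖² - ‖e g ξ‖²)`, small because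
`‖e g ξ‖ ≥ ‖ξ‖ - ‖(1 - e) ξ‖ - ‖(1 - g) ξ‖`.
-/

namespace Vale.Agent.P078

open Filter
open scoped InnerProductSpace Topology

universe u

variable {H : Type u} [NormedAddCommGroup H] [InnerProductSpace ℂ H] [CompleteSpace H]
  {M : VonNeumannAlgebra H} {A : StarSubalgebra ℂ (H →L[ℂ] H)}
  {U : Ultrafilter (_root_.P078.Part A)} {E : (H →L[ℂ] H) →ₗ[ℂ] (H →L[ℂ] H)}

private theorem spreading_inner_proj {p : H →L[ℂ] H} (hp : IsStarProjection p) (v w : H) :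
    ⟪p v, w⟫_ℂ = ⟪v, p w⟫_ℂ := by
  have h := hp.isSelfAdjoint
  rw [ContinuousLinearMap.isSelfAdjoint_iff'] at h
  rw [← ContinuousLinearMap.adjoint_inner_right, h]

private theorem spreading_idem {p : H →L[ℂ] H} (hp : IsStarProjection p) (v : H) :
    p (p v) = p v :=
  congrArg (fun T : H →L[ℂ] H => T v) hp.isIdempotentElem.eq

private theorem spreading_inner_self {p : H →L[ℂ] H} (hp : IsStarProjection p) (v : H) :
    (⟪v, p v⟫_ℂ).re = ‖p v‖ ^ 2 := by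
  rw [← spreading_idem hp v, ← spreading_inner_proj hp, spreading_idem hp]
  have := inner_self_eq_norm_sq (𝕜 := ℂ) (p v)
  simpa using this

private theorem spreading_norm_le {p : H →L[ℂ] H} (hp : IsStarProjection p) (v : H) :
    ‖p v‖ ≤ ‖v‖ := by
  have h1 := spreading_inner_self hp v
  have h2 : (⟪v, p v⟫_ℂ).re ≤ ‖v‖ * ‖p v‖ :=
    (Complex.re_le_norm _).trans (norm_inner_le_norm _ _)
  rw [h1] at h2
  by_contra h3
  push Not at h3
  nlinarith [norm_nonneg v, norm_nonneg (p v)]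

/-- the second cut: from `e'` to a projection -/
private theorem spreading_step {e' : H →L[ℂ] H} (he' : e' ∈ M) (h0 : 0 ≤ e') (h1 : 0 ≤ 1 - e') :
    ∃ q ∈ M, IsStarProjection q ∧ (∀ ξ : H, ‖(1 - q) ξ‖ ^ 2 ≤ 2 * (⟪ξ, (1 - e') ξ⟫_ℂ).re) ∧
      ∀ w : H, ‖q w‖ ^ 2 ≤ 2 * (⟪w, e' w⟫_ℂ).re := by
  have hM : (1 - e') ∈ M := sub_mem (one_mem M) he'
  obtain ⟨k, hkM, hk, hkc, hk1, hk2⟩ := spectral_cut hM h1 (c := 1 / 2) (by norm_num)
  refine ⟨k, hkM, hk, fun ξ => ?_, fun w => ?_⟩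
  · have := hk2 ξ
    linarith
  · have hce : e' * k = k * e' := by
      refine hkc e' ?_
      rw [mul_sub, sub_mul, mul_one, one_mul]
    have hce' : ∀ x, e' (k x) = k (e' x) := fun x =>
      congrArg (fun T : H →L[ℂ] H => T x) hce
    have hpos : ∀ x : H, 0 ≤ (⟪x, e' x⟫_ℂ).re := by
      intro x
      have := (ContinuousLinearMap.nonneg_iff_isPositive e').mp h0
      have h3 := this.inner_nonneg_right x
      exact (Complex.le_def.mp h3).1
    -- lower bound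
    have h3 : ‖k w‖ ^ 2 / 2 ≤ (⟪k w, e' (k w)⟫_ℂ).re := by
      have h4 : (⟪k w, (1 - e') (k w)⟫_ℂ).re ≤ ‖k w‖ * (1 / 2 * ‖k w‖) :=
        (Complex.re_le_norm _).trans ((norm_inner_le_norm _ _).trans
          (mul_le_mul_of_nonneg_left (hk1 w) (norm_nonneg _)))
      have h5 : (⟪k w, (1 - e') (k w)⟫_ℂ).re = ‖k w‖ ^ 2 - (⟪k w, e' (k w)⟫_ℂ).re := by
        have h5a : (1 - e') (k w) = k w - e' (k w) := rfl
        rw [h5a, inner_sub_right, Complex.sub_re]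
        have := inner_self_eq_norm_sq (𝕜 := ℂ) (k w)
        rw [show (⟪k w, k w⟫_ℂ).re = ‖k w‖ ^ 2 from this]
      rw [h5] at h4
      nlinarith
    -- decomposition
    have h6 : (⟪w, e' w⟫_ℂ).re = (⟪k w, e' (k w)⟫_ℂ).re +
        (⟪w - k w, e' (w - k w)⟫_ℂ).re := by
      have h7 : ⟪k w, e' (w - k w)⟫_ℂ = 0 := by
        rw [spreading_inner_proj hk, ← hce', map_sub, spreading_idem hk, sub_self, map_zero,
          inner_zero_right]
      have h8 : ⟪w - k w, e' (k w)⟫_ℂ = 0 := by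
        rw [hce', ← spreading_inner_proj hk, map_sub, spreading_idem hk, sub_self,
          inner_zero_left]
      have h9 : ⟪w, e' w⟫_ℂ = ⟪k w + (w - k w), e' (k w + (w - k w))⟫_ℂ := by
        rw [add_sub_cancel]
      rw [h9, map_add, inner_add_left, inner_add_right, inner_add_right, h7, h8, add_zero,
        zero_add, Complex.add_re]
    have h10 := hpos (w - k w)
    linarith

theorem spread_of_ker (h : MM M A) (hE : LimExp M A U E)
    (hK : ∀ (F : Finset H) (δ : ℝ), 0 < δ →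
      ∃ e ∈ M, IsStarProjection e ∧ E e = 0 ∧ ∀ ξ ∈ F, ‖(1 - e) ξ‖ < δ) : Spread M A := by
  intro F δ η hδ hη
  set R : ℝ := ∑ ξ ∈ F, ‖ξ‖ with hR
  have hR0 : 0 ≤ R := Finset.sum_nonneg fun _ _ => norm_nonneg _
  have hRF : ∀ ξ ∈ F, ‖ξ‖ ≤ R := fun ξ hξ =>
    Finset.single_le_sum (f := fun ξ : H => ‖ξ‖) (fun _ _ => norm_nonneg _) hξ
  set s : ℝ := δ ^ 2 / (8 * (R + 1)) with hs
  have hs0 : 0 < s := by positivity
  have hsR : 8 * s * (R + 1) = δ ^ 2 := by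
    rw [hs]
    field_simp
  obtain ⟨e, heM, he, hEe, heF⟩ := hK F (s / 2) (by positivity)
  -- the partition
  have hev : ∀ᶠ Q : _root_.P078.Part A in (U : Filter (_root_.P078.Part A)),
      ∀ ξ ∈ F, (⟪ξ, Q.pinch e ξ⟫_ℂ).re < η / 2 * (s / 2) ^ 2 := by
    rw [Filter.eventually_all_finset]
    intro ξ _
    have h1 := hE.lim e ξ ξ
    rw [hEe] at h1
    rw [zero_apply, inner_zero_left] at h1
    have h2 := (Complex.continuous_re.tendsto 0).comp h1
    have h3 := h2.eventually_lt_const (u := η / 2 * (s / 2) ^ 2) (by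
      rw [Complex.zero_re]; positivity)
    filter_upwards [h3] with Q hQ
    have h4 : (⟪ξ, Q.pinch e ξ⟫_ℂ).re = (⟪Q.pinch e ξ, ξ⟫_ℂ).re := by
      rw [← inner_conj_symm]
      rfl
    rw [h4]
    exact hQ
  obtain ⟨f, hf⟩ := hev.exists
  -- the operator Y
  have hYM : f.pinch e ∈ M := by
    refine sum_mem fun i _ => ?_
    exact mul_mem (mul_mem (h.le _ (f.mem i)) heM) (h.le _ (f.mem i))
  have hY0 : 0 ≤ f.pinch e := by
    refine Finset.sum_nonneg fun i _ => ?_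
    have h1 := star_left_conjugate_nonneg he.nonneg (f.e i)
    rwa [(f.proj i).isSelfAdjoint.star_eq] at h1
  have hYf : ∀ i, f.e i * f.pinch e = f.e i * e * f.e i := by
    intro i
    unfold _root_.P078.Part.pinch
    rw [Finset.mul_sum, Finset.sum_eq_single i]
    · rw [← mul_assoc, ← mul_assoc, (f.proj i).isIdempotentElem.eq]
    · intro j _ hj
      rw [← mul_assoc, ← mul_assoc, f.orth i j hj.symm, zero_mul, zero_mul]
    · intro h1
      exact absurd (Finset.mem_univ i) h1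
  have hfY : ∀ i, f.pinch e * f.e i = f.e i * e * f.e i := by
    intro i
    unfold _root_.P078.Part.pinch
    rw [Finset.sum_mul, Finset.sum_eq_single i]
    · rw [mul_assoc, (f.proj i).isIdempotentElem.eq]
    · intro j _ hj
      rw [mul_assoc, f.orth j i hj, mul_zero]
    · intro h1
      exact absurd (Finset.mem_univ i) h1
  obtain ⟨g, hgM, hg, hgc, hg1, hg2⟩ := spectral_cut hYM hY0 (c := η / 2) (by positivity)
  have hgf : ∀ i v, f.e i (g v) = g (f.e i v) := fun i v =>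
    congrArg (fun T : H →L[ℂ] H => T v) (hgc (f.e i) (by rw [hYf, hfY]))
  -- e'
  have he'M : g * e * g ∈ M := mul_mem (mul_mem hgM heM) hgM
  have he'0 : 0 ≤ g * e * g := by
    have h1 := star_left_conjugate_nonneg he.nonneg g
    rwa [hg.isSelfAdjoint.star_eq] at h1
  have he'1 : 0 ≤ 1 - g * e * g := by
    have h1 := star_left_conjugate_nonneg he.one_sub.nonneg g
    rw [hg.isSelfAdjoint.star_eq] at h1
    have h2 := hg.one_sub.nonneg
    have h3 : 1 - g * e * g = (1 - g) + g * (1 - e) * g := by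
      rw [mul_sub, sub_mul, mul_one, hg.isIdempotentElem.eq]
      abel
    rw [h3]
    exact add_nonneg h2 h1
  obtain ⟨q, hqM, hq, hq1, hq2⟩ := spreading_step he'M he'0 he'1
  have hin : ∀ w : H, (⟪w, (g * e * g) w⟫_ℂ).re = ‖e (g w)‖ ^ 2 := by
    intro w
    have h1 : (g * e * g) w = g (e (g w)) := rfl
    rw [h1, ← spreading_inner_proj hg, spreading_inner_self he]
  refine ⟨f, q, hqM, hq, fun ξ hξ => ?_, fun i v => ?_⟩
  · have h1 := hq1 ξ
    have h2 : (⟪ξ, (1 - g * e * g) ξ⟫_ℂ).re = ‖ξ‖ ^ 2 - ‖e (g ξ)‖ ^ 2 := by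
      have h2a : (1 - g * e * g) ξ = ξ - (g * e * g) ξ := rfl
      rw [h2a, inner_sub_right, Complex.sub_re, hin]
      have := inner_self_eq_norm_sq (𝕜 := ℂ) ξ
      rw [show (⟪ξ, ξ⟫_ℂ).re = ‖ξ‖ ^ 2 from this]
    have ha := heF ξ hξ
    have hb : ‖(1 - g) ξ‖ < s / 2 := by
      have h3 := (hg2 ξ).trans_lt (hf ξ hξ)
      have h4 : ‖(1 - g) ξ‖ ^ 2 < (s / 2) ^ 2 := lt_of_mul_lt_mul_left h3 (by positivity)
      exact lt_of_pow_lt_pow_left₀ 2 (by positivity) h4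
    have hn1 : ‖e (g ξ)‖ ≤ ‖ξ‖ := (spreading_norm_le he _).trans (spreading_norm_le hg _)
    have hn2 : ‖ξ‖ ≤ ‖e (g ξ)‖ + s := by
      have h3 : ξ = e (g ξ) + ((1 - e) ξ + e ((1 - g) ξ)) := by
        have h3a : (1 - e) ξ = ξ - e ξ := rfl
        have h3b : (1 - g) ξ = ξ - g ξ := rfl
        rw [h3a, h3b, map_sub]
        abel
      calc ‖ξ‖ = ‖e (g ξ) + ((1 - e) ξ + e ((1 - g) ξ))‖ := by rw [← h3]
        _ ≤ ‖e (g ξ)‖ + (‖(1 - e) ξ‖ + ‖e ((1 - g) ξ)‖) :=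
            (norm_add_le _ _).trans (add_le_add le_rfl (norm_add_le _ _))
        _ ≤ ‖e (g ξ)‖ + (s / 2 + s / 2) :=
            add_le_add le_rfl (add_le_add ha.le ((spreading_norm_le he _).trans hb.le))
        _ = ‖e (g ξ)‖ + s := by ring
    rw [h2] at h1
    have h5 : ‖ξ‖ ^ 2 - ‖e (g ξ)‖ ^ 2 ≤ 2 * s * R := by
      nlinarith [norm_nonneg ξ, norm_nonneg (e (g ξ)), hRF ξ hξ]
    have h6 : ‖(1 - q) ξ‖ ^ 2 < δ ^ 2 := by
      nlinarith
    exact lt_of_pow_lt_pow_left₀ 2 hδ.le h6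
  · have h1 := hq2 (f.e i v)
    rw [hin] at h1
    set w : H := g (f.e i v) with hw
    have hfw : f.e i w = w := by
      rw [hw, hgf, f.e_apply_e]
    have h2 : (⟪w, f.pinch e w⟫_ℂ).re = ‖e w‖ ^ 2 := by
      have h3 : f.pinch e w = f.e i (e w) := by
        have h4 := congrArg (fun T : H →L[ℂ] H => T w) (hfY i)
        have h5 : f.pinch e (f.e i w) = f.e i (e (f.e i w)) := h4
        rwa [hfw] at h5
      rw [h3, ← f.inner_e, hfw, spreading_inner_self he]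
    have h3 : (⟪w, f.pinch e w⟫_ℂ).re ≤ ‖w‖ * (η / 2 * ‖w‖) :=
      (Complex.re_le_norm _).trans ((norm_inner_le_norm _ _).trans
        (mul_le_mul_of_nonneg_left (hg1 (f.e i v)) (norm_nonneg _)))
    have h4 : ‖w‖ ≤ ‖f.e i v‖ := spreading_norm_le hg _
    have h5 : ‖w‖ * ‖w‖ ≤ ‖f.e i v‖ * ‖f.e i v‖ :=
      mul_le_mul h4 h4 (norm_nonneg _) (norm_nonneg _)
    rw [h2] at h3
    nlinarith

end Vale.Agent.P078
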