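import Vale.Agent.Lib.P078G.UpperG
import Vale.Agent.Lib.P078G.LowerG
import Vale.Agent.Lib.P078G.Spreading
import Vale.Agent.Lib.P078G.Central
import Vale.Agent.Lib.P078G.Faithful

/-!
# P078G Final: assembly (helper14)
-/

namespace Vale.Agent.P078

open Filter
open scoped InnerProductSpace Topology

universe u

variable {H : Type u} [NormedAddCommGroup H] [InnerProductSpace ℂ H] [CompleteSpace H]
  {M : VonNeumannAlgebra H} {A : StarSubalgebra ℂ (H →L[ℂ] H)}

theorem spread_of_noCentral (h : MM M A)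
    (hN : ∀ ψ : (H →L[ℂ] H) →ₗ[ℂ] ℂ, IsCentralNormal M A ψ → ∀ y ∈ M, ψ y = 0) :
    ∃ (U : Ultrafilter (_root_.P078.Part A)) (E : (H →L[ℂ] H) →ₗ[ℂ] (H →L[ℂ] H)),
      LimExp M A U E ∧ Spread M A := by
  obtain ⟨U, E, hE⟩ := exists_limExp h
  refine ⟨U, E, hE, ?_⟩
  by_cases hT : KerTotal M E
  · exact spread_of_ker h hE fun F δ hδ => ker_dense hE hT F hδ
  · exfalso
    obtain ⟨v, p, hp, hpp, hp0, hf⟩ := exists_faithful h hE hT
    obtain ⟨θ, hθ, hθp⟩ := vec_posF hE v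
    obtain ⟨ψ, hψ, y, hy, hne⟩ := exists_central_normal h hθp
      (fun a ha y => by rw [hθ, hθ]; exact vec_central hE v ha y) hp hpp hp0
      (fun e he hep hle h0 => hf e he hep hle (by rw [← hθ]; exact h0))
    exact hne (hN ψ hψ y hy)

end Vale.Agent.P078
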