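import Vale.Agent.Lib.P078S.Defs
import Vale.Agent.Lib.P078.Masa

/-!
# P078G: so-paving over MASAs without central normal functionals -- definitions and basic facts

`M` is an arbitrary von Neumann algebra, `A` a MASA of `M`.  Final result: if `M` has no nonzero
normal positive `A`-central functional then `⌈1/ε⌉ ≤ n(ε) ≤ ⌊1/ε⌋ + 1`.

Statement level: `IsMASA`, `IsPartition`, `SoPavable`, `soNumber` (`P078S/Defs`) and
`IsCentralNormal` (here).  Everything else is internal.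
-/

namespace Vale.Agent.P078

open Filter
open scoped InnerProductSpace Topology

universe u

variable {H : Type u} [NormedAddCommGroup H] [InnerProductSpace ℂ H] [CompleteSpace H]

/-- `ψ` restricts to a positive normal functional on `M` which is `A`-central; normality is
continuity for the weak operator topology on the unit ball of `M` -/
structure IsCentralNormal (M : VonNeumannAlgebra H) (A : StarSubalgebra ℂ (H →L[ℂ] H))
    (ψ : (H →L[ℂ] H) →ₗ[ℂ] ℂ) : Prop where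
  nonneg : ∀ y ∈ M, 0 ≤ (ψ (star y * y)).re ∧ (ψ (star y * y)).im = 0
  central : ∀ a ∈ A, ∀ y ∈ M, ψ (a * y) = ψ (y * a)
  normal : ∀ (l : Filter (H →L[ℂ] H)) (T₀ : H →L[ℂ] H), (∀ᶠ T in l, T ∈ M ∧ ‖T‖ ≤ 1) →
    (∀ v w : H, Tendsto (fun T : H →L[ℂ] H => ⟪v, T w⟫_ℂ) l (𝓝 ⟪v, T₀ w⟫_ℂ)) →
      Tendsto ψ l (𝓝 (ψ T₀))

/-- working form of: `A` is a MASA of `M` -/
structure MM (M : VonNeumannAlgebra H) (A : StarSubalgebra ℂ (H →L[ℂ] H)) : Prop where
  le : ∀ a ∈ A, a ∈ M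
  comm : ∀ a ∈ A, ∀ b ∈ A, a * b = b * a
  cent : ∀ x ∈ M, (∀ a ∈ A, a * x = x * a) → x ∈ A

/-- `E` is a limit of pinchings along the ultrafilter `U` of partitions of `A` -/
structure LimExp (M : VonNeumannAlgebra H) (A : StarSubalgebra ℂ (H →L[ℂ] H))
    (U : Ultrafilter (_root_.P078.Part A)) (E : (H →L[ℂ] H) →ₗ[ℂ] (H →L[ℂ] H)) : Prop where
  le_top : (U : Filter (_root_.P078.Part A)) ≤ atTop
  norm_le : ∀ y, ‖E y‖ ≤ ‖y‖
  lim : ∀ y v w, Tendsto (fun Q : _root_.P078.Part A => ⟪Q.pinch y v, w⟫_ℂ) U (𝓝 ⟪E y v, w⟫_ℂ)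
  comm_map : ∀ a ∈ A, ∀ y, a * E y = E y * a
  mem : ∀ y ∈ M, E y ∈ A
  id : ∀ a ∈ A, E a = a
  left : ∀ a ∈ A, ∀ y, E (a * y) = a * E y
  right : ∀ a ∈ A, ∀ y, E (y * a) = E y * a
  map_star : ∀ y, E (star y) = star (E y)
  nonneg : ∀ y, 0 ≤ y → 0 ≤ E y

/-- the projections of `M` in the kernel of `E` have supremum `1` -/
def KerTotal (M : VonNeumannAlgebra H) (E : (H →L[ℂ] H) →ₗ[ℂ] (H →L[ℂ] H)) : Prop :=
  ∀ v : H, (∀ e ∈ M, IsStarProjection e → E e = 0 → e v = 0) → v = 0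

/-- the key spreading property of `A` in `M` -/
def Spread (M : VonNeumannAlgebra H) (A : StarSubalgebra ℂ (H →L[ℂ] H)) : Prop :=
  ∀ (F : Finset H) (δ η : ℝ), 0 < δ → 0 < η →
    ∃ (f : _root_.P078.Part A) (q : H →L[ℂ] H), q ∈ M ∧ IsStarProjection q ∧
      (∀ ξ ∈ F, ‖(1 - q) ξ‖ < δ) ∧ ∀ i v, ‖q (f.e i v)‖ ^ 2 ≤ η * ‖f.e i v‖ ^ 2

/-- a bounded positive functional on `B(H)` -/
structure PosF (θ : (H →L[ℂ] H) →ₗ[ℂ] ℂ) : Prop where
  nonneg : ∀ y, 0 ≤ (θ (star y * y)).re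
  herm : ∀ y, θ (star y) = (starRingEnd ℂ) (θ y)
  bdd : ∀ y, ‖θ y‖ ≤ (θ 1).re * ‖y‖

/-- on the corner of `e`, `θ` is dominated by a vector functional -/
def Dom (M : VonNeumannAlgebra H) (θ : (H →L[ℂ] H) →ₗ[ℂ] ℂ) (e : H →L[ℂ] H) : Prop :=
  ∃ ζ : H, ∀ y ∈ M, (θ (star (y * e) * (y * e))).re ≤ ‖y (e ζ)‖ ^ 2

variable {M : VonNeumannAlgebra H} {A : StarSubalgebra ℂ (H →L[ℂ] H)}

private theorem base_sa (h : IsMASA M A) {x : H →L[ℂ] H} (hxM : x ∈ M) (hx : star x = x)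
    (hc : ∀ a ∈ A, a * x = x * a) : x ∈ A := by
  let s : Set (H →L[ℂ] H) := (A : Set (H →L[ℂ] H)) ∪ {x}
  have hcomm : ∀ a : H →L[ℂ] H, a ∈ s → ∀ b : H →L[ℂ] H, b ∈ s → a * b = b * a := by
    rintro a (ha | rfl) b (hb | rfl)
    · exact h.comm a ha b hb
    · exact hc a ha
    · exact (hc b hb).symm
    · rfl
  have hstar : ∀ b ∈ s, star b ∈ s := by
    rintro b (hb | rfl)
    · exact Or.inl (star_mem (S := StarSubalgebra ℂ (H →L[ℂ] H)) hb)
    · exact Or.inr hx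
  have hcomm2 : ∀ a : H →L[ℂ] H, a ∈ s → ∀ b : H →L[ℂ] H, b ∈ s → a * star b = star b * a :=
    fun a ha b hb => hcomm a ha _ (hstar b hb)
  have hB : ∀ a ∈ StarAlgebra.adjoin ℂ s, ∀ b ∈ StarAlgebra.adjoin ℂ s, a * b = b * a := by
    intro a ha b hb
    have h1 := StarAlgebra.isMulCommutative_adjoin ℂ hcomm hcomm2
    have h2 := h1.is_comm.comm (⟨a, ha⟩ : StarAlgebra.adjoin ℂ s) ⟨b, hb⟩
    exact congrArg Subtype.val h2
  have h3 : A ≤ StarAlgebra.adjoin ℂ s := fun a ha =>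
    StarAlgebra.subset_adjoin ℂ s (Or.inl ha)
  have hsM : StarAlgebra.adjoin ℂ s ≤ M.toStarSubalgebra := by
    refine StarAlgebra.adjoin_le ?_
    rintro b (hb | hb)
    · exact h.le b hb
    · rw [Set.mem_singleton_iff] at hb
      rw [hb]
      exact hxM
  exact h.maximal _ (fun b hb => hsM hb) hB h3 (StarAlgebra.subset_adjoin ℂ s (Or.inr rfl))

theorem mm_of_masa (h : IsMASA M A) : MM M A := by
  refine ⟨h.le, h.comm, fun x hxM hx => ?_⟩
  have hsM : star x ∈ M := star_mem hxM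
  have hx' : ∀ a ∈ A, a * star x = star x * a := by
    intro a ha
    have h1 := hx (star a) (star_mem ha)
    have h2 := congrArg star h1
    rw [star_mul, star_mul, star_star] at h2
    exact h2.symm
  have h1 : x + star x ∈ A := by
    refine base_sa h (add_mem hxM hsM) ?_ fun a ha => ?_
    · rw [star_add, star_star, add_comm]
    · rw [mul_add, add_mul, hx a ha, hx' a ha]
  have h2 : Complex.I • (x - star x) ∈ A := by
    refine base_sa h (M.toStarSubalgebra.smul_mem (sub_mem hxM hsM) _) ?_ fun a ha => ?_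
    · rw [star_smul, star_sub, star_star, Complex.star_def, Complex.conj_I, neg_smul, ← smul_neg,
        neg_sub]
    · rw [mul_smul_comm, smul_mul_assoc, mul_sub, sub_mul, hx a ha, hx' a ha]
  have h3 : x = (1 / 2 : ℂ) • (x + star x) + (-Complex.I / 2) • (Complex.I • (x - star x)) := by
    rw [smul_smul]
    have : -Complex.I / 2 * Complex.I = 1 / 2 := by
      rw [div_mul_eq_mul_div, neg_mul, Complex.I_mul_I, neg_neg]
    rw [this, ← smul_add]
    rw [show x + star x + (x - star x) = (2 : ℂ) • x by rw [two_smul]; abel, smul_smul]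
    norm_num
  rw [h3]
  exact add_mem (A.smul_mem h1 _) (A.smul_mem h2 _)

/-- an operator which commutes with the commutant is in `M` -/
theorem mem_of_comm {x : H →L[ℂ] H} (h : ∀ t ∈ M.commutant, t * x = x * t) : x ∈ M := by
  rw [← M.commutant_commutant]
  exact VonNeumannAlgebra.mem_commutant_iff.2 h

theorem comm_of_mem {x t : H →L[ℂ] H} (hx : x ∈ M) (ht : t ∈ M.commutant) : x * t = t * x :=
  VonNeumannAlgebra.mem_commutant_iff.1 ht x hx

/-- the projection onto a subspace invariant under the commutant is in `M` -/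
theorem proj_mem_M {K : Submodule ℂ H} [K.HasOrthogonalProjection]
    (h : ∀ t ∈ M.commutant, ∀ v ∈ K, t v ∈ K) : K.starProjection ∈ M :=
  mem_of_comm fun t ht => _root_.P078.commute_of_invt (h t ht) (h (star t) (star_mem ht))

/-- `M` is closed for the weak operator topology -/
theorem weak_mem_M {ι : Type*} {l : Filter ι} [l.NeBot] {T : ι → H →L[ℂ] H} {T₀ : H →L[ℂ] H}
    (hT : ∀ᶠ i in l, T i ∈ M)
    (h : ∀ v w : H, Tendsto (fun i => ⟪T i v, w⟫_ℂ) l (𝓝 ⟪T₀ v, w⟫_ℂ)) : T₀ ∈ M := by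
  refine mem_of_comm fun t ht => ?_
  ext v
  refine ext_inner_right ℂ fun w => ?_
  simp only [mul_apply_eq_comp]
  have e1 := h v (star t w)
  have e2 := h (t v) w
  rw [ContinuousLinearMap.star_eq_adjoint] at e1
  simp only [ContinuousLinearMap.adjoint_inner_right] at e1
  refine tendsto_nhds_unique (e1.congr' ?_) e2
  filter_upwards [hT] with i hi
  have h1 := congrArg (fun S : H →L[ℂ] H => S v) (comm_of_mem hi ht)
  simp only [mul_apply_eq_comp] at h1
  rw [h1]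

theorem part_isPartition (Q : _root_.P078.Part A) : IsPartition A Q.e :=
  ⟨Q.mem, Q.proj, Q.orth, Q.sum⟩

end Vale.Agent.P078
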