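import Mathlib

/-!
# P078G Moment: second moment of a sum of block contributions

Expand `‖·‖²` (`inner_self_eq_norm_sq`, `sum_inner`, `inner_sum`).  Cross terms vanish: the sum over
`ω : Fin n → Ω` of `⟪X, Y⟫`, where `X` depends only on `ω J`, (`ω L`) and `Y` only on `ω J'`, (`ω L'`)
is `0` as soon as one of the indices of one factor does not occur in the other factor: sum first
over that coordinate (`hw`, `hv1`, `hv2`).  A convenient tool: if `φ : (Fin n → Ω) → ℂ` satisfies
`∀ ω, ∑ α, φ (Function.update ω i α) = 0` then `∑ ω, φ ω = 0`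
(`∑_ω ∑_α φ (update ω i α) = card Ω * ∑_ω φ ω`).  What remains is
`∑_J ‖w_J‖² + ∑_{J ≠ L} (‖v_{JL}‖² + re ⟪v_{JL}, v_{LJ}⟫)` and `|⟪a, b⟫| ≤ (‖a‖² + ‖b‖²) / 2`.
Another route: put `V_{JL} = v_{JL} + v_{LJ}`; the random variables `w_J`, `V_{JL}` (`J < L`) are
pairwise orthogonal and `‖V_{JL}‖² ≤ 2 ‖v_{JL}‖² + 2 ‖v_{LJ}‖²`.
-/

namespace Vale.Agent.P078

open scoped InnerProductSpace

private theorem Moment_sum_zero {n : ℕ} {Ω : Type} [Fintype Ω] (i : Fin n)
    (φ : (Fin n → Ω) → ℂ) (h : ∀ ω, ∑ α, φ (Function.update ω i α) = 0) : ∑ ω, φ ω = 0 := by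
  rw [← (Equiv.funSplitAt i Ω).symm.sum_comp, Fintype.sum_prod_type_right]
  refine Finset.sum_eq_zero fun ρ _ => ?_
  rcases isEmpty_or_nonempty Ω with hΩ | ⟨⟨α₀⟩⟩
  · exact Fintype.sum_empty _
  · rw [← h ((Equiv.funSplitAt i Ω).symm (α₀, ρ))]
    refine Finset.sum_congr rfl fun α _ => ?_
    have h1 : (Equiv.funSplitAt i Ω).symm (α, ρ) =
        Function.update ((Equiv.funSplitAt i Ω).symm (α₀, ρ)) i α := by
      funext j
      by_cases hj : j = i
      · subst hj
        rw [Function.update_self]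
        simp
      · rw [Function.update_of_ne hj]
        simp [hj]
    rw [h1]

private theorem Moment_split {M : Type*} [AddCommMonoid M] {n : ℕ} (f : Fin n → M)
    (g : Fin n → Fin n → M) :
    ∑ J, f J + ∑ J, ∑ L, (if J = L then 0 else g J L) =
      ∑ p : Fin n × Fin n, (if p.1 = p.2 then f p.1 else g p.1 p.2) := by
  rw [Fintype.sum_prod_type, ← Finset.sum_add_distrib]
  refine Finset.sum_congr rfl fun J _ => ?_
  have h1 : f J = ∑ L, (if J = L then f J else 0) := by
    rw [Finset.sum_ite_eq, if_pos (Finset.mem_univ J)]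
  conv_lhs => rw [h1]
  rw [← Finset.sum_add_distrib]
  refine Finset.sum_congr rfl fun L _ => ?_
  by_cases hJ : J = L
  · rw [if_pos hJ, if_pos hJ, if_pos hJ, add_zero]
  · rw [if_neg hJ, if_neg hJ, if_neg hJ, zero_add]

theorem block_moment {V : Type*} [NormedAddCommGroup V] [InnerProductSpace ℂ V] {n : ℕ}
    {Ω : Type} [Fintype Ω] (w : Fin n → Ω → V) (v : Fin n → Fin n → Ω → Ω → V)
    (hw : ∀ J, ∑ α, w J α = 0) (hv1 : ∀ J L β, ∑ α, v J L α β = 0)
    (hv2 : ∀ J L α, ∑ β, v J L α β = 0) :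
    ∑ ω : Fin n → Ω, ‖∑ J, w J (ω J) + ∑ J, ∑ L, (if J = L then 0 else v J L (ω J) (ω L))‖ ^ 2 ≤
      2 * ∑ ω : Fin n → Ω, (∑ J, ‖w J (ω J)‖ ^ 2 +
        ∑ J, ∑ L, (if J = L then 0 else ‖v J L (ω J) (ω L)‖ ^ 2)) := by
  let U : Fin n × Fin n → (Fin n → Ω) → V := fun p ω =>
    if p.1 = p.2 then w p.1 (ω p.1) else v p.1 p.2 (ω p.1) (ω p.2)
  let E : Fin n × Fin n → Fin n × Fin n → ℝ := fun p q =>
    ∑ ω : Fin n → Ω, Complex.re ⟪U p ω, U q ω⟫_ℂ
  have hindep : ∀ p ω i α, i ≠ p.1 → i ≠ p.2 → U p (Function.update ω i α) = U p ω := by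
    intro p ω i α h1 h2
    change (if p.1 = p.2 then w p.1 (Function.update ω i α p.1) else
      v p.1 p.2 (Function.update ω i α p.1) (Function.update ω i α p.2)) = _
    rw [Function.update_of_ne (Ne.symm h1), Function.update_of_ne (Ne.symm h2)]
  have hsum : ∀ p ω i, (i = p.1 ∨ i = p.2) → ∑ α, U p (Function.update ω i α) = 0 := by
    rintro ⟨J, L⟩ ω i hi
    by_cases hJL : J = L
    · subst hJL
      have hiJ : i = J := by rcases hi with h | h <;> exact h
      subst hiJ
      rw [← hw i]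
      refine Finset.sum_congr rfl fun α _ => ?_
      change (if i = i then w i (Function.update ω i α i) else _) = _
      rw [if_pos rfl, Function.update_self]
    · rcases hi with h | h
      · change i = J at h
        subst h
        rw [← hv1 i L (ω L)]
        refine Finset.sum_congr rfl fun α _ => ?_
        change (if i = L then _ else v i L (Function.update ω i α i)
          (Function.update ω i α L)) = _
        rw [if_neg hJL, Function.update_self, Function.update_of_ne (Ne.symm hJL)]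
      · change i = L at h
        subst h
        rw [← hv2 J i (ω J)]
        refine Finset.sum_congr rfl fun α _ => ?_
        change (if J = i then _ else v J i (Function.update ω i α J)
          (Function.update ω i α i)) = _
        rw [if_neg hJL, Function.update_self, Function.update_of_ne hJL]
  have horth : ∀ p q : Fin n × Fin n, q ≠ p → q ≠ p.swap →
      ∑ ω : Fin n → Ω, ⟪U p ω, U q ω⟫_ℂ = 0 := by
    intro p q h1 h2
    have h3 : (∃ i, (i = p.1 ∨ i = p.2) ∧ i ≠ q.1 ∧ i ≠ q.2) ∨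
        (∃ i, (i = q.1 ∨ i = q.2) ∧ i ≠ p.1 ∧ i ≠ p.2) := by
      by_contra hcon
      rw [not_or, not_exists, not_exists] at hcon
      obtain ⟨ha, hb⟩ := hcon
      have a1 := ha p.1
      have a2 := ha p.2
      have b1 := hb q.1
      have b2 := hb q.2
      apply h1
      obtain ⟨p1, p2⟩ := p
      obtain ⟨q1, q2⟩ := q
      have h2' : ¬ (q1 = p2 ∧ q2 = p1) := fun h => h2 (by rw [Prod.swap_prod_mk, h.1, h.2])
      simp only [true_or, or_true, true_and, not_and, not_not, ne_eq] at a1 a2 b1 b2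
      by_cases c1 : q1 = p1
      · by_cases c2 : q2 = p2
        · rw [c1, c2]
        · exfalso
          have := b2
          have c3 : q2 = p1 := by
            by_contra h
            exact c2 (b2 h)
          have c4 : p2 = q1 := by
            by_contra h
            exact c2 (a2 h).symm
          exact c2 (by rw [c3, c4, c1])
      · exfalso
        have c2 : q1 = p2 := b1 c1
        have c3 : p1 = q2 := by
          apply a1
          exact fun h => c1 h.symm
        exact h2' ⟨c2, c3.symm⟩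
    rcases h3 with ⟨i, hi, hq1, hq2⟩ | ⟨i, hi, hp1, hp2⟩
    · refine Moment_sum_zero i _ fun ω => ?_
      have h4 : ∀ α, ⟪U p (Function.update ω i α), U q (Function.update ω i α)⟫_ℂ =
          ⟪U p (Function.update ω i α), U q ω⟫_ℂ := fun α => by rw [hindep q ω i α hq1 hq2]
      rw [Finset.sum_congr rfl fun α _ => h4 α, ← sum_inner, hsum p ω i hi, inner_zero_left]
    · refine Moment_sum_zero i _ fun ω => ?_
      have h4 : ∀ α, ⟪U p (Function.update ω i α), U q (Function.update ω i α)⟫_ℂ =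
          ⟪U p ω, U q (Function.update ω i α)⟫_ℂ := fun α => by rw [hindep p ω i α hp1 hp2]
      rw [Finset.sum_congr rfl fun α _ => h4 α, ← inner_sum, hsum q ω i hi, inner_zero_right]
  have hE0 : ∀ p q : Fin n × Fin n, q ≠ p → q ≠ p.swap → E p q = 0 := by
    intro p q h1 h2
    have h3 := congrArg Complex.re (horth p q h1 h2)
    rw [Complex.re_sum] at h3
    exact h3
  have hEself : ∀ p, E p p = ∑ ω : Fin n → Ω, ‖U p ω‖ ^ 2 := by
    intro p
    refine Finset.sum_congr rfl fun ω _ => ?_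
    exact inner_self_eq_norm_sq (𝕜 := ℂ) (U p ω)
  have hEcs : ∀ p q, E p q ≤ (E p p + E q q) / 2 := by
    intro p q
    rw [hEself, hEself, ← Finset.sum_add_distrib, Finset.sum_div]
    refine Finset.sum_le_sum fun ω _ => ?_
    have h1 : Complex.re ⟪U p ω, U q ω⟫_ℂ ≤ ‖U p ω‖ * ‖U q ω‖ :=
      re_inner_le_norm (𝕜 := ℂ) (U p ω) (U q ω)
    nlinarith [sq_nonneg (‖U p ω‖ - ‖U q ω‖)]
  have hEnn : ∀ p, 0 ≤ E p p := by
    intro p
    rw [hEself]
    exact Finset.sum_nonneg fun ω _ => sq_nonneg _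
  have hrow : ∀ p, ∑ q, E p q ≤ 3 / 2 * E p p + 1 / 2 * E p.swap p.swap := by
    intro p
    have h1 : ∑ q, E p q = ∑ q ∈ ({p, p.swap} : Finset (Fin n × Fin n)), E p q := by
      refine (Finset.sum_subset (Finset.subset_univ _) fun q _ hq => ?_).symm
      rw [Finset.mem_insert, Finset.mem_singleton, not_or] at hq
      exact hE0 p q hq.1 hq.2
    rw [h1]
    by_cases hps : p = p.swap
    · rw [← hps, Finset.pair_eq_singleton, Finset.sum_singleton]
      linarith [hEnn p]
    · rw [Finset.sum_pair hps]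
      linarith [hEcs p p.swap]
  have hleft : ∀ ω : Fin n → Ω,
      ‖∑ J, w J (ω J) + ∑ J, ∑ L, (if J = L then 0 else v J L (ω J) (ω L))‖ ^ 2 =
        ∑ p, ∑ q, Complex.re ⟪U p ω, U q ω⟫_ℂ := by
    intro ω
    rw [Moment_split (fun J => w J (ω J)) (fun J L => v J L (ω J) (ω L))]
    have h1 := inner_self_eq_norm_sq (𝕜 := ℂ) (∑ p, U p ω)
    change ‖∑ p, U p ω‖ ^ 2 = _
    rw [← h1, sum_inner]
    have h2 : (∑ p, ⟪U p ω, ∑ q, U q ω⟫_ℂ) = ∑ p, ∑ q, ⟪U p ω, U q ω⟫_ℂ :=
      Finset.sum_congr rfl fun p _ => inner_sum _ _ _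
    rw [h2]
    change Complex.re _ = _
    rw [Complex.re_sum]
    exact Finset.sum_congr rfl fun p _ => Complex.re_sum _ _
  have hright : ∀ ω : Fin n → Ω, ∑ J, ‖w J (ω J)‖ ^ 2 +
      ∑ J, ∑ L, (if J = L then 0 else ‖v J L (ω J) (ω L)‖ ^ 2) = ∑ p, ‖U p ω‖ ^ 2 := by
    intro ω
    rw [Moment_split (fun J => ‖w J (ω J)‖ ^ 2) (fun J L => ‖v J L (ω J) (ω L)‖ ^ 2)]
    refine Finset.sum_congr rfl fun p _ => ?_
    change _ = ‖(if p.1 = p.2 then w p.1 (ω p.1) else v p.1 p.2 (ω p.1) (ω p.2))‖ ^ 2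
    by_cases hp : p.1 = p.2
    · rw [if_pos hp, if_pos hp]
    · rw [if_neg hp, if_neg hp]
  calc ∑ ω : Fin n → Ω, ‖∑ J, w J (ω J) + ∑ J, ∑ L, (if J = L then 0 else v J L (ω J) (ω L))‖ ^ 2
      = ∑ ω : Fin n → Ω, ∑ p, ∑ q, Complex.re ⟪U p ω, U q ω⟫_ℂ :=
        Finset.sum_congr rfl fun ω _ => hleft ω
    _ = ∑ p, ∑ q, E p q := by
        rw [Finset.sum_comm]
        exact Finset.sum_congr rfl fun p _ => Finset.sum_comm
    _ ≤ ∑ p, (3 / 2 * E p p + 1 / 2 * E p.swap p.swap) := Finset.sum_le_sum fun p _ => hrow p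
    _ = 2 * ∑ p, E p p := by
        rw [Finset.sum_add_distrib, ← Finset.mul_sum, ← Finset.mul_sum]
        have h1 : ∑ p : Fin n × Fin n, E p.swap p.swap = ∑ p, E p p :=
          (Equiv.prodComm (Fin n) (Fin n)).sum_comp fun p => E p p
        rw [h1]
        ring
    _ = 2 * ∑ ω : Fin n → Ω, (∑ J, ‖w J (ω J)‖ ^ 2 +
        ∑ J, ∑ L, (if J = L then 0 else ‖v J L (ω J) (ω L)‖ ^ 2)) := by
        have h1 : ∑ p, E p p = ∑ ω : Fin n → Ω, ∑ p, ‖U p ω‖ ^ 2 := by
          rw [Finset.sum_congr rfl fun p _ => hEself p]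
          exact Finset.sum_comm
        rw [Finset.sum_congr rfl fun ω _ => hright ω, h1]

end Vale.Agent.P078
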