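import Vale.Agent.Lib.P078G.Base
import Vale.Agent.Lib.P078G.Moment

/-!
# P078G Block: block colouring

`exists_block`.  For `ω : Fin f.n → Ω` put `p_c(ω) = ∑ J, f.e J * u (ω J) c`: a partition in `A`.
`∑_c p_c x p_c = ∑_{J, L} f_J (∑_c u (ω J) c * x * u (ω L) c) f_L`.  Let `m` be the mean of
`∑_c u α c * x * u α c` (hypothesis `hm`).  The blocks `J = L` have mean `f_J m f_J`; the blocks
`J ≠ L` have mean `(1/r) f_J x f_L` in `α = ω J` for fixed `ω L` and in `ω L` for fixed `ω J`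
(`hmean`, `∑_c u β c = 1`).  So the total mean is
`(1/r) x + f.pinch (m - (1/r) x)` and for a vector `ξ` the vectors
`w_J(α) = q f_J (∑_c u α c x u α c - m) f_J ξ`,
`v_{JL}(α, β) = q f_J (∑_c u α c x u β c - (1/r) x) f_L ξ` satisfy the hypotheses of `block_moment`.
Bound: `T = ∑_c p_c x p_c - mean`, `‖T‖ ≤ 2 ‖x‖` (pinchings and their means are contractive),
`w_J(ω J) = q f_J (T f_J ξ)`, `v_{JL} = q f_J (T f_L ξ)`, so by `hη`
`∑_{J, L} ‖q f_J T f_L ξ‖² ≤ η ∑_L ∑_J ‖f_J T f_L ξ‖² = η ∑_L ‖T f_L ξ‖² ≤ 4 η ‖x‖² ‖ξ‖²`.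
By `block_moment` the mean over `ω` of `‖q T ξ‖²` is at most `8 η ‖x‖² ‖ξ‖²`; sum over `ξ ∈ G` and
choose `ω` (`Finset.exists_le_of_sum_le`).
-/

namespace Vale.Agent.P078

open Filter
open scoped InnerProductSpace Topology

universe u

variable {H : Type u} [NormedAddCommGroup H] [InnerProductSpace ℂ H] [CompleteSpace H]
  {A : StarSubalgebra ℂ (H →L[ℂ] H)}

/-- a sum over all colourings vanishes if all partial sums in one coordinate vanish -/
private theorem Block_sum_zero {V : Type*} [AddCommGroup V] [Module ℂ V] {n : ℕ} {Ω : Type}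
    [Fintype Ω] [Nonempty Ω] (J : Fin n) (φ : (Fin n → Ω) → V)
    (h : ∀ ω, ∑ α, φ (Function.update ω J α) = 0) : ∑ ω, φ ω = 0 := by
  have h1 : ∑ z : (Fin n → Ω) × Ω, φ (Function.update z.1 J z.2) = ∑ z : (Fin n → Ω) × Ω, φ z.1 := by
    refine Fintype.sum_equiv
      ⟨fun z => (Function.update z.1 J z.2, z.1 J), fun z => (Function.update z.1 J z.2, z.1 J),
        fun z => ?_, fun z => ?_⟩ _ _ fun z => rfl
    · simp
    · simp
  rw [Fintype.sum_prod_type, Fintype.sum_prod_type] at h1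
  have h2 : ∑ ω : Fin n → Ω, ∑ α, φ (Function.update ω J α) = 0 :=
    Finset.sum_eq_zero fun ω _ => h ω
  rw [h2] at h1
  have h3 : ∑ ω : Fin n → Ω, ∑ _α : Ω, φ ω = (Fintype.card Ω : ℂ) • ∑ ω, φ ω := by
    rw [Finset.smul_sum]
    refine Finset.sum_congr rfl fun ω _ => ?_
    rw [Finset.sum_const, Finset.card_univ, Nat.cast_smul_eq_nsmul]
  rw [h3] at h1
  have h4 : (Fintype.card Ω : ℂ) ≠ 0 := Nat.cast_ne_zero.2 Fintype.card_ne_zero
  exact (smul_eq_zero.1 h1.symm).resolve_left h4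

/-- the coloured partition -/
private noncomputable def blk {r : ℕ} (f : _root_.P078.Part A) {Ω : Type}
    (u : Ω → Fin r → H →L[ℂ] H) (ω : Fin f.n → Ω) (c : Fin r) : H →L[ℂ] H :=
  ∑ J, f.e J * u (ω J) c

private theorem blk_mul (hc : ∀ a ∈ A, ∀ b ∈ A, a * b = b * a) {r : ℕ}
    (f : _root_.P078.Part A) {Ω : Type} {u : Ω → Fin r → H →L[ℂ] H}
    (hu : ∀ α, IsPartition A (u α)) (ω : Fin f.n → Ω) (c c' : Fin r) :
    blk f u ω c * blk f u ω c' = ∑ J, f.e J * (u (ω J) c * u (ω J) c') := by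
  unfold blk
  rw [Finset.sum_mul]
  refine Finset.sum_congr rfl fun J _ => ?_
  rw [Finset.mul_sum, Finset.sum_eq_single J]
  · have h1 : u (ω J) c * f.e J = f.e J * u (ω J) c := hc _ ((hu _).mem c) _ (f.mem J)
    rw [mul_assoc, ← mul_assoc (u (ω J) c), h1, ← mul_assoc (f.e J), ← mul_assoc (f.e J),
      (f.proj J).isIdempotentElem.eq, mul_assoc]
  · intro L _ hL
    have h1 : u (ω J) c * f.e L = f.e L * u (ω J) c := hc _ ((hu _).mem c) _ (f.mem L)
    rw [mul_assoc, ← mul_assoc (u (ω J) c), h1, ← mul_assoc (f.e J), ← mul_assoc (f.e J),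
      f.orth J L hL.symm, zero_mul, zero_mul]
  · intro h
    exact absurd (Finset.mem_univ J) h

private theorem blk_isPartition (hc : ∀ a ∈ A, ∀ b ∈ A, a * b = b * a) {r : ℕ}
    (f : _root_.P078.Part A) {Ω : Type} {u : Ω → Fin r → H →L[ℂ] H}
    (hu : ∀ α, IsPartition A (u α)) (ω : Fin f.n → Ω) : IsPartition A (blk f u ω) where
  mem c := sum_mem fun J _ => mul_mem (f.mem J) ((hu _).mem c)
  proj c := by
    constructor
    · change blk f u ω c * blk f u ω c = blk f u ω c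
      rw [blk_mul hc f hu]
      unfold blk
      refine Finset.sum_congr rfl fun J _ => ?_
      rw [((hu (ω J)).proj c).isIdempotentElem.eq]
    · change star (blk f u ω c) = blk f u ω c
      unfold blk
      rw [star_sum]
      refine Finset.sum_congr rfl fun J _ => ?_
      rw [star_mul, ((hu (ω J)).proj c).isSelfAdjoint.star_eq, (f.proj J).isSelfAdjoint.star_eq]
      exact hc _ ((hu _).mem c) _ (f.mem J)
  orth c c' h := by
    rw [blk_mul hc f hu]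
    refine Finset.sum_eq_zero fun J _ => ?_
    rw [(hu (ω J)).orth c c' h, mul_zero]
  sum := by
    unfold blk
    rw [Finset.sum_comm]
    have : ∀ J, ∑ c, f.e J * u (ω J) c = f.e J := by
      intro J
      rw [← Finset.mul_sum, (hu (ω J)).sum, mul_one]
    rw [Finset.sum_congr rfl fun J _ => this J, f.sum]

/-- the kernel of the block `(J, L)` -/
private noncomputable def kk {r n : ℕ} {Ω : Type} (u : Ω → Fin r → H →L[ℂ] H)
    (x m : H →L[ℂ] H) (J L : Fin n) (α β : Ω) : H →L[ℂ] H :=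
  ∑ c, u α c * x * u β c - (if J = L then m else (1 / (r : ℂ)) • x)

private theorem blk_pinch (hc : ∀ a ∈ A, ∀ b ∈ A, a * b = b * a) {r : ℕ}
    (f : _root_.P078.Part A) {Ω : Type} {u : Ω → Fin r → H →L[ℂ] H}
    (hu : ∀ α, IsPartition A (u α)) (x m : H →L[ℂ] H) (ω : Fin f.n → Ω) :
    ∑ c, blk f u ω c * x * blk f u ω c - ((1 / (r : ℂ)) • x + f.pinch (m - (1 / (r : ℂ)) • x)) =
      ∑ J, ∑ L, f.e J * kk u x m J L (ω J) (ω L) * f.e L := by
  have h1 : ∀ c, blk f u ω c * x * blk f u ω c =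
      ∑ J, ∑ L, f.e J * (u (ω J) c * x * u (ω L) c) * f.e L := by
    intro c
    have h2 : blk f u ω c = ∑ L, u (ω L) c * f.e L := by
      unfold blk
      exact Finset.sum_congr rfl fun L _ => hc _ (f.mem L) _ ((hu _).mem c)
    calc blk f u ω c * x * blk f u ω c
        = (∑ J, f.e J * u (ω J) c) * x * (∑ L, u (ω L) c * f.e L) := by
          rw [← h2]
          rfl
      _ = ∑ J, ∑ L, f.e J * (u (ω J) c * x * u (ω L) c) * f.e L := by
          rw [Finset.sum_mul, Finset.sum_mul]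
          refine Finset.sum_congr rfl fun J _ => ?_
          rw [Finset.mul_sum]
          refine Finset.sum_congr rfl fun L _ => ?_
          simp only [mul_assoc]
  have h3 : ∀ y : H →L[ℂ] H, y = ∑ J, ∑ L, f.e J * y * f.e L := by
    intro y
    have : ∀ J, ∑ L, f.e J * y * f.e L = f.e J * y := by
      intro J
      rw [← Finset.mul_sum, f.sum, mul_one]
    rw [Finset.sum_congr rfl fun J _ => this J, ← Finset.sum_mul, f.sum, one_mul]
  have h4 : (1 / (r : ℂ)) • x + f.pinch (m - (1 / (r : ℂ)) • x) =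
      ∑ J, ∑ L, f.e J * (if J = L then m else (1 / (r : ℂ)) • x) * f.e L := by
    have h5 : f.pinch (m - (1 / (r : ℂ)) • x) =
        ∑ J, ∑ L, (if J = L then f.e J * (m - (1 / (r : ℂ)) • x) * f.e L else 0) := by
      unfold _root_.P078.Part.pinch
      refine Finset.sum_congr rfl fun J _ => ?_
      rw [Finset.sum_ite_eq, if_pos (Finset.mem_univ J)]
    rw [h5]
    nth_rewrite 1 [h3 ((1 / (r : ℂ)) • x)]
    rw [← Finset.sum_add_distrib]
    refine Finset.sum_congr rfl fun J _ => ?_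
    rw [← Finset.sum_add_distrib]
    refine Finset.sum_congr rfl fun L _ => ?_
    by_cases h : J = L
    · rw [if_pos h, if_pos h, ← add_mul, ← mul_add, add_sub_cancel]
    · rw [if_neg h, if_neg h, add_zero]
  rw [h4, Finset.sum_congr rfl fun c _ => h1 c, Finset.sum_comm, ← Finset.sum_sub_distrib]
  refine Finset.sum_congr rfl fun J _ => ?_
  rw [Finset.sum_comm, ← Finset.sum_sub_distrib]
  refine Finset.sum_congr rfl fun L _ => ?_
  unfold kk
  rw [mul_sub, sub_mul, Finset.mul_sum, Finset.sum_mul]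

private theorem corner (f : _root_.P078.Part A) (k : Fin f.n → Fin f.n → H →L[ℂ] H)
    (J L : Fin f.n) :
    f.e J * (∑ J', ∑ L', f.e J' * k J' L' * f.e L') * f.e L = f.e J * k J L * f.e L := by
  rw [Finset.mul_sum, Finset.sum_mul, Finset.sum_eq_single J]
  · rw [Finset.mul_sum, Finset.sum_mul, Finset.sum_eq_single L]
    · rw [← mul_assoc, ← mul_assoc, (f.proj J).isIdempotentElem.eq, mul_assoc _ (f.e L) (f.e L),
        (f.proj L).isIdempotentElem.eq]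
    · intro L' _ h
      rw [mul_assoc, mul_assoc _ (f.e L') (f.e L), f.orth L' L h, mul_zero, mul_zero]
    · intro h
      exact absurd (Finset.mem_univ L) h
  · intro J' _ h
    rw [Finset.mul_sum, Finset.sum_mul]
    refine Finset.sum_eq_zero fun L' _ => ?_
    rw [← mul_assoc, ← mul_assoc, f.orth J J' h.symm, zero_mul, zero_mul, zero_mul]
  · intro h
    exact absurd (Finset.mem_univ J) h

private theorem kk_diag {r n : ℕ} {Ω : Type} [Fintype Ω] {u : Ω → Fin r → H →L[ℂ] H}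
    {x m : H →L[ℂ] H} (hm : ∑ α, ∑ c, u α c * x * u α c = (Fintype.card Ω : ℂ) • m) (J : Fin n) :
    ∑ α, kk u x m J J α α = 0 := by
  unfold kk
  rw [Finset.sum_sub_distrib, hm]
  simp only [if_true]
  rw [Finset.sum_const, Finset.card_univ, Nat.cast_smul_eq_nsmul, sub_self]

private theorem kk_left {r n : ℕ} {Ω : Type} [Fintype Ω] {u : Ω → Fin r → H →L[ℂ] H}
    (hu : ∀ α, IsPartition A (u α))
    (hmean : ∀ c, ∑ α, u α c = ((Fintype.card Ω : ℂ) * (1 / (r : ℂ))) • (1 : H →L[ℂ] H))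
    {x m : H →L[ℂ] H} {J L : Fin n} (h : J ≠ L) (β : Ω) :
    ∑ α, kk u x m J L α β = 0 := by
  unfold kk
  simp only [if_neg h]
  have h1 : ∑ α, ∑ c, u α c * x * u β c =
      ((Fintype.card Ω : ℂ) * (1 / (r : ℂ))) • x := by
    rw [Finset.sum_comm]
    have h2 : ∀ c, ∑ α, u α c * x * u β c =
        (((Fintype.card Ω : ℂ) * (1 / (r : ℂ))) • x) * u β c := by
      intro c
      rw [← Finset.sum_mul, ← Finset.sum_mul, hmean c, smul_mul_assoc, one_mul]
    rw [Finset.sum_congr rfl fun c _ => h2 c, ← Finset.mul_sum, (hu β).sum, mul_one]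
  rw [Finset.sum_sub_distrib, h1, Finset.sum_const, Finset.card_univ, ← Nat.cast_smul_eq_nsmul ℂ,
    smul_smul, sub_self]

private theorem kk_right {r n : ℕ} {Ω : Type} [Fintype Ω] {u : Ω → Fin r → H →L[ℂ] H}
    (hu : ∀ α, IsPartition A (u α))
    (hmean : ∀ c, ∑ α, u α c = ((Fintype.card Ω : ℂ) * (1 / (r : ℂ))) • (1 : H →L[ℂ] H))
    {x m : H →L[ℂ] H} {J L : Fin n} (h : J ≠ L) (α : Ω) :
    ∑ β, kk u x m J L α β = 0 := by
  unfold kk
  simp only [if_neg h]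
  have h1 : ∑ β, ∑ c, u α c * x * u β c =
      ((Fintype.card Ω : ℂ) * (1 / (r : ℂ))) • x := by
    rw [Finset.sum_comm]
    have h2 : ∀ c, ∑ β, u α c * x * u β c =
        u α c * (((Fintype.card Ω : ℂ) * (1 / (r : ℂ))) • x) := by
      intro c
      rw [← Finset.mul_sum, hmean c, mul_assoc, mul_smul_comm, mul_one, mul_smul_comm]
    rw [Finset.sum_congr rfl fun c _ => h2 c, ← Finset.sum_mul, (hu α).sum, one_mul]
  rw [Finset.sum_sub_distrib, h1, Finset.sum_const, Finset.card_univ, ← Nat.cast_smul_eq_nsmul ℂ,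
    smul_smul, sub_self]

/-- the mean of the error is zero -/
private theorem kk_mean {r : ℕ} (f : _root_.P078.Part A) {Ω : Type} [Fintype Ω] [Nonempty Ω]
    {u : Ω → Fin r → H →L[ℂ] H} (hu : ∀ α, IsPartition A (u α))
    (hmean : ∀ c, ∑ α, u α c = ((Fintype.card Ω : ℂ) * (1 / (r : ℂ))) • (1 : H →L[ℂ] H))
    {x m : H →L[ℂ] H} (hm : ∑ α, ∑ c, u α c * x * u α c = (Fintype.card Ω : ℂ) • m) :
    ∑ ω : Fin f.n → Ω, ∑ J, ∑ L, f.e J * kk u x m J L (ω J) (ω L) * f.e L = 0 := by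
  rw [Finset.sum_comm]
  refine Finset.sum_eq_zero fun J _ => ?_
  rw [Finset.sum_comm]
  refine Finset.sum_eq_zero fun L _ => ?_
  rw [← Finset.sum_mul, ← Finset.mul_sum]
  have h0 : ∑ ω : Fin f.n → Ω, kk u x m J L (ω J) (ω L) = 0 := by
    refine Block_sum_zero J _ fun ω => ?_
    by_cases h : J = L
    · subst h
      simp only [Function.update_self]
      exact kk_diag hm J
    · simp only [Function.update_self, Function.update_of_ne (Ne.symm h)]
      exact kk_left hu hmean h (ω L)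
  rw [h0, mul_zero, zero_mul]

/-- the error is bounded -/
private theorem err_norm (hc : ∀ a ∈ A, ∀ b ∈ A, a * b = b * a) {r : ℕ}
    (f : _root_.P078.Part A) {Ω : Type} [Fintype Ω] [Nonempty Ω]
    {u : Ω → Fin r → H →L[ℂ] H} (hu : ∀ α, IsPartition A (u α))
    (hmean : ∀ c, ∑ α, u α c = ((Fintype.card Ω : ℂ) * (1 / (r : ℂ))) • (1 : H →L[ℂ] H))
    {x m : H →L[ℂ] H} (hm : ∑ α, ∑ c, u α c * x * u α c = (Fintype.card Ω : ℂ) • m)
    (ω : Fin f.n → Ω) :
    ‖∑ J, ∑ L, f.e J * kk u x m J L (ω J) (ω L) * f.e L‖ ≤ 2 * ‖x‖ := by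
  have hp : ∀ ω' : Fin f.n → Ω, ‖∑ c, blk f u ω' c * x * blk f u ω' c‖ ≤ ‖x‖ := by
    intro ω'
    have h1 := blk_isPartition hc f hu ω'
    exact _root_.P078.Part.pinch_norm
      (⟨r, blk f u ω', h1.mem, h1.proj, h1.orth, h1.sum⟩ : _root_.P078.Part A) x
  have hD : ‖(1 / (r : ℂ)) • x + f.pinch (m - (1 / (r : ℂ)) • x)‖ ≤ ‖x‖ := by
    have h1 : ∑ ω' : Fin f.n → Ω, (∑ c, blk f u ω' c * x * blk f u ω' c -
        ((1 / (r : ℂ)) • x + f.pinch (m - (1 / (r : ℂ)) • x))) = 0 := by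
      rw [Finset.sum_congr rfl fun ω' _ => blk_pinch hc f hu x m ω']
      exact kk_mean f hu hmean hm
    rw [Finset.sum_sub_distrib, Finset.sum_const, Finset.card_univ, sub_eq_zero,
      ← Nat.cast_smul_eq_nsmul ℂ] at h1
    have hN : (0 : ℝ) < (Fintype.card (Fin f.n → Ω) : ℝ) := Nat.cast_pos.2 Fintype.card_pos
    have h2 : (Fintype.card (Fin f.n → Ω) : ℝ) *
        ‖(1 / (r : ℂ)) • x + f.pinch (m - (1 / (r : ℂ)) • x)‖ ≤
        (Fintype.card (Fin f.n → Ω) : ℝ) * ‖x‖ := by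
      calc (Fintype.card (Fin f.n → Ω) : ℝ) *
          ‖(1 / (r : ℂ)) • x + f.pinch (m - (1 / (r : ℂ)) • x)‖
          = ‖((Fintype.card (Fin f.n → Ω) : ℕ) : ℂ) •
            ((1 / (r : ℂ)) • x + f.pinch (m - (1 / (r : ℂ)) • x))‖ := by
            rw [norm_smul, Complex.norm_natCast]
        _ = ‖∑ ω' : Fin f.n → Ω, ∑ c, blk f u ω' c * x * blk f u ω' c‖ := by rw [h1]
        _ ≤ ∑ ω' : Fin f.n → Ω, ‖∑ c, blk f u ω' c * x * blk f u ω' c‖ := norm_sum_le _ _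
        _ ≤ ∑ _ω' : Fin f.n → Ω, ‖x‖ := Finset.sum_le_sum fun ω' _ => hp ω'
        _ = (Fintype.card (Fin f.n → Ω) : ℝ) * ‖x‖ := by
            rw [Finset.sum_const, Finset.card_univ, nsmul_eq_mul]
    exact le_of_mul_le_mul_left h2 hN
  rw [← blk_pinch hc f hu x m ω]
  calc _ ≤ ‖∑ c, blk f u ω c * x * blk f u ω c‖ +
        ‖(1 / (r : ℂ)) • x + f.pinch (m - (1 / (r : ℂ)) • x)‖ := norm_sub_le _ _
    _ ≤ ‖x‖ + ‖x‖ := add_le_add (hp ω) hD
    _ = 2 * ‖x‖ := by ring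

/-- the sum of the squares of the blocks is small -/
private theorem block_bound (f : _root_.P078.Part A) {q : H →L[ℂ] H} {η : ℝ} (hη0 : 0 ≤ η)
    (hη : ∀ i v, ‖q (f.e i v)‖ ^ 2 ≤ η * ‖f.e i v‖ ^ 2)
    (k : Fin f.n → Fin f.n → H →L[ℂ] H) {C : ℝ}
    (hT : ‖∑ J, ∑ L, f.e J * k J L * f.e L‖ ≤ C) (ξ : H) :
    ∑ J, ∑ L, ‖q (f.e J (k J L (f.e L ξ)))‖ ^ 2 ≤ η * (C ^ 2 * ‖ξ‖ ^ 2) := by
  obtain ⟨T, hTd⟩ : ∃ T, T = ∑ J, ∑ L, f.e J * k J L * f.e L := ⟨_, rfl⟩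
  rw [← hTd] at hT
  have hk : ∀ J L, f.e J (k J L (f.e L ξ)) = f.e J (T (f.e L ξ)) := by
    intro J L
    have h1 := corner f k J L
    rw [← hTd] at h1
    exact (congrArg (fun S : H →L[ℂ] H => S ξ) h1).symm
  have hC : 0 ≤ C := (norm_nonneg _).trans hT
  rw [Finset.sum_comm]
  calc ∑ L, ∑ J, ‖q (f.e J (k J L (f.e L ξ)))‖ ^ 2
      ≤ ∑ L, ∑ J, η * ‖f.e J (T (f.e L ξ))‖ ^ 2 := by
        refine Finset.sum_le_sum fun L _ => Finset.sum_le_sum fun J _ => ?_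
        rw [hk]
        exact hη J _
    _ = ∑ L, η * ‖T (f.e L ξ)‖ ^ 2 := by
        refine Finset.sum_congr rfl fun L _ => ?_
        rw [← Finset.mul_sum, _root_.P078.Part.sum_norm_sq]
    _ ≤ ∑ L, η * (C ^ 2 * ‖f.e L ξ‖ ^ 2) := by
        refine Finset.sum_le_sum fun L _ => mul_le_mul_of_nonneg_left ?_ hη0
        rw [← mul_pow]
        exact pow_le_pow_left₀ (norm_nonneg _)
          ((T.le_opNorm _).trans (mul_le_mul_of_nonneg_right hT (norm_nonneg _))) 2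
    _ = η * (C ^ 2 * ‖ξ‖ ^ 2) := by
        rw [← Finset.mul_sum, ← Finset.mul_sum, _root_.P078.Part.sum_norm_sq]

/-- the second moment of the error at a vector -/
private theorem err_moment (hc : ∀ a ∈ A, ∀ b ∈ A, a * b = b * a) {r : ℕ}
    (f : _root_.P078.Part A) {q : H →L[ℂ] H} {η : ℝ} (hη0 : 0 ≤ η)
    (hη : ∀ i v, ‖q (f.e i v)‖ ^ 2 ≤ η * ‖f.e i v‖ ^ 2) {Ω : Type} [Fintype Ω] [Nonempty Ω]
    {u : Ω → Fin r → H →L[ℂ] H} (hu : ∀ α, IsPartition A (u α))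
    (hmean : ∀ c, ∑ α, u α c = ((Fintype.card Ω : ℂ) * (1 / (r : ℂ))) • (1 : H →L[ℂ] H))
    {x m : H →L[ℂ] H} (hm : ∑ α, ∑ c, u α c * x * u α c = (Fintype.card Ω : ℂ) • m) (ξ : H) :
    ∑ ω : Fin f.n → Ω, ‖q ((∑ J, ∑ L, f.e J * kk u x m J L (ω J) (ω L) * f.e L) ξ)‖ ^ 2 ≤
      ∑ _ω : Fin f.n → Ω, 8 * η * ‖x‖ ^ 2 * ‖ξ‖ ^ 2 := by
  have key := block_moment (n := f.n) (Ω := Ω)
    (fun J α => q (f.e J (kk u x m J J α α (f.e J ξ))))
    (fun J L α β => if J = L then 0 else q (f.e J (kk u x m J L α β (f.e L ξ))))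
    (by
      intro J
      have h1 := congrArg (fun S : H →L[ℂ] H => q (f.e J (S (f.e J ξ)))) (kk_diag hm J)
      simpa [map_sum] using h1)
    (by
      intro J L β
      by_cases h : J = L
      · simp [h]
      · simp only [if_neg h]
        have h1 := congrArg (fun S : H →L[ℂ] H => q (f.e J (S (f.e L ξ))))
          (kk_left (x := x) (m := m) hu hmean h β)
        simpa [map_sum] using h1)
    (by
      intro J L α
      by_cases h : J = L
      · simp [h]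
      · simp only [if_neg h]
        have h1 := congrArg (fun S : H →L[ℂ] H => q (f.e J (S (f.e L ξ))))
          (kk_right (x := x) (m := m) hu hmean h α)
        simpa [map_sum] using h1)
  have hsplit : ∀ (g : Fin f.n → Fin f.n → H),
      ∑ J, ∑ L, g J L = ∑ J, g J J + ∑ J, ∑ L, (if J = L then 0 else if J = L then 0 else g J L) := by
    intro g
    rw [← Finset.sum_add_distrib]
    refine Finset.sum_congr rfl fun J _ => ?_
    have h1 : g J J = ∑ L, (if J = L then g J L else 0) := by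
      rw [Finset.sum_ite_eq, if_pos (Finset.mem_univ J)]
    rw [h1, ← Finset.sum_add_distrib]
    refine Finset.sum_congr rfl fun L _ => ?_
    by_cases h : J = L
    · simp [h]
    · simp [h]
  have hsplitR : ∀ (g : Fin f.n → Fin f.n → H),
      ∑ J, ∑ L, ‖g J L‖ ^ 2 = ∑ J, ‖g J J‖ ^ 2 +
        ∑ J, ∑ L, (if J = L then 0 else ‖(if J = L then 0 else g J L)‖ ^ 2) := by
    intro g
    rw [← Finset.sum_add_distrib]
    refine Finset.sum_congr rfl fun J _ => ?_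
    have h1 : ‖g J J‖ ^ 2 = ∑ L, (if J = L then ‖g J L‖ ^ 2 else 0) := by
      rw [Finset.sum_ite_eq, if_pos (Finset.mem_univ J)]
    rw [h1, ← Finset.sum_add_distrib]
    refine Finset.sum_congr rfl fun L _ => ?_
    by_cases h : J = L
    · simp [h]
    · simp [h]
  calc ∑ ω : Fin f.n → Ω, ‖q ((∑ J, ∑ L, f.e J * kk u x m J L (ω J) (ω L) * f.e L) ξ)‖ ^ 2
      = ∑ ω : Fin f.n → Ω, ‖∑ J, q (f.e J (kk u x m J J (ω J) (ω J) (f.e J ξ))) +
          ∑ J, ∑ L, (if J = L then 0 else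
            (if J = L then 0 else q (f.e J (kk u x m J L (ω J) (ω L) (f.e L ξ)))))‖ ^ 2 := by
        refine Finset.sum_congr rfl fun ω _ => ?_
        rw [← hsplit fun J L => q (f.e J (kk u x m J L (ω J) (ω L) (f.e L ξ)))]
        simp [map_sum]
    _ ≤ 2 * ∑ ω : Fin f.n → Ω, (∑ J, ‖q (f.e J (kk u x m J J (ω J) (ω J) (f.e J ξ)))‖ ^ 2 +
          ∑ J, ∑ L, (if J = L then 0 else
            ‖(if J = L then 0 else q (f.e J (kk u x m J L (ω J) (ω L) (f.e L ξ))))‖ ^ 2)) := key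
    _ = 2 * ∑ ω : Fin f.n → Ω, ∑ J, ∑ L,
          ‖q (f.e J (kk u x m J L (ω J) (ω L) (f.e L ξ)))‖ ^ 2 := by
        congr 1
        refine Finset.sum_congr rfl fun ω _ => ?_
        rw [← hsplitR fun J L => q (f.e J (kk u x m J L (ω J) (ω L) (f.e L ξ)))]
    _ ≤ 2 * ∑ _ω : Fin f.n → Ω, η * ((2 * ‖x‖) ^ 2 * ‖ξ‖ ^ 2) := by
        refine mul_le_mul_of_nonneg_left (Finset.sum_le_sum fun ω _ => ?_) zero_le_two
        exact block_bound f hη0 hη (fun J L => kk u x m J L (ω J) (ω L))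
          (err_norm hc f hu hmean hm ω) ξ
    _ = ∑ _ω : Fin f.n → Ω, 8 * η * ‖x‖ ^ 2 * ‖ξ‖ ^ 2 := by
        rw [Finset.mul_sum]
        refine Finset.sum_congr rfl fun ω _ => ?_
        ring

theorem exists_block (hc : ∀ a ∈ A, ∀ b ∈ A, a * b = b * a) {r : ℕ} (hr : 1 ≤ r)
    (f : _root_.P078.Part A) {q : H →L[ℂ] H} {η : ℝ} (hη0 : 0 ≤ η)
    (hη : ∀ i v, ‖q (f.e i v)‖ ^ 2 ≤ η * ‖f.e i v‖ ^ 2) {Ω : Type} [Fintype Ω] [Nonempty Ω]
    {u : Ω → Fin r → H →L[ℂ] H} (hu : ∀ α, IsPartition A (u α))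
    (hmean : ∀ c, ∑ α, u α c = ((Fintype.card Ω : ℂ) * (1 / (r : ℂ))) • 1)
    (x m : H →L[ℂ] H) (hm : ∑ α, ∑ c, u α c * x * u α c = (Fintype.card Ω : ℂ) • m)
    (G : Finset H) :
    ∃ p : Fin r → H →L[ℂ] H, IsPartition A p ∧
      ∑ ξ ∈ G, ‖q ((∑ c, p c * x * p c -
        ((1 / (r : ℂ)) • x + f.pinch (m - (1 / (r : ℂ)) • x))) ξ)‖ ^ 2 ≤
        8 * η * ‖x‖ ^ 2 * ∑ ξ ∈ G, ‖ξ‖ ^ 2 := by
  have h1 : ∑ ω : Fin f.n → Ω, ∑ ξ ∈ G,
      ‖q ((∑ J, ∑ L, f.e J * kk u x m J L (ω J) (ω L) * f.e L) ξ)‖ ^ 2 ≤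
      ∑ _ω : Fin f.n → Ω, 8 * η * ‖x‖ ^ 2 * ∑ ξ ∈ G, ‖ξ‖ ^ 2 := by
    rw [Finset.sum_comm]
    calc _ ≤ ∑ ξ ∈ G, ∑ _ω : Fin f.n → Ω, 8 * η * ‖x‖ ^ 2 * ‖ξ‖ ^ 2 :=
          Finset.sum_le_sum fun ξ _ => err_moment hc f hη0 hη hu hmean hm ξ
      _ = ∑ _ω : Fin f.n → Ω, 8 * η * ‖x‖ ^ 2 * ∑ ξ ∈ G, ‖ξ‖ ^ 2 := by
          rw [Finset.sum_comm]
          refine Finset.sum_congr rfl fun ω _ => ?_
          rw [Finset.mul_sum]
  obtain ⟨ω, -, hω⟩ := Finset.exists_le_of_sum_le Finset.univ_nonempty h1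
  refine ⟨blk f u ω, blk_isPartition hc f hu ω, ?_⟩
  rw [blk_pinch hc f hu x m ω]
  exact hω

end Vale.Agent.P078
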