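import Vale.Agent.Lib.P078G.Base

/-!
# P078G Cesaro: a Cesaro mean of pinchings which is strongly close to `E x`

`exists_cesaro`.  Induction on `k`: there are `g_1, .., g_k ≥ f0` with
`‖∑_{i ≤ k} (g_i.pinch x - E x) ξ‖² ≤ k (4 ‖x‖² ‖ξ‖² + 1)` for all `ξ ∈ G`.  Step: let
`R ξ = ∑_{i ≤ k} (g_i.pinch x - E x) ξ`; choose `g_{k+1} ≥ f0` with
`|⟪(g_{k+1}.pinch x - E x) ξ, R ξ⟫| < 1/2` for all `ξ ∈ G` (weak limit along `U ≤ atTop`), and
`‖g_{k+1}.pinch x - E x‖ ≤ 2 ‖x‖`.  Then take `K` large.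
-/

namespace Vale.Agent.P078

open Filter
open scoped InnerProductSpace Topology

universe u

variable {H : Type u} [NormedAddCommGroup H] [InnerProductSpace ℂ H] [CompleteSpace H]
  {M : VonNeumannAlgebra H} {A : StarSubalgebra ℂ (H →L[ℂ] H)}
  {U : Ultrafilter (_root_.P078.Part A)} {E : (H →L[ℂ] H) →ₗ[ℂ] (H →L[ℂ] H)}

private theorem cesaro_step (hE : LimExp M A U E) (x : H →L[ℂ] H)
    (f0 : _root_.P078.Part A) (G : Finset H) (R : H → H) :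
    ∃ g : _root_.P078.Part A, f0 ≤ g ∧
      ∀ ξ ∈ G, ‖⟪(g.pinch x - E x) ξ, R ξ⟫_ℂ‖ < 1 / 2 := by
  have h1 : ∀ᶠ g : _root_.P078.Part A in (U : Filter (_root_.P078.Part A)), f0 ≤ g :=
    hE.le_top (eventually_ge_atTop f0)
  have h2 : ∀ᶠ g : _root_.P078.Part A in (U : Filter (_root_.P078.Part A)),
      ∀ ξ ∈ G, ‖⟪(g.pinch x - E x) ξ, R ξ⟫_ℂ‖ < 1 / 2 := by
    refine (Filter.eventually_all_finset G).2 fun ξ _ => ?_
    have h3 := hE.lim x ξ (R ξ)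
    rw [Metric.tendsto_nhds] at h3
    filter_upwards [h3 (1 / 2) (by norm_num)] with g hg
    rw [dist_eq_norm, ← inner_sub_left] at hg
    exact hg
  obtain ⟨g, hg1, hg2⟩ := (h1.and h2).exists
  exact ⟨g, hg1, hg2⟩

private theorem cesaro_ind (hE : LimExp M A U E) (x : H →L[ℂ] H)
    (f0 : _root_.P078.Part A) (G : Finset H) (K : ℕ) :
    ∃ g : Fin K → _root_.P078.Part A, (∀ k, f0 ≤ g k) ∧
      ∀ ξ ∈ G, ‖∑ k, ((g k).pinch x - E x) ξ‖ ^ 2 ≤ K * (4 * ‖x‖ ^ 2 * ‖ξ‖ ^ 2 + 1) := by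
  induction K with
  | zero => exact ⟨fun k => f0, fun k => le_rfl, fun ξ _ => by simp⟩
  | succ K ih =>
    obtain ⟨g, hg, hgG⟩ := ih
    obtain ⟨g', hg', hgG'⟩ := cesaro_step hE x f0 G
      (fun ξ => ∑ k, ((g k).pinch x - E x) ξ)
    refine ⟨Fin.snoc g g', fun k => ?_, fun ξ hξ => ?_⟩
    · refine Fin.lastCases ?_ (fun i => ?_) k
      · rw [Fin.snoc_last]
        exact hg'
      · rw [Fin.snoc_castSucc]
        exact hg i
    · rw [Fin.sum_univ_castSucc]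
      simp only [Fin.snoc_castSucc, Fin.snoc_last]
      set R : H := ∑ k, ((g k).pinch x - E x) ξ with hR
      set v : H := (g'.pinch x - E x) ξ with hv
      have h1 := hgG ξ hξ
      have h2 : ‖⟪v, R⟫_ℂ‖ < 1 / 2 := hgG' ξ hξ
      have h3 : ‖v‖ ≤ 2 * ‖x‖ * ‖ξ‖ := by
        refine (ContinuousLinearMap.le_opNorm _ _).trans
          (mul_le_mul_of_nonneg_right ?_ (norm_nonneg _))
        calc ‖g'.pinch x - E x‖ ≤ ‖g'.pinch x‖ + ‖E x‖ := norm_sub_le _ _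
          _ ≤ ‖x‖ + ‖x‖ := add_le_add (_root_.P078.Part.pinch_norm g' x) (hE.norm_le x)
          _ = 2 * ‖x‖ := by ring
      have h4 : ‖v‖ ^ 2 ≤ 4 * ‖x‖ ^ 2 * ‖ξ‖ ^ 2 := by
        calc ‖v‖ ^ 2 ≤ (2 * ‖x‖ * ‖ξ‖) ^ 2 := pow_le_pow_left₀ (norm_nonneg _) h3 2
          _ = 4 * ‖x‖ ^ 2 * ‖ξ‖ ^ 2 := by ring
      have h5 : ‖R + v‖ ^ 2 = ‖R‖ ^ 2 + 2 * (⟪R, v⟫_ℂ).re + ‖v‖ ^ 2 :=
        norm_add_sq (𝕜 := ℂ) R v
      have h6 : (⟪R, v⟫_ℂ).re ≤ 1 / 2 := by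
        rw [norm_inner_symm] at h2
        exact ((Complex.re_le_norm _).trans h2.le)
      rw [h5]
      push_cast
      nlinarith

theorem exists_cesaro (h : MM M A) (hE : LimExp M A U E) (x : H →L[ℂ] H)
    (f0 : _root_.P078.Part A) (G : Finset H) {τ : ℝ} (hτ : 0 < τ) :
    ∃ (K : ℕ) (g : Fin K → _root_.P078.Part A), 0 < K ∧ (∀ k, f0 ≤ g k) ∧
      ∀ ξ ∈ G, ‖((1 / (K : ℂ)) • ∑ k, (g k).pinch x - E x) ξ‖ ≤ τ := by
  set B : ℝ := ∑ ξ ∈ G, (4 * ‖x‖ ^ 2 * ‖ξ‖ ^ 2 + 1) with hB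
  have hB0 : 0 ≤ B := Finset.sum_nonneg fun _ _ => by positivity
  obtain ⟨K, hK⟩ := exists_nat_gt (B / τ ^ 2)
  have hK0 : (0 : ℝ) < K := lt_of_le_of_lt (by positivity) hK
  have hKn : 0 < K := by exact_mod_cast hK0
  obtain ⟨g, hg, hgG⟩ := cesaro_ind hE x f0 G K
  refine ⟨K, g, hKn, hg, fun ξ hξ => ?_⟩
  have hKc : (K : ℂ) ≠ 0 := by exact_mod_cast hK0.ne'
  have e1 : ((1 / (K : ℂ)) • ∑ k, (g k).pinch x - E x) ξ =
      (1 / (K : ℂ)) • ∑ k, ((g k).pinch x - E x) ξ := by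
    simp only [sub_apply, smul_apply, Finset.sum_sub_distrib, _root_.sum_apply, Finset.sum_const,
      Finset.card_univ, Fintype.card_fin, smul_sub]
    congr 1
    rw [← Nat.cast_smul_eq_nsmul ℂ, smul_smul, one_div, inv_mul_cancel₀ hKc, one_smul]
  have h1 := hgG ξ hξ
  have h2 : 4 * ‖x‖ ^ 2 * ‖ξ‖ ^ 2 + 1 ≤ B :=
    Finset.single_le_sum (f := fun ξ : H => 4 * ‖x‖ ^ 2 * ‖ξ‖ ^ 2 + 1)
      (fun _ _ => by positivity) hξ
  have h3 : ‖∑ k, ((g k).pinch x - E x) ξ‖ ^ 2 ≤ (K * τ) ^ 2 := by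
    rw [div_lt_iff₀ (by positivity)] at hK
    calc ‖∑ k, ((g k).pinch x - E x) ξ‖ ^ 2 ≤ K * (4 * ‖x‖ ^ 2 * ‖ξ‖ ^ 2 + 1) := h1
      _ ≤ K * (K * τ ^ 2) := mul_le_mul_of_nonneg_left (by linarith) hK0.le
      _ = (K * τ) ^ 2 := by ring
  have h4 : ‖∑ k, ((g k).pinch x - E x) ξ‖ ≤ K * τ := le_of_sq_le_sq h3 (by positivity)
  rw [e1, norm_smul]
  have e2 : ‖(1 / (K : ℂ))‖ = 1 / (K : ℝ) := by simp
  rw [e2, one_div, inv_mul_le_iff₀ hK0]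
  exact h4

/-- pinching by a coarser partition does not change a pinching -/
theorem pinch_pinch {f g : _root_.P078.Part A} (hc : ∀ a ∈ A, ∀ b ∈ A, a * b = b * a)
    (hfg : f ≤ g) (x : H →L[ℂ] H) : f.pinch (g.pinch x) = g.pinch x := by
  unfold _root_.P078.Part.pinch
  simp only [Finset.mul_sum, Finset.sum_mul]
  rw [Finset.sum_comm]
  refine Finset.sum_congr rfl fun j _ => ?_
  obtain ⟨i, hi⟩ := hfg j
  have hi' : g.e j * f.e i = g.e j := by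
    rw [hc _ (g.mem j) _ (f.mem i)]
    exact hi
  rw [Finset.sum_eq_single i]
  · calc f.e i * (g.e j * x * g.e j) * f.e i = (f.e i * g.e j) * x * (g.e j * f.e i) := by
          simp only [mul_assoc]
      _ = g.e j * x * g.e j := by rw [hi, hi']
  · intro k _ hk
    have h1 : f.e k * g.e j = 0 := by
      rw [← hi, ← mul_assoc, f.orth k i hk, zero_mul]
    calc f.e k * (g.e j * x * g.e j) * f.e k = (f.e k * g.e j) * x * (g.e j * f.e k) := by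
          simp only [mul_assoc]
      _ = 0 := by rw [h1, zero_mul, zero_mul]
  · intro h
    exact absurd (Finset.mem_univ i) h

end Vale.Agent.P078
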