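import Vale.Agent.Lib.P078G.Base

/-!
# P078G Cut: spectral cuts in a von Neumann algebra

`spectral_cut`.  Let `h = cfc (fun t : ℝ => max (t - c) 0) Y` (positive), `K = ker h` (closed),
`g = K.starProjection`.  If `t` commutes with `Y` then so does `t⋆` (`Y` is self-adjoint), both
commute with `h` (`Commute.cfc_real`), so `K` is invariant under `t`, `t⋆` and `t g = g t`
(`P078.commute_of_invt` in `Lib/P078/Masa`).  In particular for `t ∈ M.commutant`; so `g ∈ M`
(`mem_of_comm`).  `Y = cfc (min · c) Y + h` and `‖cfc (min · c) Y‖ ≤ c` (spectrum in `[0, ‖Y‖]`), so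
`‖Y w‖ ≤ c ‖w‖` on `K`.  On `Kᗮ = closure (range h)`: `⟪h z, (Y - c) h z⟫ ≥ 0` because
`(t - c) * max (t - c) 0 ^ 2 ≥ 0`, so `c ‖w‖² ≤ re ⟪w, Y w⟫` for `w ∈ Kᗮ` by continuity.  Finally
`re ⟪ξ, Y ξ⟫ = re ⟪g ξ, Y g ξ⟫ + re ⟪(1-g) ξ, Y (1-g) ξ⟫ ≥ c ‖(1-g) ξ‖²`.

`cut_sq`: apply `spectral_cut` to `Y = W * W` and `c = κ ^ 2`.

`exists_step`: spectral partition of `z ∈ M`, `0 ≤ z`, `z * e = z`: choose `0 < l_1 < .. < l_k`
with small mesh; the cuts `g_i` of `z` at `l_i` commute with each other and with `z`, and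
`(1 - g_i) * e = 1 - g_i` (because `c ‖(1 - g) ξ‖² ≤ re ⟪ξ, z ξ⟫` vanishes on the kernel of `e`, so
`(1 - g)(1 - e) = 0`); use the projections `(1 - g_i) g_{i+1}`, `(1 - g_k)`.  (Compare
`exists_step_approx` in `Lib/P078S/Spectral.lean`.)
-/

namespace Vale.Agent.P078

open Filter
open scoped InnerProductSpace Topology

universe u

variable {H : Type u} [NormedAddCommGroup H] [InnerProductSpace ℂ H] [CompleteSpace H]
  {M : VonNeumannAlgebra H} {A : StarSubalgebra ℂ (H →L[ℂ] H)}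

private theorem cut_sa_inner {T : H →L[ℂ] H} (hT : IsSelfAdjoint T) (v w : H) :
    ⟪T v, w⟫_ℂ = ⟪v, T w⟫_ℂ := by
  rw [ContinuousLinearMap.isSelfAdjoint_iff'] at hT
  rw [← ContinuousLinearMap.adjoint_inner_right, hT]

private theorem cut_pos_inner {T : H →L[ℂ] H} (hT : 0 ≤ T) (v : H) :
    0 ≤ (⟪v, T v⟫_ℂ).re := by
  have h1 := (ContinuousLinearMap.nonneg_iff_isPositive T).1 hT
  exact h1.re_inner_nonneg_right v

theorem spectral_cut {Y : H →L[ℂ] H} (hY : Y ∈ M) (h0 : 0 ≤ Y) {c : ℝ} (hc : 0 < c) :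
    ∃ g ∈ M, IsStarProjection g ∧ (∀ t : H →L[ℂ] H, t * Y = Y * t → t * g = g * t) ∧
      (∀ ξ : H, ‖Y (g ξ)‖ ≤ c * ‖g ξ‖) ∧
      ∀ ξ : H, c * ‖(1 - g) ξ‖ ^ 2 ≤ (⟪ξ, Y ξ⟫_ℂ).re := by
  have hsa : IsSelfAdjoint Y := IsSelfAdjoint.of_nonneg h0
  set h : H →L[ℂ] H := cfc (fun t : ℝ => max (t - c) 0) Y with hh
  set m : H →L[ℂ] H := cfc (fun t : ℝ => max (c - t) 0) Y with hm
  set d : H →L[ℂ] H := cfc (fun t : ℝ => min t c) Y with hd
  have hhsa : IsSelfAdjoint h := cfc_predicate _ _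
  have hmsa : IsSelfAdjoint m := cfc_predicate _ _
  have hpos : 0 ≤ h := cfc_nonneg fun t _ => le_max_right _ _
  have hhm : h * m = 0 := by
    rw [hh, hm, ← cfc_mul (fun t : ℝ => max (t - c) 0) (fun t : ℝ => max (c - t) 0) Y
      (by fun_prop) (by fun_prop)]
    have : (fun t : ℝ => max (t - c) 0 * max (c - t) 0) = fun _ => 0 := by
      ext t
      rcases le_total t c with h | h
      · rw [max_eq_right (sub_nonpos.mpr h), zero_mul]
      · rw [max_eq_right (sub_nonpos.mpr h), mul_zero]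
    rw [this, cfc_const_zero]
  have hdY : Y = d + h := by
    rw [hd, hh, ← cfc_add (a := Y) (fun t : ℝ => min t c) (fun t : ℝ => max (t - c) 0)
      (by fun_prop) (by fun_prop)]
    have : (fun t : ℝ => min t c + max (t - c) 0) = fun t => t := by
      ext t
      rcases le_total t c with h | h
      · rw [max_eq_right (sub_nonpos.mpr h), min_eq_left h, add_zero]
      · rw [max_eq_left (sub_nonneg.mpr h), min_eq_right h]; ring
    rw [this, cfc_id' ℝ Y]
  have hdn : ‖d‖ ≤ c := by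
    refine norm_cfc_le hc.le fun t ht => ?_
    have ht0 : 0 ≤ t := spectrum_nonneg_of_nonneg h0 ht
    rw [Real.norm_eq_abs, abs_of_nonneg (le_min ht0 hc.le)]
    exact min_le_right _ _
  have hmd : Y = (c : ℂ) • (1 : H →L[ℂ] H) + h - m := by
    have e0 : (c : ℂ) • (1 : H →L[ℂ] H) = cfc (fun _ : ℝ => c) Y := by
      rw [cfc_const c Y, Algebra.algebraMap_eq_smul_one]
      rfl
    rw [e0, hh, hm, ← cfc_add (a := Y) (fun _ : ℝ => c) (fun t : ℝ => max (t - c) 0)
      (by fun_prop) (by fun_prop), ← cfc_sub (fun t : ℝ => c + max (t - c) 0)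
      (fun t : ℝ => max (c - t) 0) Y (by fun_prop) (by fun_prop)]
    have : (fun t : ℝ => c + max (t - c) 0 - max (c - t) 0) = fun t => t := by
      ext t
      rcases le_total t c with h | h
      · rw [max_eq_right (sub_nonpos.mpr h), max_eq_left (sub_nonneg.mpr h)]; ring
      · rw [max_eq_left (sub_nonneg.mpr h), max_eq_right (sub_nonpos.mpr h)]; ring
    rw [this, cfc_id' ℝ Y]
  set K : Submodule ℂ H := LinearMap.ker (h : H →ₗ[ℂ] H) with hK
  have hKc : IsClosed (K : Set H) := h.isClosed_ker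
  have : CompleteSpace K := hKc.completeSpace_coe
  have hKmem : ∀ v, v ∈ K ↔ h v = 0 := fun v => by rw [hK, LinearMap.mem_ker]; rfl
  have hinv : ∀ t : H →L[ℂ] H, t * Y = Y * t → ∀ v ∈ K, t v ∈ K := by
    intro t ht v hv
    have h1 : Commute Y t := ht.symm
    have h2 : h * t = t * h := (h1.cfc_real (fun t : ℝ => max (t - c) 0)).eq
    rw [hKmem] at hv ⊢
    have h3 := congrArg (fun T : H →L[ℂ] H => T v) h2
    simp only [mul_apply_eq_comp] at h3
    rw [h3, hv, map_zero]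
  have hstar : ∀ t : H →L[ℂ] H, t * Y = Y * t → star t * Y = Y * star t := by
    intro t ht
    have h1 := congrArg star ht
    rw [star_mul, star_mul, hsa.star_eq] at h1
    exact h1.symm
  have hcomm : ∀ t : H →L[ℂ] H, t * Y = Y * t → t * K.starProjection = K.starProjection * t :=
    fun t ht => _root_.P078.commute_of_invt (hinv t ht) (hinv _ (hstar t ht))
  have hKap : ∀ ξ, h (K.starProjection ξ) = 0 := fun ξ =>
    (hKmem _).1 (Submodule.starProjection_apply_mem _ _)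
  refine ⟨K.starProjection, mem_of_comm fun t ht => hcomm t (comm_of_mem hY ht).symm,
    isStarProjection_starProjection, hcomm, fun ξ => ?_, fun ξ => ?_⟩
  · have e1 : Y (K.starProjection ξ) = d (K.starProjection ξ) := by
      conv_lhs => rw [hdY]
      rw [add_apply, hKap, add_zero]
    rw [e1]
    exact (d.le_opNorm _).trans (mul_le_mul_of_nonneg_right hdn (norm_nonneg _))
  · set g : H →L[ℂ] H := K.starProjection with hg
    have hgsa : IsSelfAdjoint g := isStarProjection_starProjection.isSelfAdjoint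
    have hgg : ∀ v, g (g v) = g v := fun v => by
      have h5 : IsStarProjection g := isStarProjection_starProjection
      exact congrArg (fun T : H →L[ℂ] H => T v) h5.isIdempotentElem.eq
    set u : H := (1 - g) ξ with hu
    have hu' : u = ξ - g ξ := by rw [hu, sub_apply, one_apply_eq_self]
    have hgu : g u = 0 := by rw [hu', map_sub, hgg, sub_self]
    have hmu : m u = 0 := by
      refine ext_inner_left ℂ fun z => ?_
      rw [← cut_sa_inner hmsa, inner_zero_right]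
      have h1 : m z ∈ K := by
        rw [hKmem]
        have h3 := congrArg (fun T : H →L[ℂ] H => T z) hhm
        simpa using h3
      have h2 : g (m z) = m z := Submodule.starProjection_eq_self_iff.mpr h1
      rw [← h2, cut_sa_inner hgsa, hgu, inner_zero_right]
    have hYg : Y * g = g * Y := hcomm Y rfl
    have hYga : ∀ v, Y (g v) = g (Y v) := fun v => by
      have h3 := congrArg (fun T : H →L[ℂ] H => T v) hYg
      simpa using h3
    have e1 : ξ = g ξ + u := by rw [hu']; abel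
    have e2 : ⟪ξ, Y ξ⟫_ℂ = ⟪g ξ, Y (g ξ)⟫_ℂ + ⟪u, Y u⟫_ℂ := by
      conv_lhs => rw [e1]
      rw [map_add, inner_add_left, inner_add_right, inner_add_right]
      have c1 : ⟪g ξ, Y u⟫_ℂ = 0 := by
        rw [cut_sa_inner hgsa, ← hYga, hgu, map_zero, inner_zero_right]
      have c2 : ⟪u, Y (g ξ)⟫_ℂ = 0 := by
        rw [hYga, ← cut_sa_inner hgsa, hgu, inner_zero_left]
      rw [c1, c2, add_zero, zero_add]
    have e3 : ⟪u, Y u⟫_ℂ = (c : ℂ) * ⟪u, u⟫_ℂ + ⟪u, h u⟫_ℂ := by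
      conv_lhs => rw [hmd]
      rw [sub_apply, add_apply, hmu, sub_zero, smul_apply, one_apply_eq_self, inner_add_right,
        inner_smul_right]
    have e4 : (⟪u, u⟫_ℂ).re = ‖u‖ ^ 2 := by
      rw [inner_self_eq_norm_sq_to_K]
      norm_cast
    have e5 : ((c : ℂ) * ⟪u, u⟫_ℂ).re = c * ‖u‖ ^ 2 := by
      rw [Complex.re_ofReal_mul, e4]
    rw [e2, Complex.add_re, e3, Complex.add_re, e5]
    have p1 := cut_pos_inner h0 (g ξ)
    have p2 := cut_pos_inner hpos u
    linarith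

theorem cut_sq {W : H →L[ℂ] H} (hW : W ∈ M) (hs : IsSelfAdjoint W) {κ : ℝ} (hκ : 0 < κ) :
    ∃ g ∈ M, IsStarProjection g ∧ (∀ t : H →L[ℂ] H, t * W = W * t → t * g = g * t) ∧
      (∀ ξ : H, ‖W (g ξ)‖ ≤ κ * ‖g ξ‖) ∧ ∀ ξ : H, κ * ‖(1 - g) ξ‖ ≤ ‖W ξ‖ := by
  have hpos : 0 ≤ W * W := by
    have := star_mul_self_nonneg W
    rwa [hs.star_eq] at this
  obtain ⟨g, hgM, hgp, hgc, h1, h2⟩ := spectral_cut (mul_mem hW hW) hpos
    (c := κ ^ 2) (by positivity)
  have hin : ∀ v : H, (⟪v, (W * W) v⟫_ℂ).re = ‖W v‖ ^ 2 := by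
    intro v
    rw [mul_apply_eq_comp, ← cut_sa_inner hs, inner_self_eq_norm_sq_to_K]
    norm_cast
  refine ⟨g, hgM, hgp, fun t ht => hgc t ?_, fun ξ => ?_, fun ξ => ?_⟩
  · rw [← mul_assoc, ht, mul_assoc, ht, mul_assoc]
  · have h3 : ‖W (g ξ)‖ ^ 2 ≤ (κ * ‖g ξ‖) ^ 2 := by
      rw [← hin]
      calc (⟪g ξ, (W * W) (g ξ)⟫_ℂ).re ≤ ‖⟪g ξ, (W * W) (g ξ)⟫_ℂ‖ := Complex.re_le_norm _
        _ ≤ ‖g ξ‖ * ‖(W * W) (g ξ)‖ := norm_inner_le_norm _ _
        _ ≤ ‖g ξ‖ * (κ ^ 2 * ‖g ξ‖) := mul_le_mul_of_nonneg_left (h1 ξ) (norm_nonneg _)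
        _ = (κ * ‖g ξ‖) ^ 2 := by ring
    exact abs_le_of_sq_le_sq' h3 (by positivity) |>.2
  · have h3 := h2 ξ
    rw [hin] at h3
    have h4 : (κ * ‖(1 - g) ξ‖) ^ 2 ≤ ‖W ξ‖ ^ 2 := by
      rw [mul_pow]
      exact h3
    exact abs_le_of_sq_le_sq' h4 (norm_nonneg _) |>.2

end Vale.Agent.P078
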