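import Vale.Agent.Lib.P078G.Step

/-!
# P078G Dom: every corner contains a corner where `θ` is dominated by a vector functional

`exists_dom`.  Choose `ζ` with `e₀ ζ = ζ` and `(θ e₀).re < ‖ζ‖²` (`e₀ ≠ 0`), `φ y = ⟪ζ, y ζ⟫`.
By Zorn there is a maximal set `S` of pairwise orthogonal projections `e ∈ M`, `e ≠ 0`,
`e * e₀ = e`, with `φ(e) = ‖e ζ‖² ≤ (θ e).re`.  For finite `G ⊆ S`, `e_G = ∑_{e ∈ G} e` is a
projection `≤ e₀`, `‖e_G ζ‖² = ∑ ‖e ζ‖² ≤ (θ e_G).re ≤ (θ e₀).re`.  Let `K` be the closed span of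
the ranges of the `e ∈ S`, `s = K.starProjection ∈ M` (`proj_mem_M`), `s ≤ e₀`; `‖s ζ‖² ≤ (θ e₀).re`
(limit of the `e_G ζ`), so `s ≠ e₀`.  Put `e = e₀ - s ≠ 0`.  By maximality every nonzero projection
`e' ∈ M`, `e' * e = e'` has `(θ e').re < ‖e' ζ‖²`.  Hence `(θ z).re ≤ re ⟪ζ, z ζ⟫` for every
`z ∈ M`, `0 ≤ z`, `z * e = z` (`exists_step`, `θ` and `φ` are norm continuous).  Apply it to
`z = star (y * e) * (y * e)`.
-/

namespace Vale.Agent.P078

open Filter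
open scoped InnerProductSpace Topology

universe u

variable {H : Type u} [NormedAddCommGroup H] [InnerProductSpace ℂ H] [CompleteSpace H]
  {M : VonNeumannAlgebra H} {A : StarSubalgebra ℂ (H →L[ℂ] H)}

private theorem dom_symm {e : H →L[ℂ] H} (h : star e = e) (v w : H) :
    ⟪e v, w⟫_ℂ = ⟪v, e w⟫_ℂ := by
  rw [← ContinuousLinearMap.adjoint_inner_left, ← ContinuousLinearMap.star_eq_adjoint, h]

private theorem dom_sq {e : H →L[ℂ] H} (hp : IsStarProjection e) (v : H) :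
    ‖e v‖ ^ 2 = (⟪v, e v⟫_ℂ).re := by
  have h1 : e (e v) = e v := by
    rw [← mul_apply_eq_comp, hp.isIdempotentElem.eq]
  have h2 : (⟪e v, e v⟫_ℂ) = ⟪v, e v⟫_ℂ := by
    rw [dom_symm hp.isSelfAdjoint.star_eq, h1]
  rw [← h2, inner_self_eq_norm_sq_to_K]
  norm_cast

private theorem dom_le {e : H →L[ℂ] H} (hp : IsStarProjection e) (v : H) : ‖e v‖ ≤ ‖v‖ := by
  have h1 := dom_sq hp v
  have h2 : (⟪v, e v⟫_ℂ).re ≤ ‖v‖ * ‖e v‖ :=
    (Complex.re_le_norm _).trans (norm_inner_le_norm _ _)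
  rcases eq_or_lt_of_le (norm_nonneg (e v)) with h3 | h3
  · rw [← h3]
    exact norm_nonneg _
  · rw [← h1, sq] at h2
    exact le_of_mul_le_mul_right h2 h3

private theorem dom_pos {θ : (H →L[ℂ] H) →ₗ[ℂ] ℂ} (hθ : PosF θ) {e : H →L[ℂ] H}
    (hp : IsStarProjection e) : 0 ≤ (θ e).re := by
  have := hθ.nonneg e
  rwa [hp.isSelfAdjoint.star_eq, hp.isIdempotentElem.eq] at this

/-- admissible sets of projections -/
private def DomGood (M : VonNeumannAlgebra H) (θ : (H →L[ℂ] H) →ₗ[ℂ] ℂ) (e₀ : H →L[ℂ] H) (ζ : H)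
    (S : Set (H →L[ℂ] H)) : Prop :=
  (∀ e ∈ S, e ∈ M ∧ IsStarProjection e ∧ e ≠ 0 ∧ e * e₀ = e ∧ ‖e ζ‖ ^ 2 ≤ (θ e).re) ∧
    ∀ e ∈ S, ∀ f ∈ S, e ≠ f → e * f = 0

private theorem dom_zorn (M : VonNeumannAlgebra H) (θ : (H →L[ℂ] H) →ₗ[ℂ] ℂ) (e₀ : H →L[ℂ] H)
    (ζ : H) : ∃ S, Maximal (fun S => S ∈ {S | DomGood M θ e₀ ζ S}) S := by
  refine zorn_subset _ fun c hc hchain => ?_
  refine ⟨⋃₀ c, ⟨?_, ?_⟩, fun s hs => Set.subset_sUnion_of_mem hs⟩
  · rintro e ⟨s, hs, he⟩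
    exact (hc hs).1 e he
  · rintro e ⟨s, hs, he⟩ f ⟨t, ht, hf⟩ hef
    rcases hchain.total hs ht with h | h
    · exact (hc ht).2 e (h he) f hf hef
    · exact (hc hs).2 e he f (h hf) hef

section

variable {θ : (H →L[ℂ] H) →ₗ[ℂ] ℂ} {e₀ : H →L[ℂ] H} {ζ : H} {S : Set (H →L[ℂ] H)}

private theorem dom_mul (hS : DomGood M θ e₀ ζ S) {G G' : Finset (H →L[ℂ] H)}
    (hG : (G : Set (H →L[ℂ] H)) ⊆ S) (hGG : G' ⊆ G) :
    (∑ e ∈ G, e) * (∑ e ∈ G', e) = ∑ e ∈ G', e := by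
  classical
  rw [Finset.sum_mul_sum, Finset.sum_comm]
  refine Finset.sum_congr rfl fun f hf => ?_
  rw [Finset.sum_eq_single_of_mem f (hGG hf)]
  · exact (hS.1 f (hG (hGG hf))).2.1.isIdempotentElem.eq
  · intro e he hef
    exact hS.2 e (hG he) f (hG (hGG hf)) hef

private theorem dom_proj (hS : DomGood M θ e₀ ζ S) {G : Finset (H →L[ℂ] H)}
    (hG : (G : Set (H →L[ℂ] H)) ⊆ S) : IsStarProjection (∑ e ∈ G, e) := by
  refine ⟨dom_mul hS hG subset_rfl, ?_⟩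
  rw [IsSelfAdjoint, star_sum]
  exact Finset.sum_congr rfl fun e he => (hS.1 e (hG he)).2.1.isSelfAdjoint.star_eq

private theorem dom_e0 (hp : IsStarProjection e₀) (hS : DomGood M θ e₀ ζ S)
    {G : Finset (H →L[ℂ] H)} (hG : (G : Set (H →L[ℂ] H)) ⊆ S) :
    e₀ * (∑ e ∈ G, e) = ∑ e ∈ G, e := by
  rw [Finset.mul_sum]
  refine Finset.sum_congr rfl fun e he => ?_
  have h1 := congrArg star (hS.1 e (hG he)).2.2.2.1
  rw [star_mul, (hS.1 e (hG he)).2.1.isSelfAdjoint.star_eq, hp.isSelfAdjoint.star_eq] at h1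
  exact h1

private theorem dom_bessel (hθ : PosF θ) (hp : IsStarProjection e₀) (hS : DomGood M θ e₀ ζ S)
    {G : Finset (H →L[ℂ] H)} (hG : (G : Set (H →L[ℂ] H)) ⊆ S) :
    ‖(∑ e ∈ G, e) ζ‖ ^ 2 ≤ (θ e₀).re := by
  have h1 : ‖(∑ e ∈ G, e) ζ‖ ^ 2 = ∑ e ∈ G, ‖e ζ‖ ^ 2 := by
    rw [dom_sq (dom_proj hS hG), sum_apply, inner_sum, Complex.re_sum]
    exact Finset.sum_congr rfl fun e he => (dom_sq (hS.1 e (hG he)).2.1 ζ).symm
  have h2 : ∑ e ∈ G, ‖e ζ‖ ^ 2 ≤ (θ (∑ e ∈ G, e)).re := by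
    rw [map_sum, Complex.re_sum]
    exact Finset.sum_le_sum fun e he => (hS.1 e (hG he)).2.2.2.2
  have h3 : IsStarProjection (e₀ - ∑ e ∈ G, e) := by
    have a1 := dom_proj hS hG
    have a2 := dom_e0 hp hS hG
    have a3 : (∑ e ∈ G, e) * e₀ = ∑ e ∈ G, e := by
      have := congrArg star a2
      rwa [star_mul, hp.isSelfAdjoint.star_eq, a1.isSelfAdjoint.star_eq] at this
    refine ⟨?_, hp.isSelfAdjoint.sub a1.isSelfAdjoint⟩
    rw [IsIdempotentElem, sub_mul, mul_sub, mul_sub, a2, a3, hp.isIdempotentElem.eq,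
      a1.isIdempotentElem.eq]
    abel
  have h4 := dom_pos hθ h3
  rw [map_sub, Complex.sub_re] at h4
  rw [h1]
  linarith

end

theorem exists_dom {θ : (H →L[ℂ] H) →ₗ[ℂ] ℂ} (hθ : PosF θ) {e₀ : H →L[ℂ] H} (he₀ : e₀ ∈ M)
    (hp : IsStarProjection e₀) (h0 : e₀ ≠ 0) :
    ∃ e ∈ M, IsStarProjection e ∧ e ≠ 0 ∧ e * e₀ = e ∧ Dom M θ e := by
  classical
  -- the vector
  obtain ⟨ζ, hζ, hζ2⟩ : ∃ ζ : H, e₀ ζ = ζ ∧ (θ e₀).re < ‖ζ‖ ^ 2 := by
    obtain ⟨v, hv⟩ : ∃ v, e₀ v ≠ 0 := by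
      by_contra hcon
      push Not at hcon
      exact h0 (ContinuousLinearMap.ext hcon)
    have hv' : 0 < ‖e₀ v‖ := norm_pos_iff.2 hv
    have hee : e₀ (e₀ v) = e₀ v := by
      rw [← mul_apply_eq_comp, hp.isIdempotentElem.eq]
    refine ⟨((((θ e₀).re + 1) / ‖e₀ v‖ : ℝ) : ℂ) • e₀ v, by rw [map_smul, hee], ?_⟩
    have hpos := dom_pos hθ hp
    rw [norm_smul, Complex.norm_real, Real.norm_eq_abs, abs_of_nonneg (by positivity),
      div_mul_cancel₀ _ hv'.ne']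
    nlinarith
  obtain ⟨S, hSmax⟩ := dom_zorn M θ e₀ ζ
  have hS : DomGood M θ e₀ ζ S := hSmax.prop
  -- the closed span
  let K₀ : Submodule ℂ H :=
    { carrier := {v | ∃ G : Finset (H →L[ℂ] H), (G : Set (H →L[ℂ] H)) ⊆ S ∧ (∑ e ∈ G, e) v = v}
      add_mem' := by
        rintro v w ⟨G, hG, hv⟩ ⟨G', hG', hw⟩
        have hU : ((G ∪ G' : Finset (H →L[ℂ] H)) : Set (H →L[ℂ] H)) ⊆ S := by
          rw [Finset.coe_union]
          exact Set.union_subset hG hG'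
        refine ⟨G ∪ G', hU, ?_⟩
        have h1 : (∑ e ∈ G ∪ G', e) v = v := by
          have := congrArg (fun T : H →L[ℂ] H => T v) (dom_mul hS hU Finset.subset_union_left)
          simp only [mul_apply_eq_comp] at this
          rwa [hv] at this
        have h2 : (∑ e ∈ G ∪ G', e) w = w := by
          have := congrArg (fun T : H →L[ℂ] H => T w) (dom_mul hS hU Finset.subset_union_right)
          simp only [mul_apply_eq_comp] at this
          rwa [hw] at this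
        rw [map_add, h1, h2]
      zero_mem' := ⟨∅, by simp, by simp⟩
      smul_mem' := by
        rintro c v ⟨G, hG, hv⟩
        exact ⟨G, hG, by rw [map_smul, hv]⟩ }
  have hK₀ : ∀ v, v ∈ K₀ ↔ ∃ G : Finset (H →L[ℂ] H), (G : Set (H →L[ℂ] H)) ⊆ S ∧
      (∑ e ∈ G, e) v = v := fun v => Iff.rfl
  obtain ⟨K, hK⟩ : ∃ K : Submodule ℂ H, K = K₀.topologicalClosure := ⟨_, rfl⟩
  have hKc : IsClosed (K : Set H) := by rw [hK]; exact K₀.isClosed_topologicalClosure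
  have hKcs : CompleteSpace K := hKc.completeSpace_coe
  have hK₀K : K₀ ≤ K := by rw [hK]; exact K₀.le_topologicalClosure
  obtain ⟨s, hs⟩ : ∃ s : H →L[ℂ] H, s = K.starProjection := ⟨_, rfl⟩
  have hsp : IsStarProjection s := by rw [hs]; exact isStarProjection_starProjection
  have hsK : ∀ v, s v ∈ K := fun v => by rw [hs]; exact Submodule.starProjection_apply_mem _ _
  have hsfix : ∀ v ∈ K, s v = v := fun v hv => by
    rw [hs]
    exact Submodule.starProjection_eq_self_iff.2 hv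
  have hsM : s ∈ M := by
    rw [hs]
    refine proj_mem_M fun t ht => ?_
    have h1 : K₀.topologicalClosure ≤ K.comap (t : H →ₗ[ℂ] H) := by
      refine Submodule.topologicalClosure_minimal _ ?_ (hKc.preimage t.continuous)
      rintro v ⟨G, hG, hv⟩
      rw [Submodule.mem_comap]
      refine hK₀K ⟨G, hG, ?_⟩
      have h2 : (∑ e ∈ G, e) * t = t * (∑ e ∈ G, e) := by
        rw [Finset.sum_mul, Finset.mul_sum]
        exact Finset.sum_congr rfl fun e he => comm_of_mem (hS.1 e (hG he)).1 ht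
      have h3 := congrArg (fun T : H →L[ℂ] H => T v) h2
      simp only [mul_apply_eq_comp] at h3
      rw [hv] at h3
      exact h3
    rw [← hK] at h1
    exact fun v hv => h1 hv
  have he0s : e₀ * s = s := by
    have h1 : K₀.topologicalClosure ≤ LinearMap.ker ((e₀ - 1 : H →L[ℂ] H) : H →ₗ[ℂ] H) := by
      refine Submodule.topologicalClosure_minimal _ ?_ (e₀ - 1).isClosed_ker
      rintro v ⟨G, hG, hv⟩
      rw [LinearMap.mem_ker]
      change e₀ v - v = 0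
      have h2 := congrArg (fun T : H →L[ℂ] H => T v) (dom_e0 hp hS hG)
      simp only [mul_apply_eq_comp] at h2
      rw [hv] at h2
      rw [h2, sub_self]
    rw [← hK] at h1
    ext v
    have h2 := h1 (hsK v)
    rw [LinearMap.mem_ker] at h2
    exact sub_eq_zero.1 h2
  have hse0 : s * e₀ = s := by
    have := congrArg star he0s
    rwa [star_mul, hsp.isSelfAdjoint.star_eq, hp.isSelfAdjoint.star_eq] at this
  -- the norm of `s ζ`
  have hsζ : ‖s ζ‖ ^ 2 ≤ (θ e₀).re := by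
    have hpos := dom_pos hθ hp
    have h1 : ∀ ε : ℝ, 0 < ε → ‖s ζ‖ ≤ √((θ e₀).re) + ε := by
      intro ε hε
      have h2 : s ζ ∈ closure (K₀ : Set H) := by
        have := hsK ζ
        rw [hK] at this
        exact this
      obtain ⟨k, hk, hkd⟩ := Metric.mem_closure_iff.1 h2 (ε / 2) (by positivity)
      obtain ⟨G, hG, hGk⟩ := hk
      rw [dist_eq_norm] at hkd
      have hGp := dom_proj hS hG
      have h3 : (∑ e ∈ G, e) ζ = (∑ e ∈ G, e) (s ζ) := by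
        have h4 : s * (∑ e ∈ G, e) = ∑ e ∈ G, e := by
          ext v
          rw [mul_apply_eq_comp]
          refine hsfix _ (hK₀K ⟨G, hG, ?_⟩)
          rw [← mul_apply_eq_comp, hGp.isIdempotentElem.eq]
        have h5 := congrArg star h4
        rw [star_mul, hsp.isSelfAdjoint.star_eq, hGp.isSelfAdjoint.star_eq] at h5
        rw [← mul_apply_eq_comp, h5]
      have h4 : ‖(∑ e ∈ G, e) ζ‖ ≤ √((θ e₀).re) :=
        Real.le_sqrt_of_sq_le (dom_bessel hθ hp hS hG)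
      have h5 : s ζ = (∑ e ∈ G, e) ζ + ((s ζ - k) - (∑ e ∈ G, e) (s ζ - k)) := by
        rw [map_sub, hGk, h3]
        abel
      have h6 := dom_le hGp (s ζ - k)
      calc ‖s ζ‖ = ‖(∑ e ∈ G, e) ζ + ((s ζ - k) - (∑ e ∈ G, e) (s ζ - k))‖ := by rw [← h5]
        _ ≤ ‖(∑ e ∈ G, e) ζ‖ + ‖(s ζ - k) - (∑ e ∈ G, e) (s ζ - k)‖ := norm_add_le _ _
        _ ≤ ‖(∑ e ∈ G, e) ζ‖ + (‖s ζ - k‖ + ‖(∑ e ∈ G, e) (s ζ - k)‖) := by
          gcongr
          exact norm_sub_le _ _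
        _ ≤ √((θ e₀).re) + ε := by linarith
    have h2 : ‖s ζ‖ ≤ √((θ e₀).re) := le_of_forall_pos_le_add h1
    calc ‖s ζ‖ ^ 2 ≤ √((θ e₀).re) ^ 2 := by gcongr
      _ = (θ e₀).re := Real.sq_sqrt hpos
  -- the corner
  have hsf : ∀ f ∈ S, s * f = f := by
    intro f hf
    ext v
    rw [mul_apply_eq_comp]
    refine hsfix _ (hK₀K ⟨{f}, by simpa using hf, ?_⟩)
    rw [Finset.sum_singleton, ← mul_apply_eq_comp, (hS.1 f hf).2.1.isIdempotentElem.eq]
  obtain ⟨e, he⟩ : ∃ e, e = e₀ - s := ⟨_, rfl⟩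
  have hep : IsStarProjection e := by
    rw [he]
    refine ⟨?_, hp.isSelfAdjoint.sub hsp.isSelfAdjoint⟩
    rw [IsIdempotentElem, sub_mul, mul_sub, mul_sub, he0s, hse0, hp.isIdempotentElem.eq,
      hsp.isIdempotentElem.eq]
    abel
  have heM : e ∈ M := by rw [he]; exact sub_mem he₀ hsM
  have hee0 : e * e₀ = e := by
    rw [he, sub_mul, hse0, hp.isIdempotentElem.eq]
  have hene : e ≠ 0 := by
    intro h
    rw [he, sub_eq_zero] at h
    rw [← h, hζ] at hsζ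
    linarith
  have hef : ∀ f ∈ S, e * f = 0 := by
    intro f hf
    have h1 : e₀ * f = f := by
      rw [← hsf f hf, ← mul_assoc, he0s]
    rw [he, sub_mul, h1, hsf f hf, sub_self]
  -- domination for projections
  have hproj : ∀ e' ∈ M, IsStarProjection e' → e' * e = e' → (θ e').re ≤ ‖e' ζ‖ ^ 2 := by
    intro e' hM' hp' hee'
    by_contra hcon
    push Not at hcon
    have hne' : e' ≠ 0 := by
      rintro rfl
      simp at hcon
    have h1 : ∀ f ∈ S, e' * f = 0 := by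
      intro f hf
      rw [← hee', mul_assoc, hef f hf, mul_zero]
    have h2 : ∀ f ∈ S, f * e' = 0 := by
      intro f hf
      have := congrArg star (h1 f hf)
      rwa [star_mul, hp'.isSelfAdjoint.star_eq, (hS.1 f hf).2.1.isSelfAdjoint.star_eq,
        star_zero] at this
    have hgood : DomGood M θ e₀ ζ (insert e' S) := by
      constructor
      · rintro f (rfl | hf)
        · exact ⟨hM', hp', hne', by rw [← hee', mul_assoc, hee0], hcon.le⟩
        · exact hS.1 f hf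
      · rintro f (rfl | hf) g (rfl | hg) hfg
        · exact absurd rfl hfg
        · exact h1 g hg
        · exact h2 f hf
        · exact hS.2 f hf g hg hfg
    have h3 : e' ∈ S := hSmax.le_of_ge (y := insert e' S) hgood (Set.subset_insert _ _)
      (Set.mem_insert _ _)
    have h4 := h1 e' h3
    rw [hp'.isIdempotentElem.eq] at h4
    exact hne' h4
  -- domination for positive elements
  have hdom : ∀ z ∈ M, 0 ≤ z → z * e = z → (θ z).re ≤ (⟪ζ, z ζ⟫_ℂ).re := by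
    intro z hz hz0 hze
    have hC : 0 ≤ (θ 1).re := by
      have := hθ.nonneg 1
      rwa [star_one, one_mul] at this
    refine le_of_forall_pos_le_add fun ε hε => ?_
    have hden : 0 < (θ 1).re + ‖ζ‖ ^ 2 + 1 := by positivity
    obtain ⟨n, p, l, hpM, hpp, hpe, hl, hnorm⟩ := exists_step hz hz0 heM hep hze
      (η := ε / ((θ 1).re + ‖ζ‖ ^ 2 + 1)) (by positivity)
    obtain ⟨w, hw⟩ : ∃ w, w = ∑ i, (l i : ℂ) • p i := ⟨_, rfl⟩
    rw [← hw] at hnorm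
    have h1 : (θ w).re ≤ (⟪ζ, w ζ⟫_ℂ).re := by
      rw [hw, map_sum, Complex.re_sum, sum_apply, inner_sum, Complex.re_sum]
      refine Finset.sum_le_sum fun i _ => ?_
      rw [map_smul, smul_eq_mul, Complex.re_ofReal_mul, smul_apply,
        inner_smul_right, Complex.re_ofReal_mul, ← dom_sq (hpp i)]
      exact mul_le_mul_of_nonneg_left (hproj _ (hpM i) (hpp i) (hpe i)) (hl i)
    have h2 : (θ z).re - (θ w).re ≤ (θ 1).re * ‖z - w‖ := by
      rw [← Complex.sub_re, ← map_sub]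
      exact (Complex.re_le_norm _).trans (hθ.bdd _)
    have h3 : (⟪ζ, w ζ⟫_ℂ).re - (⟪ζ, z ζ⟫_ℂ).re ≤ ‖ζ‖ ^ 2 * ‖z - w‖ := by
      rw [← Complex.sub_re, ← inner_sub_right]
      refine (Complex.re_le_norm _).trans ((norm_inner_le_norm _ _).trans ?_)
      have h4 : ‖w ζ - z ζ‖ ≤ ‖z - w‖ * ‖ζ‖ := by
        rw [norm_sub_rev]
        exact (z - w).le_opNorm ζ
      calc ‖ζ‖ * ‖w ζ - z ζ‖ ≤ ‖ζ‖ * (‖z - w‖ * ‖ζ‖) := by gcongr
        _ = ‖ζ‖ ^ 2 * ‖z - w‖ := by ring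
    have h5 : ((θ 1).re + ‖ζ‖ ^ 2) * ‖z - w‖ ≤ ε := by
      calc ((θ 1).re + ‖ζ‖ ^ 2) * ‖z - w‖
          ≤ ((θ 1).re + ‖ζ‖ ^ 2 + 1) * (ε / ((θ 1).re + ‖ζ‖ ^ 2 + 1)) :=
            mul_le_mul (by linarith) hnorm (norm_nonneg _) hden.le
        _ = ε := mul_div_cancel₀ _ hden.ne'
    have h6 : ((θ 1).re + ‖ζ‖ ^ 2) * ‖z - w‖ = (θ 1).re * ‖z - w‖ + ‖ζ‖ ^ 2 * ‖z - w‖ := by ring
    linarith
  refine ⟨e, heM, hep, hene, hee0, ζ, fun y hy => ?_⟩
  have h1 : star (y * e) * (y * e) ∈ M := mul_mem (star_mem (mul_mem hy heM)) (mul_mem hy heM)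
  have h2 : star (y * e) * (y * e) * e = star (y * e) * (y * e) := by
    rw [mul_assoc, mul_assoc, hep.isIdempotentElem.eq]
  have h3 := hdom _ h1 (star_mul_self_nonneg _) h2
  refine h3.trans (le_of_eq ?_)
  have h4 : ⟪ζ, (star (y * e) * (y * e)) ζ⟫_ℂ = ⟪(y * e) ζ, (y * e) ζ⟫_ℂ := by
    rw [mul_apply_eq_comp, ContinuousLinearMap.star_eq_adjoint,
      ContinuousLinearMap.adjoint_inner_right]
  rw [h4, inner_self_eq_norm_sq_to_K, mul_apply_eq_comp]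
  norm_cast

end Vale.Agent.P078
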