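import Vale.Agent.Lib.P078G.Dom

/-!
# P078G Family: a maximal family of dominated projections, and the limit functional

`exists_family`: Zorn's lemma: maximal set `S` of pairwise orthogonal nonzero projections `e ∈ M`,
`e * p = e`, `Dom M θ e`.  If `p v ≠ 0` and `e v = 0` for all `e ∈ S`: let `K` be the closed span of
the ranges, `s = K.starProjection ∈ M`, `s * p = s`, `p - s ≠ 0`; `exists_dom` in the corner of
`p - s` contradicts maximality.

`limit_functional`: for a finite set `G` of pairwise orthogonal projections let `e_G = ∑_{e ∈ G} e`.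
`(θ e_G).re ≤ (θ 1).re`, so `∑_{e ∈ S} (θ e).re` is summable.  Cauchy-Schwarz:
`|θ (a * b)|² ≤ θ(a a⋆) θ(b⋆ b)` for a positive functional (prove it first, `pos_cs`).
For `G ⊆ G'`: `θ(e_{G'} y e_{G'}) - θ(e_G y e_G) = θ((e_{G'} - e_G) y e_{G'}) + θ(e_G y (e_{G'} - e_G))`,
each term at most `(θ(e_{G' \ G}))^(1/2) * ((θ 1).re)^(1/2) * ‖y‖`.  So the net is uniformly Cauchy.
-/

namespace Vale.Agent.P078

open Filter
open scoped InnerProductSpace Topology

universe u

variable {H : Type u} [NormedAddCommGroup H] [InnerProductSpace ℂ H] [CompleteSpace H]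
  {M : VonNeumannAlgebra H} {A : StarSubalgebra ℂ (H →L[ℂ] H)}

/-- a family of pairwise orthogonal dominated projections of `M` with sum `p` -/
structure DomFamily (M : VonNeumannAlgebra H) (θ : (H →L[ℂ] H) →ₗ[ℂ] ℂ) (p : H →L[ℂ] H)
    (S : Set (H →L[ℂ] H)) : Prop where
  mem : ∀ e ∈ S, e ∈ M
  proj : ∀ e ∈ S, IsStarProjection e
  orth : ∀ e ∈ S, ∀ e' ∈ S, e ≠ e' → e * e' = 0
  le : ∀ e ∈ S, e * p = e
  dom : ∀ e ∈ S, Dom M θ e
  total : ∀ v : H, (∀ e ∈ S, e v = 0) → p v = 0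

/-- `ψ` is the limit functional of the family -/
def IsLim (θ : (H →L[ℂ] H) →ₗ[ℂ] ℂ) (S : Set (H →L[ℂ] H)) (ψ : (H →L[ℂ] H) →ₗ[ℂ] ℂ) : Prop :=
  ∀ τ : ℝ, 0 < τ → ∃ G₀ : Finset (H →L[ℂ] H), (G₀ : Set (H →L[ℂ] H)) ⊆ S ∧
    ∀ G : Finset (H →L[ℂ] H), (G : Set (H →L[ℂ] H)) ⊆ S → G₀ ⊆ G →
      (θ (∑ e ∈ G, e)).re ≤ (θ (∑ e ∈ G₀, e)).re + τ ∧
      ∀ y, ‖θ ((∑ e ∈ G, e) * y * ∑ e ∈ G, e) - ψ y‖ ≤ τ * ‖y‖

/-- Cauchy-Schwarz for a positive functional -/
theorem pos_cs {θ : (H →L[ℂ] H) →ₗ[ℂ] ℂ} (hθ : PosF θ) (a b : H →L[ℂ] H) :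
    ‖θ (star a * b)‖ ^ 2 ≤ (θ (star a * a)).re * (θ (star b * b)).re := by
  obtain ⟨w, hw⟩ : ∃ w : ℂ, w = θ (star a * b) := ⟨_, rfl⟩
  have hba : θ (star b * a) = (starRingEnd ℂ) w := by
    rw [hw, ← hθ.herm, star_mul, star_star]
  have hww : w * (starRingEnd ℂ) w = ((‖w‖ ^ 2 : ℝ) : ℂ) := by
    rw [Complex.mul_conj, Complex.normSq_eq_norm_sq]
  have key : ∀ t : ℝ, 0 ≤ (‖w‖ ^ 2 * (θ (star b * b)).re) * (t * t) + (2 * ‖w‖ ^ 2) * t +
      (θ (star a * a)).re := by
    intro t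
    have h := hθ.nonneg (a + ((t : ℂ) * (starRingEnd ℂ) w) • b)
    have e : star (a + ((t : ℂ) * (starRingEnd ℂ) w) • b) * (a + ((t : ℂ) * (starRingEnd ℂ) w) • b) =
        star a * a + ((t : ℂ) * (starRingEnd ℂ) w) • (star a * b) +
          ((t : ℂ) * w) • (star b * a) +
          (((t : ℂ) * w) * ((t : ℂ) * (starRingEnd ℂ) w)) • (star b * b) := by
      rw [star_add, star_smul, mul_add, add_mul, add_mul]
      have h1 : star ((t : ℂ) * (starRingEnd ℂ) w) = (t : ℂ) * w := by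
        simp
      rw [h1, smul_mul_assoc, mul_smul_comm, smul_mul_assoc, mul_smul_comm, smul_smul]
      abel
    rw [e] at h
    simp only [map_add, map_smul, smul_eq_mul] at h
    rw [← hw, hba] at h
    have h2 : θ (star a * a) + (t : ℂ) * (starRingEnd ℂ) w * w + (t : ℂ) * w * (starRingEnd ℂ) w +
        (t : ℂ) * w * ((t : ℂ) * (starRingEnd ℂ) w) * θ (star b * b) =
        θ (star a * a) + ((2 * ‖w‖ ^ 2 * t : ℝ) : ℂ) +
          ((‖w‖ ^ 2 * (t * t) : ℝ) : ℂ) * θ (star b * b) := by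
      have h3 : (t : ℂ) * (starRingEnd ℂ) w * w = t * ((‖w‖ ^ 2 : ℝ) : ℂ) := by
        rw [← hww]; ring
      have h4 : (t : ℂ) * w * (starRingEnd ℂ) w = t * ((‖w‖ ^ 2 : ℝ) : ℂ) := by
        rw [← hww]; ring
      have h5 : (t : ℂ) * w * ((t : ℂ) * (starRingEnd ℂ) w) = t * t * ((‖w‖ ^ 2 : ℝ) : ℂ) := by
        rw [← hww]; ring
      rw [h3, h4, h5]
      push_cast
      ring
    rw [h2, Complex.add_re, Complex.add_re, Complex.re_ofReal_mul, Complex.ofReal_re] at h
    linarith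
  have hd := discrim_le_zero key
  rw [discrim] at hd
  rw [← hw]
  by_cases h0 : ‖w‖ = 0
  · rw [h0]
    have h1 := hθ.nonneg a
    have h2 := hθ.nonneg b
    have := mul_nonneg h1 h2
    simpa using this
  · have hpos : 0 < ‖w‖ ^ 2 := by positivity
    have h1 : ‖w‖ ^ 2 * (‖w‖ ^ 2 - (θ (star a * a)).re * (θ (star b * b)).re) ≤ 0 := by
      nlinarith
    have h2 : ‖w‖ ^ 2 - (θ (star a * a)).re * (θ (star b * b)).re ≤ 0 := by
      by_contra hcon
      push Not at hcon
      have := mul_pos hpos hcon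
      linarith
    linarith

private theorem Family_star_proj {e : H →L[ℂ] H} (he : IsStarProjection e) : star e = e :=
  he.isSelfAdjoint

private theorem Family_mul_comm_of_le {e p : H →L[ℂ] H} (he : IsStarProjection e)
    (hp : IsStarProjection p) (h : e * p = e) : p * e = e := by
  have := congrArg star h
  rwa [star_mul, Family_star_proj he, Family_star_proj hp] at this

theorem exists_family {θ : (H →L[ℂ] H) →ₗ[ℂ] ℂ} (hθ : PosF θ) {p : H →L[ℂ] H} (hp : p ∈ M)
    (hpp : IsStarProjection p) : ∃ S : Set (H →L[ℂ] H), DomFamily M θ p S := by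
  classical
  let F : Set (Set (H →L[ℂ] H)) := {S | (∀ e ∈ S, e ∈ M ∧ IsStarProjection e ∧ e ≠ 0 ∧ e * p = e ∧
    Dom M θ e) ∧ ∀ e ∈ S, ∀ e' ∈ S, e ≠ e' → e * e' = 0}
  obtain ⟨S, hS⟩ : ∃ S, Maximal (· ∈ F) S := by
    refine zorn_subset F fun c hc hch => ⟨⋃₀ c, ⟨?_, ?_⟩, fun s hs => Set.subset_sUnion_of_mem hs⟩
    · rintro e ⟨s, hs, hes⟩
      exact (hc hs).1 e hes
    · rintro e ⟨s, hs, hes⟩ e' ⟨s', hs', hes'⟩ hne
      rcases hch.total hs hs' with h | h
      · exact (hc hs').2 e (h hes) e' hes' hne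
      · exact (hc hs).2 e hes e' (h hes') hne
  have hSF : S ∈ F := hS.prop
  refine ⟨S, fun e he => (hSF.1 e he).1, fun e he => (hSF.1 e he).2.1, hSF.2,
    fun e he => (hSF.1 e he).2.2.2.1, fun e he => (hSF.1 e he).2.2.2.2, fun v hv => ?_⟩
  by_contra hpv
  -- the closed span of the ranges
  let W : Set H := {w | ∃ e ∈ S, e w = w}
  let K : Submodule ℂ H := (Submodule.span ℂ W).topologicalClosure
  have hWK : ∀ w ∈ W, w ∈ K := fun w hw =>
    Submodule.le_topologicalClosure _ (Submodule.subset_span hw)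
  have hKc : IsClosed (K : Set H) := Submodule.isClosed_topologicalClosure _
  have hKcomp : CompleteSpace K := hKc.completeSpace_coe
  have hKle : ∀ (L : Submodule ℂ H), IsClosed (L : Set H) → (∀ w ∈ W, w ∈ L) → K ≤ L :=
    fun L hL hw => Submodule.topologicalClosure_minimal _ (Submodule.span_le.2 hw) hL
  have hee : ∀ e ∈ S, ∀ w, e (e w) = e w := fun e he w =>
    congrArg (fun T : H →L[ℂ] H => T w) ((hSF.1 e he).2.1.isIdempotentElem.eq)
  obtain ⟨s, hs⟩ : ∃ s : H →L[ℂ] H, s = K.starProjection := ⟨_, rfl⟩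
  have hsM : s ∈ M := by
    rw [hs]
    refine proj_mem_M fun t ht => ?_
    have h1 : K ≤ K.comap (t : H →ₗ[ℂ] H) := by
      refine hKle _ (hKc.preimage t.continuous) ?_
      rintro w ⟨e, he, hew⟩
      refine hWK _ ⟨e, he, ?_⟩
      have h2 := congrArg (fun T : H →L[ℂ] H => T w) (comm_of_mem (hSF.1 e he).1 ht)
      simp only [mul_apply_eq_comp] at h2
      change e (t w) = t w
      rw [h2, hew]
    exact fun v hv => h1 hv
  have hsp : IsStarProjection s := by rw [hs]; exact isStarProjection_starProjection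
  have hse : ∀ e ∈ S, s * e = e := by
    intro e he
    ext w
    rw [hs]
    exact Submodule.starProjection_eq_self_iff.mpr (hWK _ ⟨e, he, hee e he w⟩)
  have hps : p * s = s := by
    ext w
    have h1 : K ≤ LinearMap.ker ((p - 1 : H →L[ℂ] H) : H →ₗ[ℂ] H) := by
      refine hKle _ (p - 1 : H →L[ℂ] H).isClosed_ker ?_
      rintro w ⟨e, he, hew⟩
      have h2 : p * e = e := Family_mul_comm_of_le (hSF.1 e he).2.1 hpp (hSF.1 e he).2.2.2.1
      have h3 := congrArg (fun T : H →L[ℂ] H => T w) h2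
      simp only [mul_apply_eq_comp] at h3
      rw [LinearMap.mem_ker]
      change p w - w = 0
      rw [← hew, h3, sub_self]
    have h2 : s w ∈ K := by rw [hs]; exact Submodule.starProjection_apply_mem _ _
    have h3 := h1 h2
    rw [LinearMap.mem_ker] at h3
    exact sub_eq_zero.mp h3
  have hsp' : s * p = s := by
    have := congrArg star hps
    rwa [star_mul, Family_star_proj hsp, Family_star_proj hpp] at this
  have hsv : s v = 0 := by
    rw [hs, Submodule.starProjection_apply_eq_zero_iff]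
    have h1 : K ≤ (ℂ ∙ v)ᗮ := by
      refine hKle _ (Submodule.isClosed_orthogonal _) ?_
      rintro w ⟨e, he, hew⟩
      rw [Submodule.mem_orthogonal_singleton_iff_inner_right]
      have h2 : star e = e := Family_star_proj (hSF.1 e he).2.1
      rw [← hew, ← ContinuousLinearMap.adjoint_inner_left, ← ContinuousLinearMap.star_eq_adjoint,
        h2, hv e he, inner_zero_left]
    rw [Submodule.mem_orthogonal]
    intro u hu
    have := h1 hu
    rw [Submodule.mem_orthogonal_singleton_iff_inner_left] at this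
    exact this
  have hq0 : p - s ≠ 0 := by
    intro h0
    have := congrArg (fun T : H →L[ℂ] H => T v) h0
    change p v - s v = 0 at this
    rw [hsv, sub_zero] at this
    exact hpv this
  have hqM : p - s ∈ M := sub_mem hp hsM
  have hqp : IsStarProjection (p - s) := by
    refine ⟨?_, ?_⟩
    · rw [IsIdempotentElem, mul_sub, sub_mul, sub_mul, hpp.isIdempotentElem.eq,
        hsp.isIdempotentElem.eq, hps, hsp']
      abel
    · rw [IsSelfAdjoint, star_sub, Family_star_proj hsp, Family_star_proj hpp]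
  obtain ⟨e, heM, hep, he0, heq, hed⟩ := exists_dom hθ hqM hqp hq0
  have hep' : e * p = e := by
    rw [← heq, mul_assoc, sub_mul, hpp.isIdempotentElem.eq, hsp']
  have hee' : ∀ e' ∈ S, e * e' = 0 := by
    intro e' he'
    have h2 : p * e' = e' := Family_mul_comm_of_le (hSF.1 e' he').2.1 hpp (hSF.1 e' he').2.2.2.1
    rw [← heq, mul_assoc, sub_mul, h2, hse e' he', sub_self, mul_zero]
  have hin : insert e S ∈ F := by
    refine ⟨?_, ?_⟩
    · rintro e' (rfl | he')
      · exact ⟨heM, hep, he0, hep', hed⟩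
      · exact hSF.1 e' he'
    · rintro a (rfl | ha) b (rfl | hb) hne
      · exact absurd rfl hne
      · exact hee' b hb
      · have := congrArg star (hee' a ha)
        rwa [star_mul, star_zero, Family_star_proj hep, Family_star_proj (hSF.1 a ha).2.1] at this
      · exact hSF.2 a ha b hb hne
  have heS : e ∈ S := hS.le_of_ge hin (Set.subset_insert e S) (Set.mem_insert e S)
  have := hee' e heS
  rw [hep.isIdempotentElem.eq] at this
  exact he0 this

/-- the sum of a finite subfamily -/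
private noncomputable def Family_sum {S : Set (H →L[ℂ] H)} (G : Finset S) : H →L[ℂ] H :=
  ∑ e ∈ G, (e : H →L[ℂ] H)

private theorem Family_sum_proj {θ : (H →L[ℂ] H) →ₗ[ℂ] ℂ} {p : H →L[ℂ] H}
    {S : Set (H →L[ℂ] H)} (hS : DomFamily M θ p S) (G : Finset S) :
    IsStarProjection (Family_sum G) := by
  classical
  refine ⟨?_, ?_⟩
  · rw [IsIdempotentElem, Family_sum, Finset.sum_mul_sum]
    refine Finset.sum_congr rfl fun e he => ?_
    rw [Finset.sum_eq_single e]
    · exact (hS.proj e e.2).isIdempotentElem.eq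
    · intro e' _ hne
      exact hS.orth e e.2 e' e'.2 fun h => hne (Subtype.ext h.symm)
    · intro h
      exact absurd he h
  · rw [IsSelfAdjoint, Family_sum, star_sum]
    exact Finset.sum_congr rfl fun e _ => Family_star_proj (hS.proj e e.2)

private theorem Family_proj_norm {e : H →L[ℂ] H} (he : IsStarProjection e) : ‖e‖ ≤ 1 := by
  have h1 : ‖e‖ * ‖e‖ = ‖e‖ := by
    have h2 := CStarRing.norm_star_mul_self (x := e)
    rw [Family_star_proj he, he.isIdempotentElem.eq] at h2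
    exact h2.symm
  by_contra h
  push Not at h
  nlinarith

private theorem Family_proj_nonneg {θ : (H →L[ℂ] H) →ₗ[ℂ] ℂ} (hθ : PosF θ) {e : H →L[ℂ] H}
    (he : IsStarProjection e) : 0 ≤ (θ e).re := by
  have := hθ.nonneg e
  rwa [Family_star_proj he, he.isIdempotentElem.eq] at this

/-- the main estimate -/
private theorem Family_est {θ : (H →L[ℂ] H) →ₗ[ℂ] ℂ} (hθ : PosF θ) {d z : H →L[ℂ] H}
    (hd : IsStarProjection d) {τ : ℝ} (hτ : 0 ≤ τ) (h : (θ d).re * (θ 1).re ≤ τ ^ 2) :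
    ‖θ (d * z)‖ ≤ τ * ‖z‖ := by
  have h1 := pos_cs hθ d z
  rw [Family_star_proj hd, hd.isIdempotentElem.eq] at h1
  have h2 : (θ (star z * z)).re ≤ (θ 1).re * ‖z‖ ^ 2 := by
    calc (θ (star z * z)).re ≤ ‖θ (star z * z)‖ := Complex.re_le_norm _
      _ ≤ (θ 1).re * ‖star z * z‖ := hθ.bdd _
      _ = (θ 1).re * ‖z‖ ^ 2 := by rw [CStarRing.norm_star_mul_self, sq]
  have h3 : ‖θ (d * z)‖ ^ 2 ≤ (τ * ‖z‖) ^ 2 := by
    calc ‖θ (d * z)‖ ^ 2 ≤ (θ d).re * (θ (star z * z)).re := h1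
      _ ≤ (θ d).re * ((θ 1).re * ‖z‖ ^ 2) :=
          mul_le_mul_of_nonneg_left h2 (Family_proj_nonneg hθ hd)
      _ = ((θ d).re * (θ 1).re) * ‖z‖ ^ 2 := by ring
      _ ≤ τ ^ 2 * ‖z‖ ^ 2 := mul_le_mul_of_nonneg_right h (by positivity)
      _ = (τ * ‖z‖) ^ 2 := by ring
  exact abs_le_of_sq_le_sq' h3 (by positivity) |>.2

private theorem Family_est' {θ : (H →L[ℂ] H) →ₗ[ℂ] ℂ} (hθ : PosF θ) {d z : H →L[ℂ] H}
    (hd : IsStarProjection d) {τ : ℝ} (hτ : 0 ≤ τ) (h : (θ d).re * (θ 1).re ≤ τ ^ 2) :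
    ‖θ (z * d)‖ ≤ τ * ‖z‖ := by
  have h1 := Family_est hθ (z := star z) hd hτ h
  have h2 : z * d = star (d * star z) := by
    rw [star_mul, star_star, Family_star_proj hd]
  rw [h2, hθ.herm, RCLike.norm_conj]
  rwa [norm_star] at h1

theorem limit_functional {θ : (H →L[ℂ] H) →ₗ[ℂ] ℂ} (hθ : PosF θ) {p : H →L[ℂ] H}
    {S : Set (H →L[ℂ] H)} (hS : DomFamily M θ p S) : ∃ ψ : (H →L[ℂ] H) →ₗ[ℂ] ℂ, IsLim θ S ψ := by
  classical
  obtain ⟨c, hc⟩ : ∃ c : ℝ, c = (θ 1).re := ⟨_, rfl⟩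
  have hc0 : 0 ≤ c := by
    rw [hc]
    exact Family_proj_nonneg hθ (IsStarProjection.one _)
  have hproj := fun G : Finset S => Family_sum_proj hS G
  -- the functionals `y ↦ θ (e_G y e_G)`
  let D₀ : Finset S → (H →L[ℂ] H) →ₗ[ℂ] ℂ := fun G =>
    { toFun := fun y => θ (Family_sum G * y * Family_sum G)
      map_add' := fun y z => by rw [mul_add, add_mul, map_add]
      map_smul' := fun a y => by
        rw [mul_smul_comm, smul_mul_assoc, map_smul, RingHom.id_apply] }
  have hD₀ : ∀ G y, ‖D₀ G y‖ ≤ c * ‖y‖ := by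
    intro G y
    calc ‖D₀ G y‖ ≤ (θ 1).re * ‖Family_sum G * y * Family_sum G‖ := hθ.bdd _
      _ ≤ (θ 1).re * ‖y‖ := by
          refine mul_le_mul_of_nonneg_left ?_ (hc ▸ hc0)
          have h1 := Family_proj_norm (hproj G)
          calc ‖Family_sum G * y * Family_sum G‖ ≤ ‖Family_sum G‖ * ‖y‖ * ‖Family_sum G‖ :=
                (norm_mul_le _ _).trans (mul_le_mul_of_nonneg_right (norm_mul_le _ _)
                  (norm_nonneg _))
            _ ≤ 1 * ‖y‖ * 1 := by gcongr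
            _ = ‖y‖ := by ring
      _ = c * ‖y‖ := by rw [hc]
  let D : Finset S → (H →L[ℂ] H) →L[ℂ] ℂ := fun G => (D₀ G).mkContinuous c (hD₀ G)
  have hDD : ∀ G y, D G y = θ (Family_sum G * y * Family_sum G) := fun G y => rfl
  -- monotonicity
  have hsub : ∀ {G G' : Finset S}, G ⊆ G' → Family_sum G' - Family_sum G = Family_sum (G' \ G) := by
    intro G G' h
    rw [Family_sum, Family_sum, Family_sum, ← Finset.sum_sdiff h, add_sub_cancel_right]
  have hmono : ∀ {G G' : Finset S}, G ⊆ G' →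
      (θ (Family_sum (G' \ G))).re = (θ (Family_sum G')).re - (θ (Family_sum G)).re := by
    intro G G' h
    rw [← hsub h, map_sub, Complex.sub_re]
  have hle : ∀ G : Finset S, (θ (Family_sum G)).re ≤ c := by
    intro G
    have h1 := Family_proj_nonneg hθ (hproj G).one_sub
    rw [map_sub, Complex.sub_re, ← hc] at h1
    linarith
  -- nearly maximal finite sets
  have hG : ∀ δ : ℝ, 0 < δ → ∃ G₀ : Finset S, ∀ G, G₀ ⊆ G →
      (θ (Family_sum (G \ G₀))).re ≤ δ := by
    intro δ hδ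
    have hbdd : BddAbove (Set.range fun G : Finset S => (θ (Family_sum G)).re) :=
      ⟨c, by rintro _ ⟨G, rfl⟩; exact hle G⟩
    obtain ⟨_, ⟨G₀, rfl⟩, hG₀⟩ := exists_lt_of_lt_csSup
      (Set.range_nonempty fun G : Finset S => (θ (Family_sum G)).re)
      (sub_lt_self (sSup (Set.range fun G : Finset S => (θ (Family_sum G)).re)) hδ)
    refine ⟨G₀, fun G h => ?_⟩
    have h1 : (θ (Family_sum G)).re ≤ sSup (Set.range fun G : Finset S => (θ (Family_sum G)).re) :=
      le_csSup hbdd ⟨G, rfl⟩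
    rw [hmono h]
    simp only at hG₀
    linarith
  have hdiff : ∀ τ : ℝ, 0 < τ → ∃ G₀ : Finset S, (∀ G, G₀ ⊆ G →
      (θ (Family_sum G)).re ≤ (θ (Family_sum G₀)).re + τ) ∧
      ∀ G, G₀ ⊆ G → ‖D G - D G₀‖ ≤ τ := by
    intro τ hτ
    obtain ⟨δ, hδ0, hδτ, hδ⟩ : ∃ δ : ℝ, 0 < δ ∧ δ ≤ τ ∧ δ * c ≤ (τ / 2) ^ 2 := by
      refine ⟨min τ ((τ / 2) ^ 2 / (c + 1)), by positivity, min_le_left _ _, ?_⟩
      calc min τ ((τ / 2) ^ 2 / (c + 1)) * c ≤ ((τ / 2) ^ 2 / (c + 1)) * c :=
            mul_le_mul_of_nonneg_right (min_le_right _ _) hc0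
        _ ≤ ((τ / 2) ^ 2 / (c + 1)) * (c + 1) := by
            apply mul_le_mul_of_nonneg_left (by linarith)
            positivity
        _ = (τ / 2) ^ 2 := by field_simp
    obtain ⟨G₀, hG₀⟩ := hG δ hδ0
    refine ⟨G₀, fun G h => ?_, fun G h => ?_⟩
    · have := hG₀ G h
      rw [hmono h] at this
      linarith
    · refine ContinuousLinearMap.opNorm_le_bound _ hτ.le fun y => ?_
      rw [sub_apply, hDD, hDD]
      have hd := hproj (G \ G₀)
      have hdτ : (θ (Family_sum (G \ G₀))).re * (θ 1).re ≤ (τ / 2) ^ 2 := by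
        rw [← hc]
        exact (mul_le_mul_of_nonneg_right (hG₀ G h) hc0).trans hδ
      have e1 : Family_sum G * y * Family_sum G - Family_sum G₀ * y * Family_sum G₀ =
          Family_sum (G \ G₀) * (y * Family_sum G) + (Family_sum G₀ * y) * Family_sum (G \ G₀) := by
        rw [← hsub h]
        simp only [sub_mul, mul_sub, mul_assoc]
        abel
      rw [← map_sub, e1, map_add]
      have h1 := Family_est hθ (z := y * Family_sum G) hd (by positivity) hdτ
      have h2 := Family_est' hθ (z := Family_sum G₀ * y) hd (by positivity) hdτ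
      have h3 : ‖y * Family_sum G‖ ≤ ‖y‖ := by
        calc ‖y * Family_sum G‖ ≤ ‖y‖ * ‖Family_sum G‖ := norm_mul_le _ _
          _ ≤ ‖y‖ * 1 := mul_le_mul_of_nonneg_left (Family_proj_norm (hproj G)) (norm_nonneg _)
          _ = ‖y‖ := mul_one _
      have h4 : ‖Family_sum G₀ * y‖ ≤ ‖y‖ := by
        calc ‖Family_sum G₀ * y‖ ≤ ‖Family_sum G₀‖ * ‖y‖ := norm_mul_le _ _
          _ ≤ 1 * ‖y‖ := mul_le_mul_of_nonneg_right (Family_proj_norm (hproj G₀)) (norm_nonneg _)
          _ = ‖y‖ := one_mul _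
      calc ‖θ (Family_sum (G \ G₀) * (y * Family_sum G)) +
            θ (Family_sum G₀ * y * Family_sum (G \ G₀))‖
          ≤ ‖θ (Family_sum (G \ G₀) * (y * Family_sum G))‖ +
            ‖θ (Family_sum G₀ * y * Family_sum (G \ G₀))‖ := norm_add_le _ _
        _ ≤ τ / 2 * ‖y‖ + τ / 2 * ‖y‖ := by
            refine add_le_add (h1.trans ?_) (h2.trans ?_)
            · exact mul_le_mul_of_nonneg_left h3 (by positivity)
            · exact mul_le_mul_of_nonneg_left h4 (by positivity)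
        _ = τ * ‖y‖ := by ring
  -- the net is Cauchy
  have hcau : CauchySeq D := by
    rw [Metric.cauchySeq_iff']
    intro ε hε
    obtain ⟨G₀, -, h⟩ := hdiff (ε / 2) (by positivity)
    refine ⟨G₀, fun G hGG => ?_⟩
    rw [dist_eq_norm]
    have := h G hGG
    linarith
  obtain ⟨ψ, hψ⟩ := cauchySeq_tendsto_of_complete hcau
  refine ⟨(ψ : (H →L[ℂ] H) →ₗ[ℂ] ℂ), fun τ hτ => ?_⟩
  obtain ⟨G₀, h1, h2⟩ := hdiff (τ / 2) (by positivity)
  have h3 : ∀ G, G₀ ⊆ G → ‖D G - ψ‖ ≤ τ := by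
    intro G hGG
    have h4 : ‖D G₀ - ψ‖ ≤ τ / 2 := by
      have h5 : Tendsto (fun G => ‖D G₀ - D G‖) atTop (𝓝 ‖D G₀ - ψ‖) :=
        (tendsto_const_nhds.sub hψ).norm
      refine le_of_tendsto h5 ?_
      filter_upwards [eventually_ge_atTop G₀] with G' hG'
      rw [norm_sub_rev]
      exact h2 G' hG'
    calc ‖D G - ψ‖ = ‖(D G - D G₀) + (D G₀ - ψ)‖ := by rw [sub_add_sub_cancel]
      _ ≤ ‖D G - D G₀‖ + ‖D G₀ - ψ‖ := norm_add_le _ _
      _ ≤ τ / 2 + τ / 2 := add_le_add (h2 G hGG) h4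
      _ = τ := by ring
  refine ⟨G₀.map (Function.Embedding.subtype _), ?_, fun G hGS hGG => ?_⟩
  · intro e he
    simp only [Finset.coe_map, Function.Embedding.coe_subtype, Set.mem_image, Finset.mem_coe] at he
    obtain ⟨x, -, rfl⟩ := he
    exact x.2
  · obtain ⟨G, rfl⟩ : ∃ G' : Finset S, G = G'.map (Function.Embedding.subtype _) := by
      lift G to Finset S using hGS
      exact ⟨G, by rw [Finset.map_eq_image]; rfl⟩
    rw [Finset.map_subset_map] at hGG
    have e1 : ∀ G : Finset S, ∑ e ∈ G.map (Function.Embedding.subtype _), e = Family_sum G := by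
      intro G
      rw [Finset.sum_map, Family_sum]
      rfl
    rw [e1, e1]
    refine ⟨(h1 G hGG).trans (by linarith), fun y => ?_⟩
    have h6 := (D G - ψ).le_opNorm y
    rw [sub_apply, hDD] at h6
    exact h6.trans (mul_le_mul_of_nonneg_right (h3 G hGG) (norm_nonneg _))

end Vale.Agent.P078
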