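import Vale.Agent.Lib.P078G.Cut

/-!
# P078G Kernel: projections of the kernel of `E` close to `1`

`ker_dense`: let `K` be the closed span of all ranges of projections `e ∈ M` with `E e = 0`.
`KerTotal` says `Kᗮ = ⊥` (`v ⟂` range of `e` iff `e v = 0`), so `K = ⊤` and every `ξ ∈ F` is within
`δ / 2` of a finite sum `∑ e_j v_j`.  Take finitely many kernel projections `e_1, .., e_k` for all
`ξ ∈ F`, `y = ∑ e_j ∈ M`, `0 ≤ y`, `E y = 0`.  Let `g` be the cut of `y` at a small `c > 0`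
(`spectral_cut`), `e = 1 - g`.  From `c ‖(1 - g) ξ‖² ≤ re ⟪ξ, y ξ⟫` we get `c • (1 - g) ≤ y`, hence
`0 ≤ E (1 - g) ≤ c⁻¹ • E y = 0`.  And `‖e_j g w‖² = ⟪g w, e_j g w⟫ ≤ ⟪g w, y g w⟫ ≤ c ‖w‖²`, so
`‖g e_j‖ = ‖e_j g‖ ≤ √c` and `‖(1 - e) e_j v_j‖ = ‖g e_j v_j‖ ≤ √c ‖v_j‖` is small.
-/

namespace Vale.Agent.P078

open Filter
open scoped InnerProductSpace Topology

universe u

variable {H : Type u} [NormedAddCommGroup H] [InnerProductSpace ℂ H] [CompleteSpace H]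
  {M : VonNeumannAlgebra H} {A : StarSubalgebra ℂ (H →L[ℂ] H)}
  {U : Ultrafilter (_root_.P078.Part A)} {E : (H →L[ℂ] H) →ₗ[ℂ] (H →L[ℂ] H)}

omit [CompleteSpace H] in
/-- internal: every vector of the span of the ranges is controlled by finitely many projections -/
private theorem Kernel_span (S : Set (H →L[ℂ] H)) {u : H}
    (hu : u ∈ Submodule.span ℂ {x : H | ∃ e ∈ S, ∃ v : H, x = e v}) :
    ∃ (G : Finset (H →L[ℂ] H)) (C : ℝ), (∀ e ∈ G, e ∈ S) ∧ 0 ≤ C ∧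
      ∀ (g : H →L[ℂ] H) (κ : ℝ), 0 ≤ κ → (∀ e ∈ G, ∀ w, ‖g (e w)‖ ≤ κ * ‖w‖) →
        ‖g u‖ ≤ κ * C := by
  classical
  induction hu using Submodule.span_induction with
  | mem x hx =>
    obtain ⟨e, he, v, rfl⟩ := hx
    refine ⟨{e}, ‖v‖, ?_, norm_nonneg _, ?_⟩
    · intro e' he'
      rw [Finset.mem_singleton] at he'
      rw [he']
      exact he
    · intro g κ _ h
      exact h e (Finset.mem_singleton_self _) v
  | zero =>
    refine ⟨∅, 0, ?_, le_rfl, ?_⟩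
    · intro e he
      simp at he
    · intro g κ _ _
      simp
  | add x y _ _ hx hy =>
    obtain ⟨G1, C1, h1, h1', h1''⟩ := hx
    obtain ⟨G2, C2, h2, h2', h2''⟩ := hy
    refine ⟨G1 ∪ G2, C1 + C2, ?_, by linarith, ?_⟩
    · intro e he
      rcases Finset.mem_union.1 he with h | h
      · exact h1 e h
      · exact h2 e h
    · intro g κ hκ h
      have e1 := h1'' g κ hκ fun e he => h e (Finset.mem_union_left _ he)
      have e2 := h2'' g κ hκ fun e he => h e (Finset.mem_union_right _ he)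
      rw [map_add, mul_add]
      exact (norm_add_le _ _).trans (add_le_add e1 e2)
  | smul a x _ hx =>
    obtain ⟨G, C, h1, h2, h3⟩ := hx
    refine ⟨G, ‖a‖ * C, h1, by positivity, ?_⟩
    intro g κ hκ h
    have e1 := h3 g κ hκ h
    rw [map_smul, norm_smul]
    have := mul_le_mul_of_nonneg_left e1 (norm_nonneg a)
    linarith [mul_left_comm ‖a‖ κ C]

private theorem Kernel_inner {e : H →L[ℂ] H} (he : IsStarProjection e) (v w : H) :
    ⟪e v, w⟫_ℂ = ⟪v, e w⟫_ℂ := by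
  have h := he.isSelfAdjoint
  rw [ContinuousLinearMap.isSelfAdjoint_iff'] at h
  rw [← ContinuousLinearMap.adjoint_inner_right, h]

private theorem Kernel_inner_self {e : H →L[ℂ] H} (he : IsStarProjection e) (v : H) :
    (⟪v, e v⟫_ℂ).re = ‖e v‖ ^ 2 := by
  have h1 : e (e v) = e v := congrArg (fun T : H →L[ℂ] H => T v) he.isIdempotentElem.eq
  rw [← h1, ← Kernel_inner he, h1]
  exact inner_self_eq_norm_sq (𝕜 := ℂ) (e v)

theorem ker_dense (hE : LimExp M A U E) (hT : KerTotal M E) (F : Finset H) {δ : ℝ} (hδ : 0 < δ) :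
    ∃ e ∈ M, IsStarProjection e ∧ E e = 0 ∧ ∀ ξ ∈ F, ‖(1 - e) ξ‖ < δ := by
  classical
  set S : Set (H →L[ℂ] H) := {e | e ∈ M ∧ IsStarProjection e ∧ E e = 0} with hS
  set W : Submodule ℂ H := Submodule.span ℂ {x : H | ∃ e ∈ S, ∃ v : H, x = e v} with hW
  have hWo : Wᗮ = ⊥ := by
    rw [eq_bot_iff]
    intro v hv
    rw [Submodule.mem_bot]
    refine hT v fun e heM hep heE => ?_
    have h1 : ⟪e (e v), v⟫_ℂ = 0 := by
      refine (Submodule.mem_orthogonal _ _).1 hv _ ?_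
      exact Submodule.subset_span ⟨e, ⟨heM, hep, heE⟩, e v, rfl⟩
    have h2 : e (e v) = e v := congrArg (fun T : H →L[ℂ] H => T v) hep.isIdempotentElem.eq
    rw [Kernel_inner hep, inner_self_eq_zero] at h1
    exact h1
  have hdense : W.topologicalClosure = ⊤ := (Submodule.topologicalClosure_eq_top_iff).2 hWo
  have happ : ∀ ξ : H, ∃ u ∈ W, ‖ξ - u‖ < δ / 2 := by
    intro ξ
    have h1 : ξ ∈ closure (W : Set H) := by
      have : ξ ∈ W.topologicalClosure := by rw [hdense]; exact Submodule.mem_top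
      exact this
    obtain ⟨u, hu, hd⟩ := Metric.mem_closure_iff.1 h1 (δ / 2) (by positivity)
    exact ⟨u, hu, by rwa [dist_eq_norm] at hd⟩
  choose u huW hu using happ
  choose G C hGS hC hGC using fun ξ : H => Kernel_span S (huW ξ)
  set GG : Finset (H →L[ℂ] H) := F.biUnion G with hGG
  set CC : ℝ := ∑ ξ ∈ F, C ξ with hCC
  have hCC0 : 0 ≤ CC := Finset.sum_nonneg fun ξ _ => hC ξ
  have hGGS : ∀ e ∈ GG, e ∈ S := by
    intro e he
    obtain ⟨ξ, -, h⟩ := Finset.mem_biUnion.1 he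
    exact hGS ξ e h
  set κ : ℝ := δ / (2 * (CC + 1)) with hκ
  have hκ0 : 0 < κ := by positivity
  set y : H →L[ℂ] H := ∑ e ∈ GG, e with hy
  have hyM : y ∈ M := sum_mem fun e he => (hGGS e he).1
  have hy0 : 0 ≤ y := Finset.sum_nonneg fun e he => (hGGS e he).2.1.nonneg
  have hEy : E y = 0 := by
    rw [hy, map_sum]
    exact Finset.sum_eq_zero fun e he => (hGGS e he).2.2
  obtain ⟨g, hgM, hgp, -, hg1, hg2⟩ := spectral_cut (M := M) hyM hy0
    (c := κ ^ 2) (by positivity)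
  have hge : ∀ e ∈ GG, ∀ w, ‖g (e w)‖ ≤ κ * ‖w‖ := by
    intro e he
    have hep := (hGGS e he).2.1
    have h1 : ∀ w, ‖e (g w)‖ ≤ κ * ‖w‖ := by
      intro w
      have h2 : ‖e (g w)‖ ^ 2 ≤ (⟪g w, y (g w)⟫_ℂ).re := by
        rw [← Kernel_inner_self hep]
        have h3 : ⟪g w, y (g w)⟫_ℂ = ∑ e' ∈ GG, ⟪g w, e' (g w)⟫_ℂ := by
          rw [hy, sum_apply, inner_sum]
        rw [h3, Complex.re_sum]
        refine Finset.single_le_sum (f := fun e' : H →L[ℂ] H => (⟪g w, e' (g w)⟫_ℂ).re) ?_ he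
        intro e' he'
        rw [Kernel_inner_self (hGGS e' he').2.1]
        positivity
      have h4 : (⟪g w, y (g w)⟫_ℂ).re ≤ ‖g w‖ * (κ ^ 2 * ‖g w‖) :=
        ((Complex.re_le_norm _).trans (norm_inner_le_norm _ _)).trans
          (mul_le_mul_of_nonneg_left (hg1 w) (norm_nonneg _))
      have h5 : ‖g w‖ ≤ ‖w‖ := by
        have h6 : ‖g w‖ ^ 2 ≤ ‖g w‖ * ‖w‖ := by
          rw [← Kernel_inner_self hgp]
          have h7 := (Complex.re_le_norm (⟪w, g w⟫_ℂ)).trans (norm_inner_le_norm w (g w))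
          linarith [mul_comm ‖w‖ ‖g w‖]
        by_contra hlt
        push Not at hlt
        nlinarith [norm_nonneg w, norm_nonneg (g w)]
      have h8 : ‖e (g w)‖ ^ 2 ≤ (κ * ‖w‖) ^ 2 := by
        have h9 : ‖g w‖ ^ 2 ≤ ‖w‖ ^ 2 := pow_le_pow_left₀ (norm_nonneg _) h5 2
        nlinarith [sq_nonneg κ]
      exact abs_le_of_sq_le_sq' h8 (by positivity) |>.2
    have h2 : ‖e * g‖ ≤ κ := ContinuousLinearMap.opNorm_le_bound _ hκ0.le h1
    have h3 : ‖g * e‖ ≤ κ := by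
      have h4 : star (e * g) = g * e := by
        rw [star_mul, hgp.isSelfAdjoint.star_eq, hep.isSelfAdjoint.star_eq]
      rw [← h4, norm_star]
      exact h2
    intro w
    exact ((g * e).le_opNorm w).trans (mul_le_mul_of_nonneg_right h3 (norm_nonneg _))
  refine ⟨1 - g, sub_mem (one_mem M) hgM, hgp.one_sub, ?_, ?_⟩
  · have hle : 0 ≤ y - ((κ ^ 2 : ℝ) : ℂ) • (1 - g) := by
      rw [ContinuousLinearMap.nonneg_iff_isPositive, ContinuousLinearMap.isPositive_iff_complex]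
      intro ξ
      have hyp : y.IsPositive := (ContinuousLinearMap.nonneg_iff_isPositive y).1 hy0
      have e1 : ⟪(y - ((κ ^ 2 : ℝ) : ℂ) • (1 - g)) ξ, ξ⟫_ℂ =
          ⟪y ξ, ξ⟫_ℂ - ((κ ^ 2 * ‖(1 - g) ξ‖ ^ 2 : ℝ) : ℂ) := by
        rw [sub_apply, inner_sub_left, smul_apply,
          inner_smul_left, Complex.conj_ofReal]
        have h1 : (1 - g) ((1 - g) ξ) = (1 - g) ξ :=
          congrArg (fun T : H →L[ℂ] H => T ξ) hgp.one_sub.isIdempotentElem.eq
        have h2 : ⟪(1 - g) ξ, ξ⟫_ℂ = ((‖(1 - g) ξ‖ ^ 2 : ℝ) : ℂ) := by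
          have h3 : ⟪(1 - g) ξ, ξ⟫_ℂ = ⟪(1 - g) ξ, (1 - g) ξ⟫_ℂ := by
            rw [← Kernel_inner hgp.one_sub, h1]
          rw [h3, inner_self_eq_norm_sq_to_K]
          push_cast
          rfl
        rw [h2]
        push_cast
        ring
      have hreal := (ContinuousLinearMap.isPositive_iff_complex y).1 hyp ξ
      rw [e1]
      have e2 : (RCLike.re ⟪y ξ, ξ⟫_ℂ) = (⟪y ξ, ξ⟫_ℂ).re := rfl
      have e3 : (⟪y ξ, ξ⟫_ℂ).re = (⟪ξ, y ξ⟫_ℂ).re := by
        rw [← inner_conj_symm, Complex.conj_re]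
      have h5 := hg2 ξ
      have h6 : ((⟪y ξ, ξ⟫_ℂ).re : ℂ) = ⟪y ξ, ξ⟫_ℂ := hreal.1
      refine ⟨?_, ?_⟩
      · rw [← h6, ← Complex.ofReal_sub]
        exact congrArg _ (Complex.ofReal_re _)
      · change 0 ≤ (⟪y ξ, ξ⟫_ℂ - ((κ ^ 2 * ‖(1 - g) ξ‖ ^ 2 : ℝ) : ℂ)).re
        rw [Complex.sub_re, Complex.ofReal_re]
        linarith
    have h1 := hE.nonneg _ hle
    rw [map_sub, map_smul, hEy, zero_sub] at h1
    have h2 := hE.nonneg _ hgp.one_sub.nonneg
    have h3 : ((κ ^ 2 : ℝ) : ℂ) • E (1 - g) ≤ 0 := by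
      exact neg_nonneg.1 h1
    have h4 : (0 : H →L[ℂ] H) ≤ ((κ ^ 2 : ℝ) : ℂ) • E (1 - g) := by
      have h5 : (0 : H →L[ℂ] H) ≤ (κ ^ 2 : ℝ) • E (1 - g) := smul_nonneg (by positivity) h2
      have h6 : ((κ ^ 2 : ℝ) : ℂ) • E (1 - g) = (κ ^ 2 : ℝ) • E (1 - g) :=
        Complex.coe_smul _ _
      rw [h6]
      exact h5
    have h5 := le_antisymm h3 h4
    rcases smul_eq_zero.1 h5 with h | h
    · exfalso
      have : (κ ^ 2 : ℝ) = 0 := by exact_mod_cast h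
      have h7 : 0 < κ ^ 2 := by positivity
      linarith
    · exact h
  · intro ξ hξ
    rw [sub_sub_cancel]
    have h1 : ‖g (u ξ)‖ ≤ κ * C ξ := hGC ξ g κ hκ0.le fun e he =>
      hge e (Finset.mem_biUnion.2 ⟨ξ, hξ, he⟩)
    have h2 : C ξ ≤ CC := Finset.single_le_sum (f := C) (fun ξ _ => hC ξ) hξ
    have h3 : ‖g (ξ - u ξ)‖ ≤ ‖ξ - u ξ‖ := by
      have h5 : ‖g‖ ≤ 1 := hgp.norm_le
      have h6 := g.le_opNorm (ξ - u ξ)
      have h7 := mul_le_mul_of_nonneg_right h5 (norm_nonneg (ξ - u ξ))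
      linarith
    have h4 : g ξ = g (ξ - u ξ) + g (u ξ) := by
      rw [← map_add, sub_add_cancel]
    have h5 : κ * CC ≤ δ / 2 := by
      rw [hκ, div_mul_eq_mul_div, div_le_div_iff₀ (by positivity) (by positivity)]
      nlinarith
    have h6 : κ * C ξ ≤ κ * CC := mul_le_mul_of_nonneg_left h2 hκ0.le
    have h7 := hu ξ
    rw [h4]
    have h8 := norm_add_le (g (ξ - u ξ)) (g (u ξ))
    linarith

end Vale.Agent.P078
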