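import Vale.Agent.Lib.P078G.Base

/-!
# P078G Model: random colouring of a random member of a family of partitions

`exists_model`.  `Ω = Fin K × ((Σ k : Fin K, Fin (g k).n) → Fin r)`;
`u α c = ∑ i, if α.2 ⟨α.1, i⟩ = c then (g α.1).e i else 0`.  Each `u α` is a partition in `A`
(colour classes of the partition `g α.1`).  Mean of `u α c`: `(1/r) • 1` (a colour is equal to `c`
for a fraction `1/r` of the colourings).  Mean of `∑ c, u α c * x * u α c = ∑_{i, j same colour}
g_i x g_j`: for `i ≠ j` the colours are equal for a fraction `1/r` of the colourings, so for each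
`k` the mean over the colourings is `(1/r) • x + (1 - 1/r) • (g k).pinch x` (`x = ∑_{i,j} g_i x g_j`).
-/

namespace Vale.Agent.P078

open Filter
open scoped InnerProductSpace Topology

universe u

variable {H : Type u} [NormedAddCommGroup H] [InnerProductSpace ℂ H] [CompleteSpace H]
  {A : StarSubalgebra ℂ (H →L[ℂ] H)}

/-- a colour hits a target independent of it for a fraction `1/r` of the colourings -/
private theorem model_count {W : Type} [Fintype W] [DecidableEq W] {r : ℕ} (w : W)
    (h : (W → Fin r) → Fin r) (hh : ∀ κ t, h (Function.update κ w t) = h κ) :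
    (r : ℂ) * ∑ κ : W → Fin r, (if κ w = h κ then (1 : ℂ) else 0) =
      (Fintype.card (W → Fin r) : ℂ) := by
  have h1 : ∑ p : (W → Fin r) × Fin r, (if p.2 = h p.1 then (1 : ℂ) else 0) =
      (Fintype.card (W → Fin r) : ℂ) := by
    rw [Fintype.sum_prod_type]
    simp
  have h2 : ∑ p : (W → Fin r) × Fin r, (if p.1 w = h p.1 then (1 : ℂ) else 0) =
      (r : ℂ) * ∑ κ : W → Fin r, (if κ w = h κ then (1 : ℂ) else 0) := by
    rw [Fintype.sum_prod_type_right]
    change ∑ _y : Fin r, ∑ κ : W → Fin r, (if κ w = h κ then (1 : ℂ) else 0) = _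
    rw [Finset.sum_const, Finset.card_univ, Fintype.card_fin, nsmul_eq_mul]
  rw [← h1, ← h2]
  let φ : (W → Fin r) × Fin r → (W → Fin r) × Fin r := fun p => (Function.update p.1 w p.2, p.1 w)
  have hφ : Function.Involutive φ := by
    rintro ⟨κ, t⟩
    simp [φ]
  refine Fintype.sum_equiv hφ.toPerm _ _ ?_
  rintro ⟨κ, t⟩
  change (if κ w = h κ then (1 : ℂ) else 0) = if κ w = h (Function.update κ w t) then (1 : ℂ) else 0
  rw [hh]

/-- the colour class -/
private noncomputable def cls (f : _root_.P078.Part A) {r : ℕ} (κ : Fin f.n → Fin r) (c : Fin r) :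
    H →L[ℂ] H := ∑ i, (if κ i = c then (1 : ℂ) else 0) • f.e i

private theorem cls_mul (f : _root_.P078.Part A) {r : ℕ} (κ : Fin f.n → Fin r) (c d : Fin r) :
    cls f κ c * cls f κ d = ∑ i, ((if κ i = c then (1 : ℂ) else 0) *
      (if κ i = d then (1 : ℂ) else 0)) • f.e i := by
  unfold cls
  rw [Finset.sum_mul_sum]
  refine Finset.sum_congr rfl fun i _ => ?_
  rw [Finset.sum_eq_single i]
  · rw [smul_mul_smul_comm, (f.proj i).isIdempotentElem.eq]
  · intro j _ hj
    rw [smul_mul_smul_comm, f.orth i j hj.symm, smul_zero]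
  · intro h
    exact absurd (Finset.mem_univ i) h

private theorem cls_part (f : _root_.P078.Part A) {r : ℕ} (κ : Fin f.n → Fin r) :
    IsPartition A (cls f κ) where
  mem c := by
    unfold cls
    exact sum_mem fun i _ => A.smul_mem (f.mem i) _
  proj c := by
    refine ⟨?_, ?_⟩
    · change cls f κ c * cls f κ c = cls f κ c
      rw [cls_mul]
      unfold cls
      refine Finset.sum_congr rfl fun i _ => ?_
      split_ifs <;> simp
    · change star (cls f κ c) = cls f κ c
      unfold cls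
      rw [star_sum]
      refine Finset.sum_congr rfl fun i _ => ?_
      rw [star_smul, (f.proj i).isSelfAdjoint.star_eq]
      split_ifs <;> simp
  orth c d h := by
    rw [cls_mul]
    refine Finset.sum_eq_zero fun i _ => ?_
    by_cases h1 : κ i = c
    · have h2 : κ i ≠ d := fun h2 => h (h1.symm.trans h2)
      rw [if_neg h2, mul_zero, zero_smul]
    · rw [if_neg h1, zero_mul, zero_smul]
  sum := by
    unfold cls
    rw [Finset.sum_comm]
    simp_rw [← Finset.sum_smul]
    rw [← f.sum]
    refine Finset.sum_congr rfl fun i _ => ?_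
    simp

private theorem cls_pinch (f : _root_.P078.Part A) {r : ℕ} (κ : Fin f.n → Fin r)
    (x : H →L[ℂ] H) : ∑ c, cls f κ c * x * cls f κ c =
      ∑ i, ∑ j, (if κ i = κ j then (1 : ℂ) else 0) • (f.e i * x * f.e j) := by
  have h1 : ∀ c : Fin r, cls f κ c * x * cls f κ c =
      ∑ i, ∑ j, ((if κ i = c then (1 : ℂ) else 0) * (if κ j = c then (1 : ℂ) else 0)) •
        (f.e i * x * f.e j) := by
    intro c
    unfold cls
    rw [Finset.sum_mul, Finset.sum_mul_sum]
    refine Finset.sum_congr rfl fun i _ => Finset.sum_congr rfl fun j _ => ?_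
    rw [smul_mul_assoc, smul_mul_smul_comm]
  simp_rw [h1]
  rw [Finset.sum_comm]
  refine Finset.sum_congr rfl fun i _ => ?_
  rw [Finset.sum_comm]
  refine Finset.sum_congr rfl fun j _ => ?_
  rw [← Finset.sum_smul]
  congr 1
  rw [Finset.sum_eq_single (κ i)]
  · rw [if_pos rfl, one_mul]
    by_cases h : κ i = κ j
    · rw [if_pos h.symm, if_pos h]
    · rw [if_neg (fun h' => h h'.symm), if_neg h]
  · intro c _ hc
    rw [if_neg hc.symm, zero_mul]
  · intro h
    exact absurd (Finset.mem_univ _) h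

private theorem model_one {r K : ℕ} (hr : 1 ≤ r) (g : Fin K → _root_.P078.Part A) (k : Fin K)
    (c : Fin r) :
    ∑ κ : ((k : Fin K) × Fin (g k).n) → Fin r, cls (g k) (fun i => κ ⟨k, i⟩) c =
      ((Fintype.card (((k : Fin K) × Fin (g k).n) → Fin r) : ℂ) * (1 / (r : ℂ))) •
        (1 : H →L[ℂ] H) := by
  unfold cls
  rw [Finset.sum_comm, ← (g k).sum, Finset.smul_sum]
  refine Finset.sum_congr rfl fun i _ => ?_
  rw [← Finset.sum_smul]
  congr 1
  have h := model_count (r := r) (⟨k, i⟩ : (k : Fin K) × Fin (g k).n) (fun _ => c)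
    (fun _ _ => rfl)
  have h0 : (r : ℂ) ≠ 0 := by
    have : r ≠ 0 := by omega
    exact_mod_cast this
  rw [← h]
  field_simp

private theorem model_two {r K : ℕ} (hr : 1 ≤ r) (g : Fin K → _root_.P078.Part A) (k : Fin K)
    (x : H →L[ℂ] H) :
    ∑ κ : ((k : Fin K) × Fin (g k).n) → Fin r,
      ∑ c, cls (g k) (fun i => κ ⟨k, i⟩) c * x * cls (g k) (fun i => κ ⟨k, i⟩) c =
      (Fintype.card (((k : Fin K) × Fin (g k).n) → Fin r) : ℂ) • ((1 / (r : ℂ)) • x +
        (1 - 1 / (r : ℂ)) • (g k).pinch x) := by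
  set N : ℂ := (Fintype.card (((k : Fin K) × Fin (g k).n) → Fin r) : ℂ) with hN
  have h0 : (r : ℂ) ≠ 0 := by
    have : r ≠ 0 := by omega
    exact_mod_cast this
  have hx : x = ∑ i, ∑ j, (g k).e i * x * (g k).e j := by
    have h1 : x = (∑ i, (g k).e i) * x * (∑ j, (g k).e j) := by
      rw [(g k).sum, one_mul, mul_one]
    rw [Finset.sum_mul, Finset.sum_mul_sum] at h1
    exact h1
  have hs : ∀ i j : Fin (g k).n,
      ∑ κ : ((k : Fin K) × Fin (g k).n) → Fin r,
        (if κ ⟨k, i⟩ = κ ⟨k, j⟩ then (1 : ℂ) else 0) =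
        N * (1 / (r : ℂ)) + (if i = j then N * (1 - 1 / (r : ℂ)) else 0) := by
    intro i j
    by_cases hij : i = j
    · subst hij
      simp only [if_true]
      rw [Finset.sum_const, Finset.card_univ, nsmul_eq_mul, mul_one, ← hN]
      ring
    · rw [if_neg hij, add_zero]
      have h := model_count (r := r) (⟨k, i⟩ : (k : Fin K) × Fin (g k).n)
        (fun κ => κ ⟨k, j⟩) (fun κ t => by
          refine Function.update_of_ne (fun h => hij ?_) _ _
          have := congrArg (fun p : (k : Fin K) × Fin (g k).n => (p.1, p.2.1)) h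
          simp only [Prod.mk.injEq, true_and] at this
          exact Fin.ext this.symm)
      rw [← hN] at h
      rw [← h]
      field_simp
  simp_rw [cls_pinch]
  rw [Finset.sum_comm]
  have h3 : ∀ i : Fin (g k).n, ∑ κ : ((k : Fin K) × Fin (g k).n) → Fin r,
      ∑ j, (if κ ⟨k, i⟩ = κ ⟨k, j⟩ then (1 : ℂ) else 0) • ((g k).e i * x * (g k).e j) =
      ∑ j, (N * (1 / (r : ℂ))) • ((g k).e i * x * (g k).e j) +
        (N * (1 - 1 / (r : ℂ))) • ((g k).e i * x * (g k).e i) := by
    intro i
    rw [Finset.sum_comm]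
    simp_rw [← Finset.sum_smul, hs, add_smul]
    rw [Finset.sum_add_distrib]
    congr 1
    simp_rw [ite_smul, zero_smul]
    rw [Finset.sum_ite_eq]
    simp
  simp_rw [h3]
  rw [Finset.sum_add_distrib]
  have h4 : ∑ i, ∑ j, (N * (1 / (r : ℂ))) • ((g k).e i * x * (g k).e j) =
      (N * (1 / (r : ℂ))) • x := by
    simp_rw [← Finset.smul_sum]
    rw [← hx]
  rw [h4, ← Finset.smul_sum, smul_add, smul_smul, smul_smul]
  rfl

theorem exists_model {r K : ℕ} (hr : 1 ≤ r) (hK : 0 < K) (g : Fin K → _root_.P078.Part A)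
    (x : H →L[ℂ] H) :
    ∃ (Ω : Type) (_ : Fintype Ω) (_ : Nonempty Ω) (u : Ω → Fin r → H →L[ℂ] H),
      (∀ α, IsPartition A (u α)) ∧
      (∀ c, ∑ α, u α c = ((Fintype.card Ω : ℂ) * (1 / (r : ℂ))) • 1) ∧
      ∑ α, ∑ c, u α c * x * u α c = (Fintype.card Ω : ℂ) •
        ((1 / (r : ℂ)) • x + (1 - 1 / (r : ℂ)) • ((1 / (K : ℂ)) • ∑ k, (g k).pinch x)) := by
  have hK0 : (K : ℂ) ≠ 0 := by exact_mod_cast hK.ne'
  refine ⟨Fin K × (((k : Fin K) × Fin (g k).n) → Fin r), inferInstance,
    ⟨(⟨0, hK⟩, fun _ => ⟨0, hr⟩)⟩, fun α c => cls (g α.1) (fun i => α.2 ⟨α.1, i⟩) c,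
    fun α => cls_part _ _, fun c => ?_, ?_⟩
  · rw [Fintype.sum_prod_type]
    simp only
    simp_rw [model_one hr g]
    rw [Finset.sum_const, Finset.card_univ, Fintype.card_fin, Fintype.card_prod, Fintype.card_fin,
      ← Nat.cast_smul_eq_nsmul ℂ, smul_smul]
    congr 1
    push_cast
    ring
  · rw [Fintype.sum_prod_type]
    simp only
    simp_rw [model_two hr g]
    rw [← Finset.smul_sum, Finset.sum_add_distrib, Finset.sum_const, Finset.card_univ,
      Fintype.card_fin, Fintype.card_prod, Fintype.card_fin, ← Finset.smul_sum,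
      ← Nat.cast_smul_eq_nsmul ℂ, smul_add, smul_add, smul_smul, smul_smul, smul_smul, smul_smul,
      smul_smul, smul_smul]
    congr 1
    · congr 1
      push_cast
      ring
    · congr 1
      push_cast
      field_simp

end Vale.Agent.P078
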