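import Vale.Agent.Lib.P078G.Cut

/-!
# P078G Step: step approximation of a positive element of a corner

`exists_step`: spectral partition of `z ∈ M`, `0 ≤ z`, `z * e = z`: choose levels
`0 < l_0 < .. < l_{k-1}`, `l_i = (i+1) η / 2` up to above `‖z‖`; the cuts `g_i` of `z` at `l_i`
(`spectral_cut`) commute with `z` and with each other (`g_i` commutes with `z` hence with `g_j`).
`(1 - g_i)(1 - e) = 0` because `l_i ‖(1 - g_i) ξ‖² ≤ re ⟪ξ, z ξ⟫ = 0` if `e ξ = 0` (`z (1 - e) = 0`).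
Use the projections `p_i = (products)` `(1 - g_i) * g_{i+1}` made orthogonal in the obvious way
(for instance `p_i = (1 - g_i) * ∏_{j > i} g_j`, i.e. the largest `i` with `1 - g_i`), value `l_i`.
For a vector `w` in the range of `g_j` for all `j > i` and of `1 - g_i`:  `l_i ‖w‖² ≤ re ⟪w, z w⟫`
and `‖z w‖ ≤ l_{i+1} ‖w‖`.  Or, easier: any other route to the same statement, for instance: only
the two facts actually needed by `Dom.lean` (`domination from projections`): for a bounded positive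
functional `θ` and a vector functional `φ` with `θ(p) ≤ φ(p)` for all projections `p ∈ M`,
`p * e = p`, one has `θ(z) ≤ φ(z)`.
(Compare `exists_step_approx` in `Lib/P078S/Spectral.lean`, which does this for `z ∈ A`.)
-/

namespace Vale.Agent.P078

open Filter
open scoped InnerProductSpace Topology

universe u

variable {H : Type u} [NormedAddCommGroup H] [InnerProductSpace ℂ H] [CompleteSpace H]
  {M : VonNeumannAlgebra H} {A : StarSubalgebra ℂ (H →L[ℂ] H)}

private theorem step_nonneg {T : H →L[ℂ] H} (hs : star T = T)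
    (h : ∀ ξ : H, 0 ≤ (⟪ξ, T ξ⟫_ℂ).re) : 0 ≤ T := by
  rw [ContinuousLinearMap.nonneg_iff_isPositive, ContinuousLinearMap.isPositive_def']
  refine ⟨hs, fun ξ => ?_⟩
  have h1 := h ξ
  rw [← inner_conj_symm, Complex.conj_re] at h1
  exact h1

/-- the bottom level of the partition -/
private theorem step_aux {z e g : H →L[ℂ] H} (hz : z ∈ M) (h0 : 0 ≤ z) (hze : z * e = z)
    {η : ℝ} (hη : 0 < η) (hg : g ∈ M) (hgp : IsStarProjection g)
    (hgc : z * g = g * z) (hc2 : ∀ ξ : H, η * ‖(1 - g) ξ‖ ^ 2 ≤ (⟪ξ, z ξ⟫_ℂ).re) {n : ℕ}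
    (hn : ‖z‖ ≤ ((n + 1 : ℕ) : ℝ) * η) :
    ∃ f z1 : H →L[ℂ] H, f = 1 - g ∧ f ∈ M ∧ IsStarProjection f ∧ f * e = f ∧ z1 ∈ M ∧ 0 ≤ z1 ∧
      z1 * f = z1 ∧ ‖z1‖ ≤ n * η ∧ z = z * g + ((η : ℂ) • f + z1) := by
  obtain ⟨f, hf⟩ : ∃ f : H →L[ℂ] H, f = 1 - g := ⟨_, rfl⟩
  have hfM : f ∈ M := by
    rw [hf]
    exact sub_mem (one_mem _) hg
  have hfp : IsStarProjection f := by
    rw [hf]
    exact hgp.one_sub
  have hff : f * f = f := hfp.isIdempotentElem
  have hfs : star f = f := hfp.isSelfAdjoint.star_eq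
  have hzs : star z = z := (IsSelfAdjoint.of_nonneg h0).star_eq
  have hfz : z * f = f * z := by
    rw [hf, mul_sub, sub_mul, hgc, mul_one, one_mul]
  have hfe : f * e = f := by
    have h1 : f * (1 - e) = 0 := by
      ext x
      have h2 := hc2 ((1 - e) x)
      have h3 : z ((1 - e) x) = 0 := by
        have h4 : z * (1 - e) = 0 := by rw [mul_sub, mul_one, hze, sub_self]
        exact congrArg (fun T : H →L[ℂ] H => T x) h4
      rw [h3, inner_zero_right, Complex.zero_re, ← hf] at h2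
      have h4 : ‖f ((1 - e) x)‖ ^ 2 ≤ 0 := by
        by_contra h5
        push Not at h5
        have := mul_pos hη h5
        linarith
      have h5 : ‖f ((1 - e) x)‖ = 0 := by
        have h6 := sq_nonneg ‖f ((1 - e) x)‖
        exact pow_eq_zero_iff (two_ne_zero) |>.1 (le_antisymm h4 h6)
      have h6 : f ((1 - e) x) = 0 := norm_eq_zero.1 h5
      exact h6
    rw [mul_sub, mul_one, sub_eq_zero] at h1
    exact h1.symm
  obtain ⟨z1, hz1⟩ : ∃ z1 : H →L[ℂ] H, z1 = z * f - (η : ℂ) • f := ⟨_, rfl⟩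
  have hz1M : z1 ∈ M := by
    rw [hz1]
    exact sub_mem (mul_mem hz hfM) (M.toStarSubalgebra.smul_mem hfM _)
  have hz1f : z1 * f = z1 := by
    rw [hz1, sub_mul, mul_assoc, smul_mul_assoc, hff]
  have hz1s : star z1 = z1 := by
    rw [hz1, star_sub, star_mul, star_smul, hzs, hfs, Complex.star_def, Complex.conj_ofReal, hfz]
  have hsym : ∀ v w : H, ⟪v, f w⟫_ℂ = ⟪f v, w⟫_ℂ := by
    intro v w
    rw [← ContinuousLinearMap.adjoint_inner_left, ← ContinuousLinearMap.star_eq_adjoint, hfs]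
  have hin : ∀ ξ : H, (⟪ξ, z1 ξ⟫_ℂ).re = (⟪f ξ, z (f ξ)⟫_ℂ).re - η * ‖f ξ‖ ^ 2 := by
    intro ξ
    have h1 : z1 ξ = f (z (f ξ) - (η : ℂ) • f ξ) := by
      have h2 : z1 = f * (z * f - (η : ℂ) • f) := by
        rw [mul_sub, ← mul_assoc, ← hfz, mul_assoc, hff, mul_smul_comm, hff, hz1]
      exact congrArg (fun T : H →L[ℂ] H => T ξ) h2
    rw [h1, hsym, inner_sub_right, inner_smul_right, Complex.sub_re, inner_self_eq_norm_sq_to_K,
      Complex.re_ofReal_mul]
    congr 2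
    norm_cast
  have hfn : ∀ ξ : H, ‖f ξ‖ ≤ ‖ξ‖ := by
    intro ξ
    have h1 : ‖f ξ‖ ^ 2 = (⟪ξ, f ξ⟫_ℂ).re := by
      have h2 : f ξ = f (f ξ) := (congrArg (fun T : H →L[ℂ] H => T ξ) hff).symm
      conv_rhs => rw [h2, hsym, inner_self_eq_norm_sq_to_K]
      norm_cast
    have h2 : (⟪ξ, f ξ⟫_ℂ).re ≤ ‖ξ‖ * ‖f ξ‖ := re_inner_le_norm (𝕜 := ℂ) ξ (f ξ)
    rcases (norm_nonneg (f ξ)).eq_or_lt with h3 | h3
    · rw [← h3]
      exact norm_nonneg _
    · refine le_of_mul_le_mul_right ?_ h3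
      rw [← sq, h1]
      exact h2
  have hz10 : 0 ≤ z1 := by
    refine step_nonneg hz1s fun ξ => ?_
    rw [hin]
    have h1 := hc2 (f ξ)
    have h2 : (1 - g) (f ξ) = f ξ := by
      rw [← hf]
      exact congrArg (fun T : H →L[ℂ] H => T ξ) hff
    rw [h2] at h1
    linarith
  have hn0 : (0 : ℝ) ≤ n * η := by positivity
  have hz1n : ‖z1‖ ≤ n * η := by
    refine (CStarAlgebra.norm_le_iff_le_algebraMap _ hn0 hz10).2 ?_
    rw [← sub_nonneg]
    refine step_nonneg ?_ fun ξ => ?_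
    · rw [star_sub, hz1s, Algebra.algebraMap_eq_smul_one, star_smul, star_one, star_trivial]
    · have h1 : ((algebraMap ℝ (H →L[ℂ] H) (n * η) - z1) ξ) = ((n * η : ℝ) : ℂ) • ξ - z1 ξ := by
        rw [Algebra.algebraMap_eq_smul_one, Complex.coe_smul]
        rfl
      rw [h1, inner_sub_right, inner_smul_right, Complex.sub_re, hin,
        inner_self_eq_norm_sq_to_K]
      have h2 : (⟪f ξ, z (f ξ)⟫_ℂ).re ≤ (((n + 1 : ℕ) : ℝ) * η) * ‖f ξ‖ ^ 2 := by
        calc (⟪f ξ, z (f ξ)⟫_ℂ).re ≤ ‖f ξ‖ * ‖z (f ξ)‖ := re_inner_le_norm (𝕜 := ℂ) _ _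
          _ ≤ ‖f ξ‖ * (‖z‖ * ‖f ξ‖) :=
              mul_le_mul_of_nonneg_left (z.le_opNorm _) (norm_nonneg _)
          _ = ‖z‖ * ‖f ξ‖ ^ 2 := by ring
          _ ≤ _ := mul_le_mul_of_nonneg_right hn (sq_nonneg _)
      have h3 : ‖f ξ‖ ^ 2 ≤ ‖ξ‖ ^ 2 := pow_le_pow_left₀ (norm_nonneg _) (hfn ξ) 2
      have h4 := mul_le_mul_of_nonneg_left h3 hn0
      have h5 : (((n * η : ℝ) : ℂ) * ((‖ξ‖ : ℂ)) ^ 2).re = n * η * ‖ξ‖ ^ 2 := by
        norm_cast
      have h6 : ((((n * η : ℝ) : ℂ)) * ((‖ξ‖ : ℝ) : ℂ) ^ 2).re -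
          ((⟪f ξ, z (f ξ)⟫_ℂ).re - η * ‖f ξ‖ ^ 2) ≥ 0 := by
        rw [h5]
        push_cast at h2
        nlinarith
      exact h6
  refine ⟨f, z1, hf, hfM, hfp, hfe, hz1M, hz10, hz1f, hz1n, ?_⟩
  rw [hz1, add_sub_cancel, hf, mul_sub, mul_one, add_sub_cancel]

/-- induction on the number of levels -/
private theorem step_ind {η : ℝ} (hη : 0 < η) : ∀ (n : ℕ) (z e : H →L[ℂ] H), z ∈ M → 0 ≤ z →
    z * e = z → ‖z‖ ≤ n * η →
    ∃ (k : ℕ) (p : Fin k → H →L[ℂ] H) (l : Fin k → ℝ), (∀ i, p i ∈ M) ∧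
      (∀ i, IsStarProjection (p i)) ∧ (∀ i, p i * e = p i) ∧ (∀ i, 0 ≤ l i) ∧
      ‖z - ∑ i, (l i : ℂ) • p i‖ ≤ η := by
  intro n
  induction n with
  | zero =>
    intro z e hz h0 hze hn
    have h1 : z = 0 := by
      rw [Nat.cast_zero, zero_mul] at hn
      exact norm_le_zero_iff.1 hn
    refine ⟨0, fun _ => 0, fun _ => 0, fun i => i.elim0, fun i => i.elim0, fun i => i.elim0,
      fun i => i.elim0, ?_⟩
    rw [h1, Finset.univ_eq_empty, Finset.sum_empty, sub_zero, norm_zero]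
    exact hη.le
  | succ n ih =>
    intro z e hz h0 hze hn
    obtain ⟨g, hg, hgp, hgt, hc1, hc2⟩ := spectral_cut hz h0 hη
    obtain ⟨f, z1, hf, hfM, hfp, hfe, hz1M, hz10, hz1f, hz1n, hzz⟩ :=
      step_aux hz h0 hze hη hg hgp (hgt z rfl) hc2 hn
    obtain ⟨k, p, l, hpM, hpp, hpe, hl, hk⟩ := ih z1 f hz1M hz10 hz1f hz1n
    refine ⟨k + 1, Fin.cons f p, Fin.cons η l, ?_, ?_, ?_, ?_, ?_⟩
    · intro i
      refine Fin.cases ?_ (fun i => ?_) i
      · exact hfM
      · exact hpM i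
    · intro i
      refine Fin.cases ?_ (fun i => ?_) i
      · exact hfp
      · exact hpp i
    · intro i
      refine Fin.cases ?_ (fun i => ?_) i
      · exact hfe
      · change p i * e = p i
        rw [← hpe i, mul_assoc, hfe]
    · intro i
      refine Fin.cases ?_ (fun i => ?_) i
      · exact hη.le
      · exact hl i
    · obtain ⟨D, hD⟩ : ∃ D : H →L[ℂ] H, D = z1 - ∑ i, (l i : ℂ) • p i := ⟨_, rfl⟩
      have h1 : z - ∑ i : Fin (k + 1), ((Fin.cons η l : Fin (k + 1) → ℝ) i : ℂ) •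
          (Fin.cons f p : Fin (k + 1) → H →L[ℂ] H) i = z * g + D := by
        rw [Fin.sum_univ_succ]
        simp only [Fin.cons_zero, Fin.cons_succ]
        rw [hD]
        conv_lhs => rw [hzz]
        abel
      rw [h1]
      rw [← hD] at hk
      have hfs : star f = f := hfp.isSelfAdjoint.star_eq
      have hDf : D * f = D := by
        rw [hD, sub_mul, hz1f, Finset.sum_mul]
        congr 1
        exact Finset.sum_congr rfl fun i _ => by rw [smul_mul_assoc, hpe]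
      have hfD : f * D = D := by
        have h2 : star D = D := by
          rw [hD, star_sub, (IsSelfAdjoint.of_nonneg hz10).star_eq, star_sum]
          congr 1
          exact Finset.sum_congr rfl fun i _ => by
            rw [star_smul, (hpp i).isSelfAdjoint.star_eq, Complex.star_def, Complex.conj_ofReal]
        have h3 := congrArg star hDf
        rwa [star_mul, h2, hfs] at h3
      have hgz : z * g = g * z := hgt z rfl
      have hgs : star g = g := hgp.isSelfAdjoint.star_eq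
      have hgg : g * g = g := hgp.isIdempotentElem
      refine ContinuousLinearMap.opNorm_le_bound _ hη.le fun ξ => ?_
      have h2 : ‖(z * g) ξ‖ ≤ η * ‖g ξ‖ := hc1 ξ
      have h3 : ‖D ξ‖ ≤ η * ‖f ξ‖ := by
        have h4 : D ξ = D (f ξ) := (congrArg (fun T : H →L[ℂ] H => T ξ) hDf).symm
        rw [h4]
        exact (D.le_opNorm _).trans (mul_le_mul_of_nonneg_right hk (norm_nonneg _))
      have hfg : f * g = 0 := by rw [hf, sub_mul, one_mul, hgg, sub_self]
      have hgf : g * f = 0 := by rw [hf, mul_sub, mul_one, hgg, sub_self]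
      have hsg : ∀ v w : H, ⟪g v, w⟫_ℂ = ⟪v, g w⟫_ℂ := by
        intro v w
        rw [← ContinuousLinearMap.adjoint_inner_right, ← ContinuousLinearMap.star_eq_adjoint, hgs]
      have h4 : ⟪(z * g) ξ, D ξ⟫_ℂ = 0 := by
        have h5 : (z * g) ξ = g (z ξ) := congrArg (fun T : H →L[ℂ] H => T ξ) hgz
        have h6 : g (D ξ) = 0 := by
          have h7 : g * D = 0 := by rw [← hfD, ← mul_assoc, hgf, zero_mul]
          exact congrArg (fun T : H →L[ℂ] H => T ξ) h7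
        rw [h5, hsg, h6, inner_zero_right]
      have h5 : ⟪g ξ, f ξ⟫_ℂ = 0 := by
        have h6 : g (f ξ) = 0 := congrArg (fun T : H →L[ℂ] H => T ξ) hgf
        rw [hsg, h6, inner_zero_right]
      have h6 : ‖(z * g + D) ξ‖ * ‖(z * g + D) ξ‖ = ‖(z * g) ξ‖ * ‖(z * g) ξ‖ + ‖D ξ‖ * ‖D ξ‖ := by
        rw [add_apply]
        exact norm_add_sq_eq_norm_sq_add_norm_sq_of_inner_eq_zero _ _ h4
      have h7 : ‖ξ‖ * ‖ξ‖ = ‖g ξ‖ * ‖g ξ‖ + ‖f ξ‖ * ‖f ξ‖ := by
        have h8 : ξ = g ξ + f ξ := by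
          rw [hf, sub_apply, one_apply_eq_self]
          abel
        conv_lhs => rw [h8]
        exact norm_add_sq_eq_norm_sq_add_norm_sq_of_inner_eq_zero _ _ h5
      have h8 := mul_self_le_mul_self (norm_nonneg _) h2
      have h9 := mul_self_le_mul_self (norm_nonneg _) h3
      refine abs_le_of_sq_le_sq' ?_ (by positivity) |>.2
      have h10 : (η * ‖ξ‖) ^ 2 = η * ‖g ξ‖ * (η * ‖g ξ‖) + η * ‖f ξ‖ * (η * ‖f ξ‖) := by
        calc (η * ‖ξ‖) ^ 2 = η ^ 2 * (‖ξ‖ * ‖ξ‖) := by ring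
          _ = _ := by
            rw [h7]
            ring
      rw [h10, sq, h6]
      exact add_le_add h8 h9

theorem exists_step {z e : H →L[ℂ] H} (hz : z ∈ M) (h0 : 0 ≤ z) (he : e ∈ M)
    (hp : IsStarProjection e) (hze : z * e = z) {η : ℝ} (hη : 0 < η) :
    ∃ (n : ℕ) (p : Fin n → H →L[ℂ] H) (l : Fin n → ℝ), (∀ i, p i ∈ M) ∧
      (∀ i, IsStarProjection (p i)) ∧ (∀ i, p i * e = p i) ∧ (∀ i, 0 ≤ l i) ∧
      ‖z - ∑ i, (l i : ℂ) • p i‖ ≤ η := by
  obtain ⟨n, hn⟩ := exists_nat_gt (‖z‖ / η)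
  rw [div_lt_iff₀ hη] at hn
  exact step_ind hη n z e hz h0 hze hn.le

end Vale.Agent.P078
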