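import Vale.Agent.Lib.P078G.Family

/-!
# P078G Unique: the limit functional does not depend on the family

`lim_unique`: write `e_G = ∑_{e ∈ G} e` for finite `G ⊆ S`, `e'_{G'}` for finite `G' ⊆ S'`.
(1) For fixed `G'` with `e' = e'_{G'}`: `θ(e' (1 - e_G) e') → 0` along finite `G ⊆ S`.  Indeed
`|θ(c z d)|` for `c, d ∈ G'`, `z = 1 - e_G ∈ M`: `|θ(c z d)|² ≤ θ(c z z⋆ c)^{..}`; simply
`θ(d z d) = θ(star (z d) (z d)) ≤ ‖z (d ζ_d)‖²` (`Dom`, `z` is a projection) and `e' z e'` is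
`≤ |G'| ∑_{d ∈ G'} d z d` (or use Cauchy-Schwarz for the seminorm `y ↦ θ(y⋆ y)^{1/2}`, which satisfies
the triangle inequality: `θ(e' z e')^{1/2} = ‖z e'‖_θ ≤ ∑_{d ∈ G'} ‖z d‖_θ`), and
`‖(1 - e_G) (d ζ_d)‖ → 0` because `d ζ_d = d p ζ_d` lies in the range of `p`, the closed span of the
ranges of the `e ∈ S` (`DomFamily.total`).
(2) Hence for `G₀', G'` and `G` large: `‖e_G - e'_{G'}‖_θ² = θ(e_G) + θ(e'_{G'}) - 2 re θ(e_G e'_{G'})`
is small: with `ψ(1) = sup θ(e_G)`, `ψ'(1) = sup θ(e'_{G'})` (`IsLim`, `y = 1`):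
`re θ(e_G e'_{G'}) ≈ re θ(e_G e'_{G₀'}) → θ(e'_{G₀'}) ≈ ψ'(1)`, and symmetrically `≈ ψ(1)`; the errors
are at most `(θ 1)^{1/2} θ(e'_{G' \ G₀'})^{1/2}`.  So `ψ(1) = ψ'(1)` and `‖e_G - e'_{G'}‖_θ → 0`.
(3) `|θ(e_G y e_G) - θ(e'_{G'} y e'_{G'})| ≤ 2 ‖e_G - e'_{G'}‖_θ (θ 1)^{1/2} ‖y‖`.
-/

namespace Vale.Agent.P078

open Filter
open scoped InnerProductSpace Topology

universe u

variable {H : Type u} [NormedAddCommGroup H] [InnerProductSpace ℂ H] [CompleteSpace H]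
  {M : VonNeumannAlgebra H} {A : StarSubalgebra ℂ (H →L[ℂ] H)}

/-- the seminorm of `θ` -/
private noncomputable def nn (θ : (H →L[ℂ] H) →ₗ[ℂ] ℂ) (a : H →L[ℂ] H) : ℝ :=
  √(θ (star a * a)).re

private theorem nn_nonneg (θ : (H →L[ℂ] H) →ₗ[ℂ] ℂ) (a : H →L[ℂ] H) : 0 ≤ nn θ a :=
  Real.sqrt_nonneg _

private theorem nn_sq {θ : (H →L[ℂ] H) →ₗ[ℂ] ℂ} (hθ : PosF θ) (a : H →L[ℂ] H) :
    nn θ a ^ 2 = (θ (star a * a)).re := Real.sq_sqrt (hθ.nonneg a)

private theorem cs {θ : (H →L[ℂ] H) →ₗ[ℂ] ℂ} (hθ : PosF θ) (a b : H →L[ℂ] H) :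
    ‖θ (star a * b)‖ ≤ nn θ a * nn θ b := by
  have h := pos_cs hθ a b
  rw [← nn_sq hθ, ← nn_sq hθ, ← mul_pow] at h
  exact le_of_sq_le_sq h (mul_nonneg (nn_nonneg _ _) (nn_nonneg _ _))

private theorem nn_sq_add {θ : (H →L[ℂ] H) →ₗ[ℂ] ℂ} (hθ : PosF θ) (a b : H →L[ℂ] H) :
    nn θ (a + b) ^ 2 = nn θ a ^ 2 + nn θ b ^ 2 + 2 * (θ (star a * b)).re := by
  rw [nn_sq hθ, nn_sq hθ, nn_sq hθ]
  have h1 : θ (star b * a) = (starRingEnd ℂ) (θ (star a * b)) := by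
    rw [← hθ.herm, star_mul, star_star]
  have h2 : star (a + b) * (a + b) = star a * a + star b * b + star a * b + star b * a := by
    rw [star_add, add_mul, mul_add, mul_add]
    abel
  rw [h2, map_add, map_add, map_add, h1, Complex.add_re, Complex.add_re, Complex.add_re,
    Complex.conj_re]
  ring

private theorem nn_add {θ : (H →L[ℂ] H) →ₗ[ℂ] ℂ} (hθ : PosF θ) (a b : H →L[ℂ] H) :
    nn θ (a + b) ≤ nn θ a + nn θ b := by
  have h1 := nn_sq_add hθ a b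
  have h2 : (θ (star a * b)).re ≤ nn θ a * nn θ b :=
    (Complex.re_le_norm _).trans (cs hθ a b)
  refine le_of_sq_le_sq ?_ (add_nonneg (nn_nonneg _ _) (nn_nonneg _ _))
  rw [h1]
  nlinarith

private theorem nn_zero {θ : (H →L[ℂ] H) →ₗ[ℂ] ℂ} : nn θ 0 = 0 := by
  unfold nn
  rw [mul_zero, map_zero, Complex.zero_re, Real.sqrt_zero]

/-- `nn θ a ≤ (θ 1)^{1/2} ‖a‖` -/
private theorem nn_le {θ : (H →L[ℂ] H) →ₗ[ℂ] ℂ} (hθ : PosF θ) (a : H →L[ℂ] H) :
    nn θ a ≤ √(θ 1).re * ‖a‖ := by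
  have h0 : 0 ≤ (θ 1).re := by
    have := hθ.nonneg 1
    rwa [star_one, one_mul] at this
  refine le_of_sq_le_sq ?_ (mul_nonneg (Real.sqrt_nonneg _) (norm_nonneg _))
  rw [nn_sq hθ, mul_pow, Real.sq_sqrt h0]
  calc (θ (star a * a)).re ≤ ‖θ (star a * a)‖ := Complex.re_le_norm _
    _ ≤ (θ 1).re * ‖star a * a‖ := hθ.bdd _
    _ = (θ 1).re * ‖a‖ ^ 2 := by rw [CStarRing.norm_star_mul_self, sq]

section Sums

variable {θ : (H →L[ℂ] H) →ₗ[ℂ] ℂ} {p : H →L[ℂ] H} {S : Set (H →L[ℂ] H)}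

private theorem sum_mul_mem (hS : DomFamily M θ p S) {G : Finset (H →L[ℂ] H)}
    (hG : (G : Set (H →L[ℂ] H)) ⊆ S) {e : H →L[ℂ] H} (he : e ∈ G) : (∑ e ∈ G, e) * e = e := by
  rw [Finset.sum_mul, Finset.sum_eq_single e]
  · exact (hS.proj e (hG he)).isIdempotentElem
  · intro b hb hbe
    exact hS.orth b (hG hb) e (hG he) hbe
  · intro h
    exact absurd he h

private theorem sum_mul_sum (hS : DomFamily M θ p S) {G G₂ : Finset (H →L[ℂ] H)}
    (hG : (G : Set (H →L[ℂ] H)) ⊆ S) (h : G₂ ⊆ G) :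
    (∑ e ∈ G, e) * (∑ e ∈ G₂, e) = ∑ e ∈ G₂, e := by
  rw [Finset.mul_sum]
  exact Finset.sum_congr rfl fun e he => sum_mul_mem hS hG (h he)

private theorem star_sum' (hS : DomFamily M θ p S) {G : Finset (H →L[ℂ] H)}
    (hG : (G : Set (H →L[ℂ] H)) ⊆ S) : star (∑ e ∈ G, e) = ∑ e ∈ G, e := by
  rw [star_sum]
  exact Finset.sum_congr rfl fun e he => (hS.proj e (hG he)).isSelfAdjoint

private theorem sum_mul_sum' (hS : DomFamily M θ p S) {G G₂ : Finset (H →L[ℂ] H)}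
    (hG : (G : Set (H →L[ℂ] H)) ⊆ S) (h : G₂ ⊆ G) :
    (∑ e ∈ G₂, e) * (∑ e ∈ G, e) = ∑ e ∈ G₂, e := by
  have h1 := congrArg star (sum_mul_sum hS hG h)
  rwa [star_mul, star_sum' hS hG, star_sum' hS (fun x hx => hG (h hx))] at h1

private theorem sum_proj (hS : DomFamily M θ p S) {G : Finset (H →L[ℂ] H)}
    (hG : (G : Set (H →L[ℂ] H)) ⊆ S) : IsStarProjection (∑ e ∈ G, e) :=
  ⟨sum_mul_sum hS hG (Finset.Subset.refl _), star_sum' hS hG⟩

private theorem norm_proj_le {q : H →L[ℂ] H} (hq : IsStarProjection q) : ‖q‖ ≤ 1 := by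
  have h1 : ‖q‖ * ‖q‖ = ‖q‖ := by
    rw [← CStarRing.norm_star_mul_self]
    rw [hq.isSelfAdjoint.star_eq, hq.isIdempotentElem.eq]
  nlinarith [norm_nonneg q, sq_nonneg (‖q‖ - 1)]

/-- vectors of the range of `p` are approximated -/
private theorem approx (hpp : IsStarProjection p) (hS : DomFamily M θ p S) {v : H} (hv : p v = v)
    {η : ℝ} (hη : 0 < η) : ∃ G₁ : Finset (H →L[ℂ] H), (G₁ : Set (H →L[ℂ] H)) ⊆ S ∧
      ∀ G : Finset (H →L[ℂ] H), (G : Set (H →L[ℂ] H)) ⊆ S → G₁ ⊆ G →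
        ‖(1 - ∑ e ∈ G, e) v‖ ≤ η := by
  classical
  set K : Submodule ℂ H := Submodule.span ℂ {u : H | ∃ e ∈ S, ∃ x, u = e x} with hK
  have hsa : ∀ e ∈ S, ∀ x w : H, ⟪e x, w⟫_ℂ = ⟪x, e w⟫_ℂ := by
    intro e he x w
    have h1 : ContinuousLinearMap.adjoint e = e := (hS.proj e he).isSelfAdjoint
    rw [← ContinuousLinearMap.adjoint_inner_right, h1]
  have hpa : ∀ x w : H, ⟪p x, w⟫_ℂ = ⟪x, p w⟫_ℂ := by
    intro x w
    have h1 : ContinuousLinearMap.adjoint p = p := hpp.isSelfAdjoint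
    rw [← ContinuousLinearMap.adjoint_inner_right, h1]
  have h1 : v ∈ K.topologicalClosure := by
    rw [← Submodule.orthogonal_orthogonal_eq_closure, Submodule.mem_orthogonal]
    intro w hw
    have h2 : p w = 0 := hS.total w fun e he => by
      refine ext_inner_left ℂ fun x => ?_
      rw [inner_zero_right, ← hsa e he]
      exact (Submodule.mem_orthogonal _ _).1 hw _ (Submodule.subset_span ⟨e, he, x, rfl⟩)
    rw [← hv, ← hpa, h2, inner_zero_left]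
  have h3 : v ∈ closure (K : Set H) := h1
  obtain ⟨u, hu, huv⟩ := Metric.mem_closure_iff.1 h3 η hη
  have h4 : ∃ G₁ : Finset (H →L[ℂ] H), (G₁ : Set (H →L[ℂ] H)) ⊆ S ∧
      ∀ G : Finset (H →L[ℂ] H), (G : Set (H →L[ℂ] H)) ⊆ S → G₁ ⊆ G → (∑ e ∈ G, e) u = u := by
    refine Submodule.span_induction (p := fun u _ => ∃ G₁ : Finset (H →L[ℂ] H),
      (G₁ : Set (H →L[ℂ] H)) ⊆ S ∧ ∀ G : Finset (H →L[ℂ] H), (G : Set (H →L[ℂ] H)) ⊆ S →
        G₁ ⊆ G → (∑ e ∈ G, e) u = u) ?_ ?_ ?_ ?_ hu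
    · rintro x ⟨e, he, y, rfl⟩
      refine ⟨{e}, by simpa using he, fun G hG hGe => ?_⟩
      have h5 := sum_mul_mem hS hG (hGe (Finset.mem_singleton_self e))
      exact congrArg (fun T : H →L[ℂ] H => T y) h5
    · exact ⟨∅, by simp, fun G _ _ => map_zero _⟩
    · rintro x y _ _ ⟨G₁, hG₁, h₁⟩ ⟨G₂, hG₂, h₂⟩
      refine ⟨G₁ ∪ G₂, ?_, fun G hG hGG => ?_⟩
      · rw [Finset.coe_union]
        exact Set.union_subset hG₁ hG₂
      · rw [map_add, h₁ G hG (Finset.union_subset_left hGG),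
          h₂ G hG (Finset.union_subset_right hGG)]
    · rintro c x _ ⟨G₁, hG₁, h₁⟩
      exact ⟨G₁, hG₁, fun G hG hGG => by rw [map_smul, h₁ G hG hGG]⟩
  obtain ⟨G₁, hG₁, h₁⟩ := h4
  refine ⟨G₁, hG₁, fun G hG hGG => ?_⟩
  have h6 : (1 - ∑ e ∈ G, e) v = (1 - ∑ e ∈ G, e) (v - u) := by
    have h7 : (1 - ∑ e ∈ G, e) u = 0 := by
      rw [sub_apply, h₁ G hG hGG]
      exact sub_self u
    rw [map_sub, h7, sub_zero]
  rw [h6]
  have h8 : ‖(1 - ∑ e ∈ G, e : H →L[ℂ] H)‖ ≤ 1 := norm_proj_le (sum_proj hS hG).one_sub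
  calc ‖(1 - ∑ e ∈ G, e) (v - u)‖ ≤ ‖(1 - ∑ e ∈ G, e : H →L[ℂ] H)‖ * ‖v - u‖ :=
        ContinuousLinearMap.le_opNorm _ _
    _ ≤ 1 * ‖v - u‖ := mul_le_mul_of_nonneg_right h8 (norm_nonneg _)
    _ ≤ η := by rw [one_mul, ← dist_eq_norm]; exact huv.le

end Sums

/-- finite sums of a second family are absorbed -/
private theorem absorb {θ : (H →L[ℂ] H) →ₗ[ℂ] ℂ} (hθ : PosF θ) {p : H →L[ℂ] H}
    (hpp : IsStarProjection p) {S S' : Set (H →L[ℂ] H)} (hS : DomFamily M θ p S)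
    (hS' : DomFamily M θ p S') (G' : Finset (H →L[ℂ] H)) (hG' : (G' : Set (H →L[ℂ] H)) ⊆ S') :
    ∀ η : ℝ, 0 < η → ∃ G₁ : Finset (H →L[ℂ] H), (G₁ : Set (H →L[ℂ] H)) ⊆ S ∧
      ∀ G : Finset (H →L[ℂ] H), (G : Set (H →L[ℂ] H)) ⊆ S → G₁ ⊆ G →
        nn θ ((1 - ∑ e ∈ G, e) * ∑ e ∈ G', e) ≤ η := by
  classical
  induction G' using Finset.induction_on with
  | empty =>
    intro η hη
    refine ⟨∅, by simp, fun G _ _ => ?_⟩
    rw [Finset.sum_empty, mul_zero, nn_zero]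
    exact hη.le
  | insert d G' hd ih =>
    intro η hη
    rw [Finset.coe_insert] at hG'
    obtain ⟨G₁, hG₁, h₁⟩ := ih (fun x hx => hG' (Set.mem_insert_of_mem _ hx)) (η / 2) (half_pos hη)
    have hd' : d ∈ S' := hG' (Set.mem_insert _ _)
    obtain ⟨ζ, hζ⟩ := hS'.dom d hd'
    have h2 : p (d ζ) = d ζ := by
      have h3 := congrArg star (hS'.le d hd')
      rw [star_mul, hpp.isSelfAdjoint.star_eq, (hS'.proj d hd').isSelfAdjoint.star_eq] at h3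
      exact congrArg (fun T : H →L[ℂ] H => T ζ) h3
    obtain ⟨G₂, hG₂, h₂⟩ := approx hpp hS h2 (half_pos hη)
    refine ⟨G₁ ∪ G₂, ?_, fun G hG hGG => ?_⟩
    · rw [Finset.coe_union]
      exact Set.union_subset hG₁ hG₂
    rw [Finset.sum_insert hd, mul_add]
    refine (nn_add hθ _ _).trans ?_
    have h4 := h₁ G hG (Finset.union_subset_left hGG)
    have h5 := h₂ G hG (Finset.union_subset_right hGG)
    have hzM : (1 - ∑ e ∈ G, e : H →L[ℂ] H) ∈ M :=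
      sub_mem (one_mem _) (sum_mem fun e he => hS.mem e (hG he))
    have h6 : nn θ ((1 - ∑ e ∈ G, e) * d) ≤ η / 2 := by
      refine le_of_sq_le_sq ?_ (half_pos hη).le
      rw [nn_sq hθ]
      refine (hζ _ hzM).trans ?_
      exact pow_le_pow_left₀ (norm_nonneg _) h5 2
    linarith

theorem lim_unique {θ ψ ψ' : (H →L[ℂ] H) →ₗ[ℂ] ℂ} (hθ : PosF θ) {p : H →L[ℂ] H} (hp : p ∈ M)
    (hpp : IsStarProjection p) {S S' : Set (H →L[ℂ] H)} (hS : DomFamily M θ p S)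
    (hS' : DomFamily M θ p S') (hψ : IsLim θ S ψ) (hψ' : IsLim θ S' ψ') (y : H →L[ℂ] H) :
    ψ y = ψ' y := by
  classical
  set C : ℝ := √(θ 1).re with hC
  have hC0 : 0 ≤ C := Real.sqrt_nonneg _
  have key : ∀ τ : ℝ, 0 < τ →
      ‖ψ y - ψ' y‖ ≤ 2 * (τ * ‖y‖) + 2 * (√(C * (3 * √τ)) * (C * ‖y‖)) := by
    intro τ hτ
    have hs : 0 < √τ := Real.sqrt_pos.2 hτ
    obtain ⟨G₀, hG₀, h₀⟩ := hψ τ hτ
    obtain ⟨G₀', hG₀', h₀'⟩ := hψ' τ hτ
    obtain ⟨G₁, hG₁, h₁⟩ := absorb hθ hpp hS hS' G₀' hG₀' (√τ) hs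
    have hG : ((G₀ ∪ G₁ : Finset (H →L[ℂ] H)) : Set (H →L[ℂ] H)) ⊆ S := by
      rw [Finset.coe_union]
      exact Set.union_subset hG₀ hG₁
    have a1 := (h₀ _ hG Finset.subset_union_left).2 y
    have a2 := h₁ _ hG Finset.subset_union_right
    have a3 := sum_proj hS hG
    obtain ⟨G₂, hG₂, h₂⟩ := absorb hθ hpp hS' hS (G₀ ∪ G₁) hG (√τ) hs
    have hG' : ((G₀' ∪ G₂ : Finset (H →L[ℂ] H)) : Set (H →L[ℂ] H)) ⊆ S' := by
      rw [Finset.coe_union]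
      exact Set.union_subset hG₀' hG₂
    have b1 := (h₀' _ hG' Finset.subset_union_left).2 y
    have b0 := (h₀' _ hG' Finset.subset_union_left).1
    have b2 := h₂ _ hG' Finset.subset_union_right
    have b3 := sum_proj hS' hG'
    have b4 := sum_proj hS' hG₀'
    have b5 := sum_mul_sum hS' hG' (Finset.subset_union_left (s₁ := G₀') (s₂ := G₂))
    have b6 := sum_mul_sum' hS' hG' (Finset.subset_union_left (s₁ := G₀') (s₂ := G₂))
    set a : H →L[ℂ] H := ∑ e ∈ G₀ ∪ G₁, e with ha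
    set b : H →L[ℂ] H := ∑ e ∈ G₀' ∪ G₂, e with hb
    set c : H →L[ℂ] H := ∑ e ∈ G₀', e with hc
    have sa : star a = a := a3.isSelfAdjoint
    have sb : star b = b := b3.isSelfAdjoint
    have sc : star c = c := b4.isSelfAdjoint
    have ia : a * a = a := a3.isIdempotentElem
    have ib : b * b = b := b3.isIdempotentElem
    have ic : c * c = c := b4.isIdempotentElem
    have n1 : nn θ 1 ≤ C := by
      have := nn_le hθ 1
      have h1 : ‖(1 : H →L[ℂ] H)‖ ≤ 1 := ContinuousLinearMap.norm_id_le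
      calc nn θ 1 ≤ C * ‖(1 : H →L[ℂ] H)‖ := this
        _ ≤ C * 1 := mul_le_mul_of_nonneg_left h1 hC0
        _ = C := mul_one C
    have na1 : nn θ (1 - a) ≤ C := by
      calc nn θ (1 - a) ≤ C * ‖1 - a‖ := nn_le hθ _
        _ ≤ C * 1 := mul_le_mul_of_nonneg_left (norm_proj_le a3.one_sub) hC0
        _ = C := mul_one C
    -- the tail
    have t1 : nn θ (b - c) ≤ √τ := by
      refine Real.le_sqrt_of_sq_le ?_
      rw [nn_sq hθ]
      have e1 : star (b - c) * (b - c) = b - c := by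
        rw [star_sub, sb, sc, sub_mul, mul_sub, mul_sub, ib, ic, b5, b6]
        abel
      rw [e1, map_sub, Complex.sub_re]
      linarith
    have t2 : ‖θ ((1 - a) * c)‖ ≤ C * √τ := by
      have e1 := cs hθ 1 ((1 - a) * c)
      rw [star_one, one_mul] at e1
      exact e1.trans (mul_le_mul n1 a2 (nn_nonneg _ _) hC0)
    have t3 : ‖θ ((1 - a) * (b - c))‖ ≤ C * √τ := by
      have e1 := cs hθ (1 - a) (b - c)
      rw [star_sub, star_one, sa] at e1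
      exact e1.trans (mul_le_mul na1 t1 (nn_nonneg _ _) hC0)
    have t4 : ‖θ ((1 - b) * a)‖ ≤ C * √τ := by
      have e1 := cs hθ 1 ((1 - b) * a)
      rw [star_one, one_mul] at e1
      exact e1.trans (mul_le_mul n1 b2 (nn_nonneg _ _) hC0)
    have t5 : nn θ (a - b) ≤ √(C * (3 * √τ)) := by
      refine Real.le_sqrt_of_sq_le ?_
      rw [nn_sq hθ]
      have e1 : star (a - b) * (a - b) = (1 - a) * c + (1 - a) * (b - c) + (1 - b) * a := by
        rw [star_sub, sa, sb]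
        simp only [sub_mul, mul_sub, one_mul, ia, ib]
        abel
      rw [e1, map_add, map_add, Complex.add_re, Complex.add_re]
      have f2 := (Complex.re_le_norm _).trans t2
      have f3 := (Complex.re_le_norm _).trans t3
      have f4 := (Complex.re_le_norm _).trans t4
      linarith
    have t6 : ‖θ (a * y * a) - θ (b * y * b)‖ ≤ 2 * (√(C * (3 * √τ)) * (C * ‖y‖)) := by
      have e1 : a * y * a - b * y * b = star (a - b) * (y * a) + star (star y * b) * (a - b) := by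
        rw [star_sub, sa, sb, star_mul, star_star, sb]
        simp only [sub_mul, mul_sub, mul_assoc]
        abel
      rw [← map_sub, e1, map_add]
      have na : ‖a‖ ≤ 1 := norm_proj_le a3
      have nb : ‖b‖ ≤ 1 := norm_proj_le b3
      have e2 : nn θ (y * a) ≤ C * ‖y‖ := by
        refine (nn_le hθ _).trans (mul_le_mul_of_nonneg_left ?_ hC0)
        calc ‖y * a‖ ≤ ‖y‖ * ‖a‖ := norm_mul_le _ _
          _ ≤ ‖y‖ * 1 := mul_le_mul_of_nonneg_left na (norm_nonneg _)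
          _ = ‖y‖ := mul_one _
      have e3 : nn θ (star y * b) ≤ C * ‖y‖ := by
        refine (nn_le hθ _).trans (mul_le_mul_of_nonneg_left ?_ hC0)
        calc ‖star y * b‖ ≤ ‖star y‖ * ‖b‖ := norm_mul_le _ _
          _ ≤ ‖star y‖ * 1 := mul_le_mul_of_nonneg_left nb (norm_nonneg _)
          _ = ‖y‖ := by rw [mul_one, norm_star]
      have e4 := (cs hθ (a - b) (y * a)).trans
        (mul_le_mul t5 e2 (nn_nonneg _ _) (Real.sqrt_nonneg _))
      have e5 := (cs hθ (star y * b) (a - b)).trans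
        (mul_le_mul e3 t5 (nn_nonneg _ _) (mul_nonneg hC0 (norm_nonneg _)))
      refine (norm_add_le _ _).trans ?_
      linarith [mul_comm (C * ‖y‖) √(C * (3 * √τ))]
    have t7 : ψ y - ψ' y = -(θ (a * y * a) - ψ y) + (θ (b * y * b) - ψ' y) +
        (θ (a * y * a) - θ (b * y * b)) := by ring
    rw [t7]
    refine (norm_add₃_le).trans ?_
    rw [norm_neg]
    linarith
  have hlim : Tendsto (fun τ : ℝ => 2 * (τ * ‖y‖) + 2 * (√(C * (3 * √τ)) * (C * ‖y‖)))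
      (𝓝[>] 0) (𝓝 (2 * ((0 : ℝ) * ‖y‖) + 2 * (√(C * (3 * √(0 : ℝ))) * (C * ‖y‖)))) := by
    refine Tendsto.mono_left (Continuous.tendsto ?_ 0) nhdsWithin_le_nhds
    fun_prop
  have h0 : ‖ψ y - ψ' y‖ ≤ 0 := by
    have h1 := ge_of_tendsto hlim (Filter.eventually_of_mem self_mem_nhdsWithin
      fun τ hτ => key τ hτ)
    simpa using h1
  exact sub_eq_zero.1 (norm_le_zero_iff.1 h0)

end Vale.Agent.P078
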