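import Vale.Agent.Lib.P078G.Cut
import Vale.Agent.Lib.P078G.Cesaro
import Vale.Agent.Lib.P078G.Model
import Vale.Agent.Lib.P078G.Block

/-!
# P078G UpperG: assembly of the upper bound (helper14)
-/

namespace Vale.Agent.P078

open Filter
open scoped InnerProductSpace Topology

universe u

variable {H : Type u} [NormedAddCommGroup H] [InnerProductSpace ℂ H] [CompleteSpace H]
  {M : VonNeumannAlgebra H} {A : StarSubalgebra ℂ (H →L[ℂ] H)}
  {U : Ultrafilter (_root_.P078.Part A)} {E : (H →L[ℂ] H) →ₗ[ℂ] (H →L[ℂ] H)}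

theorem UpperG_proj {p : H →L[ℂ] H} (hp : IsStarProjection p) (ξ : H) : ‖p ξ‖ ≤ ‖ξ‖ := by
  calc ‖p ξ‖ ≤ ‖p‖ * ‖ξ‖ := p.le_opNorm ξ
    _ ≤ 1 * ‖ξ‖ := mul_le_mul_of_nonneg_right hp.norm_le (norm_nonneg _)
    _ = ‖ξ‖ := one_mul _

theorem UpperG_pinch_smul (f : _root_.P078.Part A) (c : ℂ) (y : H →L[ℂ] H) :
    f.pinch (c • y) = c • f.pinch y := by
  unfold _root_.P078.Part.pinch
  rw [Finset.smul_sum]
  exact Finset.sum_congr rfl fun i _ => by rw [mul_smul_comm, smul_mul_assoc]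

theorem UpperG_pinch_sum {K : ℕ} (f : _root_.P078.Part A) (y : Fin K → H →L[ℂ] H) :
    f.pinch (∑ k, y k) = ∑ k, f.pinch (y k) := by
  unfold _root_.P078.Part.pinch
  rw [Finset.sum_comm]
  exact Finset.sum_congr rfl fun i _ => by rw [Finset.mul_sum, Finset.sum_mul]

theorem UpperG_triv {r : ℕ} (hr0 : 0 < r) :
    IsPartition A (fun i : Fin r => if i = ⟨0, hr0⟩ then (1 : H →L[ℂ] H) else 0) := by
  refine ⟨?_, ?_, ?_, ?_⟩
  · intro i
    split_ifs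
    · exact A.one_mem
    · exact A.zero_mem
  · intro i
    split_ifs
    · exact IsStarProjection.one _
    · exact IsStarProjection.zero _
  · intro i j hij
    by_cases hi : i = ⟨0, hr0⟩
    · have hj : j ≠ ⟨0, hr0⟩ := fun hj => hij (hi.trans hj.symm)
      simp [hj]
    · simp [hi]
  · simp

theorem upper_gen (h : MM M A) (hE : LimExp M A U E) (hS : Spread M A) {x : H →L[ℂ] H}
    (hxM : x ∈ M) (hx : IsSelfAdjoint x) {ε : ℝ} (hε : 0 < ε) {r : ℕ} (hr : 1 / ε < r) :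
    SoPavable M A x ε r := by
  classical
  intro F δ hδ
  have hrR : (0 : ℝ) < r := lt_trans (by positivity) hr
  have hr0 : 0 < r := by exact_mod_cast hrR
  have hr1 : 1 ≤ r := hr0
  by_cases hx0 : x = 0
  · subst hx0
    refine ⟨_, 0, 1, UpperG_triv hr0, A.zero_mem, IsSelfAdjoint.zero _, by simp, one_mem M,
      IsStarProjection.one _, ?_, ?_⟩
    · intro ξ _
      simpa using hδ
    · simp
  have hX : 0 < ‖x‖ := norm_pos_iff.2 hx0
  have h1r : 1 / (r : ℝ) < ε := by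
    rw [div_lt_iff₀ hrR]
    rw [div_lt_iff₀ hε] at hr
    linarith
  have hr1' : 1 / (r : ℝ) ≤ 1 := by
    rw [div_le_one hrR]
    exact_mod_cast hr1
  have hr2 : 0 < 1 / (r : ℝ) := by positivity
  set κ : ℝ := (ε - 1 / r) * ‖x‖ with hκ
  have hκ0 : 0 < κ := mul_pos (by linarith) hX
  set S₀ : ℝ := ∑ ξ ∈ F, ‖ξ‖ ^ 2 with hSdef
  have hS0 : 0 ≤ S₀ := Finset.sum_nonneg fun _ _ => sq_nonneg _
  set τ : ℝ := κ * δ / 8 with hτ
  have hτ0 : 0 < τ := by positivity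
  set η : ℝ := τ ^ 2 / (8 * ‖x‖ ^ 2 * (S₀ + 1)) with hη
  have hη0 : 0 < η := by positivity
  obtain ⟨f, q0, hq0M, hq0, hq0F, hq0f⟩ := hS F (δ / 2) η (by positivity) hη0
  set G : Finset H := F.image q0 with hG
  have hGS : ∑ ξ ∈ G, ‖ξ‖ ^ 2 ≤ S₀ := by
    have h1 : ∑ ξ ∈ G, ‖ξ‖ ^ 2 ≤ ∑ ξ ∈ F, ‖q0 ξ‖ ^ 2 :=
      Finset.sum_image_le_of_nonneg (fun _ _ => sq_nonneg _)
    exact h1.trans (Finset.sum_le_sum fun ξ _ =>
      pow_le_pow_left₀ (norm_nonneg _) (UpperG_proj hq0 ξ) 2)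
  obtain ⟨K, g, hK, hfg, hces⟩ := exists_cesaro h hE x f G hτ0
  obtain ⟨Ω, iΩ, nΩ, u, hu, hmean, hm⟩ := exists_model hr1 hK g x
  set C : H →L[ℂ] H := (1 / (K : ℂ)) • ∑ k, (g k).pinch x with hC
  obtain ⟨p, hp, hest⟩ := exists_block h.comm hr1 f hη0.le hq0f hu hmean x _ hm G
  have hpin : f.pinch ((1 / (r : ℂ)) • x + (1 - 1 / (r : ℂ)) • C - (1 / (r : ℂ)) • x) =
      (1 - 1 / (r : ℂ)) • C := by
    rw [add_sub_cancel_left, UpperG_pinch_smul, hC, UpperG_pinch_smul, UpperG_pinch_sum]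
    congr 2
    exact Finset.sum_congr rfl fun k _ => pinch_pinch h.comm (hfg k) x
  rw [hpin] at hest
  set a : H →L[ℂ] H := E x with ha
  have haA : a ∈ A := hE.mem x hxM
  have has : IsSelfAdjoint a := by
    rw [ha, isSelfAdjoint_iff, ← hE.map_star, hx.star_eq]
  have han : ‖a‖ ≤ ‖x‖ := hE.norm_le x
  set T : H →L[ℂ] H := ∑ c, p c * x * p c with hT
  set D : H →L[ℂ] H := T - (1 / (r : ℂ)) • x - (1 - 1 / (r : ℂ)) • a with hD
  have er : (1 - 1 / (r : ℂ)) = (((1 - 1 / r : ℝ)) : ℂ) := by push_cast; ring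
  have hern : ‖(1 - 1 / (r : ℂ))‖ ≤ 1 := by
    rw [er, Complex.norm_real, Real.norm_eq_abs, abs_of_nonneg (by linarith)]
    linarith
  have hDF : ∀ ξ ∈ F, ‖q0 (D (q0 ξ))‖ ≤ 2 * τ := by
    intro ξ hξ
    have hξG : q0 ξ ∈ G := Finset.mem_image_of_mem _ hξ
    have e1 : D (q0 ξ) = (T - ((1 / (r : ℂ)) • x + (1 - 1 / (r : ℂ)) • C)) (q0 ξ) +
        (1 - 1 / (r : ℂ)) • (C - a) (q0 ξ) := by
      rw [← smul_apply, ← add_apply]
      congr 1
      rw [hD, smul_sub]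
      abel
    have h1 : ‖q0 ((T - ((1 / (r : ℂ)) • x + (1 - 1 / (r : ℂ)) • C)) (q0 ξ))‖ ≤ τ := by
      have h2 : ‖q0 ((T - ((1 / (r : ℂ)) • x + (1 - 1 / (r : ℂ)) • C)) (q0 ξ))‖ ^ 2 ≤ τ ^ 2 := by
        refine (Finset.single_le_sum (f := fun ξ' =>
          ‖q0 ((T - ((1 / (r : ℂ)) • x + (1 - 1 / (r : ℂ)) • C)) ξ')‖ ^ 2)
          (fun _ _ => sq_nonneg _) hξG).trans ?_
        refine hest.trans ?_
        calc 8 * η * ‖x‖ ^ 2 * ∑ ξ ∈ G, ‖ξ‖ ^ 2 ≤ 8 * η * ‖x‖ ^ 2 * (S₀ + 1) :=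
              mul_le_mul_of_nonneg_left (by linarith) (by positivity)
          _ = τ ^ 2 := by
              rw [hη]
              field_simp
      exact le_of_sq_le_sq h2 hτ0.le
    have h3 : ‖q0 ((1 - 1 / (r : ℂ)) • (C - a) (q0 ξ))‖ ≤ τ := by
      refine (UpperG_proj hq0 _).trans ?_
      rw [norm_smul]
      have h4 := hces (q0 ξ) hξG
      calc ‖(1 - 1 / (r : ℂ))‖ * ‖(C - a) (q0 ξ)‖ ≤ 1 * τ :=
            mul_le_mul hern h4 (norm_nonneg _) zero_le_one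
        _ = τ := one_mul _
    rw [e1, map_add]
    exact (norm_add_le _ _).trans (by linarith)
  have hTM : T ∈ M := sum_mem fun c _ =>
    mul_mem (mul_mem (h.le _ (hp.mem c)) hxM) (h.le _ (hp.mem c))
  have hDM : D ∈ M := sub_mem (sub_mem hTM (M.toStarSubalgebra.smul_mem hxM _))
    (M.toStarSubalgebra.smul_mem (h.le _ haA) _)
  have hTs : IsSelfAdjoint T := isSelfAdjoint_sum _ fun c _ => by
    have h1 := hx.conjugate_self (hp.proj c).isSelfAdjoint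
    exact h1
  have hDs : IsSelfAdjoint D := by
    have e2 : (1 / (r : ℂ)) = (((1 / r : ℝ)) : ℂ) := by push_cast; ring
    rw [hD, er, e2, Complex.coe_smul, Complex.coe_smul]
    exact (hTs.sub (IsSelfAdjoint.smul (IsSelfAdjoint.all _) hx)).sub
      (IsSelfAdjoint.smul (IsSelfAdjoint.all _) has)
  set W : H →L[ℂ] H := q0 * D * q0 with hW
  have hWM : W ∈ M := mul_mem (mul_mem hq0M hDM) hq0M
  have hWs : IsSelfAdjoint W := hDs.conjugate_self hq0.isSelfAdjoint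
  have hqq : q0 * q0 = q0 := hq0.isIdempotentElem
  have hqW : q0 * W = W * q0 := by
    rw [hW, mul_assoc (q0 * D) q0 q0, hqq, ← mul_assoc, ← mul_assoc, hqq]
  obtain ⟨g1, hg1M, hg1, hg1c, hg1n, hg1F⟩ := cut_sq hWM hWs hκ0
  have hcom : q0 * g1 = g1 * q0 := hg1c q0 hqW
  have hq : IsStarProjection (q0 * g1) := hq0.mul hg1 hcom
  refine ⟨p, (1 - 1 / (r : ℂ)) • a, q0 * g1, hp, A.smul_mem haA _, ?_, ?_,
    mul_mem hq0M hg1M, hq, ?_, ?_⟩
  · rw [er, Complex.coe_smul]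
    exact IsSelfAdjoint.smul (IsSelfAdjoint.all _) has
  · rw [norm_smul]
    calc ‖(1 - 1 / (r : ℂ))‖ * ‖a‖ ≤ 1 * ‖x‖ := mul_le_mul hern han (norm_nonneg _) zero_le_one
      _ = ‖x‖ := one_mul _
  · intro ξ hξ
    have e1 : (1 - q0 * g1) ξ = (1 - q0) ξ + q0 ((1 - g1) ξ) := by
      change ξ - q0 (g1 ξ) = (ξ - q0 ξ) + q0 (ξ - g1 ξ)
      rw [map_sub]
      abel
    have h1 : κ * ‖(1 - g1) ξ‖ ≤ 2 * τ := (hg1F ξ).trans (hDF ξ hξ)
    have h2 : ‖(1 - g1) ξ‖ ≤ δ / 4 := by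
      have h3 : κ * ‖(1 - g1) ξ‖ ≤ κ * (δ / 4) := by
        refine h1.trans (le_of_eq ?_)
        rw [hτ]
        ring
      exact le_of_mul_le_mul_left h3 hκ0
    have h4 := hq0F ξ hξ
    rw [e1]
    calc ‖(1 - q0) ξ + q0 ((1 - g1) ξ)‖ ≤ ‖(1 - q0) ξ‖ + ‖q0 ((1 - g1) ξ)‖ := norm_add_le _ _
      _ ≤ ‖(1 - q0) ξ‖ + ‖(1 - g1) ξ‖ := by
          have := UpperG_proj hq0 ((1 - g1) ξ)
          linarith
      _ < δ := by linarith
  · have e1 : q0 * g1 * (T - (1 - 1 / (r : ℂ)) • a) * (q0 * g1) =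
        g1 * W * g1 + (1 / (r : ℂ)) • (q0 * g1 * x * (q0 * g1)) := by
      have e2 : T - (1 - 1 / (r : ℂ)) • a = D + (1 / (r : ℂ)) • x := by
        rw [hD]
        abel
      rw [e2, mul_add, add_mul, mul_smul_comm, smul_mul_assoc]
      congr 1
      rw [hcom, hW]
      nth_rw 2 [← hcom]
      simp only [mul_assoc]
    rw [e1]
    have h1 : ‖g1 * W * g1‖ ≤ κ := by
      refine ContinuousLinearMap.opNorm_le_bound _ hκ0.le fun v => ?_
      change ‖g1 (W (g1 v))‖ ≤ κ * ‖v‖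
      calc ‖g1 (W (g1 v))‖ ≤ ‖W (g1 v)‖ := UpperG_proj hg1 _
        _ ≤ κ * ‖g1 v‖ := hg1n v
        _ ≤ κ * ‖v‖ := mul_le_mul_of_nonneg_left (UpperG_proj hg1 v) hκ0.le
    have h2 : ‖(1 / (r : ℂ)) • (q0 * g1 * x * (q0 * g1))‖ ≤ 1 / r * ‖x‖ := by
      rw [norm_smul]
      have e3 : ‖(1 / (r : ℂ))‖ = 1 / (r : ℝ) := by simp
      rw [e3]
      refine mul_le_mul_of_nonneg_left ?_ hr2.le
      have h3 := hq.norm_le
      calc ‖q0 * g1 * x * (q0 * g1)‖ ≤ ‖q0 * g1‖ * ‖x‖ * ‖q0 * g1‖ := (norm_mul_le _ _).trans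
            (mul_le_mul_of_nonneg_right (norm_mul_le _ _) (norm_nonneg _))
        _ ≤ 1 * ‖x‖ * 1 := by gcongr
        _ = ‖x‖ := by ring
    calc _ ≤ κ + 1 / r * ‖x‖ := (norm_add_le _ _).trans (add_le_add h1 h2)
      _ = ε * ‖x‖ := by
          rw [hκ]
          ring

end Vale.Agent.P078
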